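import Vale.Agent.P354XZ.Props2

/-!
The closure of the far zone: tables at a point, the time function, exact statements.
-/

open scoped ContDiff
open Set

noncomputable section

namespace Vale.Agent.P354YL

open Vale.Agent.P354XZ

variable {A : Type} [CommRing A] [Algebra ℂ A]

/-- The orders: m for the gauge, m' and N for the curvature, ia for al. -/
structure Od where
  m : ℕ
  m' : ℕ
  N : ℕ
  ia : ℕ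

def Od.Ok (o : Od) : Prop := o.m' + 6 ≤ o.m ∧ o.m + 5 ≤ 2 * o.m' ∧ o.m ≤ o.N ∧ o.m + 6 ≤ o.ia

/-- The orders on the known set. -/
def Od.up (o : Od) : Od := { o with m' := o.m }

section
variable (C : Ch A)

/-- The strong bound of the class g, and the second bound of al. -/
def Ss : Fam C.J := C.mon (-3 / 40) (-37 / 40) (-3 / 10)
def Sa : Fam C.J := C.mon (37 / 40) (-11 / 8) (3 / 20)

def TabS (n : ℕ) (e : C.J → ℝ) (U : Un A) (Y : Set C.Pt) : Prop :=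
  ∀ x ∈ Y, (∀ i, C.jet n (U.b i) x ≤ e x.1 * C.at' C.Sb x) ∧
    (∀ i, C.jet n (U.g i) x ≤ e x.1 * C.at' (Ss C) x) ∧
    ∀ i, C.jet n (U.h i) x ≤ e x.1 * C.at' C.Sh x
def TabB (n : ℕ) (e : C.J → ℝ) (al : A) : Prop := ∀ x, C.jet n al x ≤ e x.1 * C.at' (Sa C) x

/-- Comparison along the lines of R inside Y, starting from Z. -/
def LinY (Z Y : Set C.Pt) : Prop :=
  ∀ (f : A) (φ : Fam C.J), SmF φ → (∀ x ∈ Y, x ∈ Z → C.md x f ≤ C.at' φ x) →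
    (∀ x ∈ Y, C.md x (C.R f) ≤ deriv (φ x.1 (C.uu x)) (C.rr x)) → ∀ x ∈ Y, C.md x f ≤ C.at' φ x

end

/-- The time function ta; fc phi = phi of ta; Lv j are the levels below the lid; on Z the tables
are known; Bx x is a box in the past of x. -/
structure Tm (C : Ch A) where
  ta : A
  fc : (ℝ → ℝ) → A
  Lv : C.J → Set ℝ
  Z : Set C.Pt
  Bx : C.Pt → Set C.Pt
  top : ∀ j, TopologicalSpace (C.B j).Pt

namespace Tm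
variable {C : Ch A} (T : Tm C)

def tv (x : C.Pt) : ℝ := C.val x T.ta
def Y (j : C.J) (s : ℝ) : Set C.Pt := {x | x.1 = j ∧ T.tv x < s}

structure Is (K : Cut C) : Prop where
  re : C.c T.ta = T.ta
  fc_ev : ∀ φ, ContDiff ℝ ∞ φ → ∀ x : C.Pt, (C.B x.1).ev x.2 (T.fc φ) = (φ (T.tv x) : ℝ)
  fc_c : ∀ φ, ContDiff ℝ ∞ φ → C.c (T.fc φ) = T.fc φ
  fc_X : ∀ φ, ContDiff ℝ ∞ φ → ∀ a, C.X a (T.fc φ) = T.fc (deriv φ) * C.X a T.ta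
  taR : ∀ x, 1 ≤ C.val x (C.R T.ta) ∧ C.val x (C.R T.ta) ≤ 9 / 5
  taT : ∀ x, ∃ g, C.at' C.Sb x ≤ K.pm x.1 * g ∧ 19 / 20 + C.rr x * g ≤ C.val x (C.T T.ta) ∧
    C.val x (C.T T.ta) ≤ 2 + C.rr x
  taO : ∀ x i, C.md x (C.Om i T.ta) ≤ C.rr x / 100
  low : ∀ j, IsLowerSet (T.Lv j)
  cpt : ∀ φ, ContDiff ℝ ∞ φ → ∀ j, ∀ s ∈ T.Lv j, (∀ y, s ≤ y → φ y = 0) →
    T.fc φ * C.fn K.chi ∈ (C.B j).K ∧ T.fc φ * C.fn K.lay ∈ (C.B j).K ∧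
    T.fc φ * C.T (C.fn K.chi) ∈ (C.B j).K ∧ T.fc φ * C.R (C.fn K.chi) ∈ (C.B j).K
  lin : ∀ j, ∀ s ∈ T.Lv j, LinY C T.Z (T.Y j s)
  cont : ∀ j f, @Continuous _ _ (T.top j) _ fun x => (C.B j).ev x f
  cp : ∀ j, ∀ s ∈ T.Lv j, @IsCompact _ (T.top j) {x | T.tv ⟨j, x⟩ ≤ s}
  edge : ∀ j x, (⟨j, x⟩ : C.Pt) ∈ T.Z ∨ x ∈ @closure _ (T.top j) {y | T.tv ⟨j, y⟩ < T.tv ⟨j, x⟩}
  bx : ∀ x ∉ T.Z, ∀ y ∈ T.Bx x, y.1 = x.1 ∧ T.tv y ≤ T.tv x ∧ C.at' K.chi y = 1 ∧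
    C.rr x ≤ 2 * C.rr y ∧ C.rr y ≤ C.rr x ∧ |C.uu y - C.uu x| ≤ 1
  sob : ∀ n, ∃ B, ∀ x ∉ T.Z, ∀ w μ, (C.B x.1).Wt w → 0 ≤ μ → (∀ y ∈ T.Bx x, μ ≤ C.val y w) →
    ∀ f, C.S f = 0 → μ * C.rr x * C.jet n f x ^ 2 ≤ B * (C.B x.1).J (w * C.sl (n + 7) f)

end Tm

variable (C : Ch A) (F F0 : NF A) (t : Fin 4 → A) (K : Cut C) (Vw : List Lt → Fin 5 → A)
  (T : Tm C)

/-- All tables at the point x. -/
structure Tb (o : Od) (e : ℝ) (x : C.Pt) : Prop where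
  b : ∀ i, C.jet o.m ((F.df F0 C).b i) x ≤ e * C.at' C.Sb x
  g : ∀ i, C.jet o.m ((F.df F0 C).g i) x ≤ e * C.at' (Ss C) x
  h : ∀ i, C.jet o.m ((F.df F0 C).h i) x ≤ e * C.at' C.Sh x
  a : C.jet o.ia F.al x ≤ e * C.at' (C.mon (-1) 0 0) x
  a' : C.jet o.ia F.al x ≤ e * C.at' (Sa C) x
  V : ∀ i w k, i ≤ o.m' → i + w.length ≤ o.N →
    C.rr x * C.at' (C.Dt 0 k) x * C.jet i (Vw w k) x ^ 2 ≤ e ^ 2

/-- The densities in the bulk and in the layer: at most n letters X, words of length at most s. -/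
def Qb (l : ℝ) (n s : ℕ) : A :=
  C.dWl (C.Dw K.p l) (C.sl (n + 1)) Vw 0 s + C.dG K.p l (C.sl (n + 1)) (F.df F0 C)
def Ql (l : ℝ) (n s : ℕ) : A :=
  C.dWl (C.DL K.p l) (C.sl (n + 1)) Vw 0 s + C.dG K.p l (C.sl (n + 1)) (F.df F0 C) +
    C.dA l (C.sl (n + 1)) F.al

/-- The small quantity for the size e. -/
def de (j : C.J) (e : ℝ) : ℝ := e * K.pm j + C.R0 j ^ (-1 / 10 : ℝ)

/-- The standing assumptions. -/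
structure Sd : Prop where
  ga : F.Ga F0 C t
  cut : K.Is
  bs : BS C F F0 Vw
  nil : Vw [] = (F.df F0 C).V
  S : ∀ w i, C.S (Vw w i) = 0

/-- Cut-offs in ta below the level s, and weights which decrease with t = u - ka / r. -/
def Cf (s : ℝ) (φ : ℝ → ℝ) : Prop :=
  ContDiff ℝ ∞ φ ∧ (∀ y, φ y ∈ Icc (0 : ℝ) 1 ∧ deriv φ y ≤ 0) ∧ ∀ y, s ≤ y → φ y = 0
def Cw (κ : ℝ) (j : C.J) (ψ : Fam C.J) : Prop :=
  SmF ψ ∧ ∀ q ∈ C.Dom j, 0 ≤ ψ j q.1 q.2 ∧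
    κ * deriv (fun u => ψ j u q.2) q.1 ≤ q.2 ^ 2 * deriv (ψ j q.1) q.2 ∧
    4 * (q.2 ^ 2 * deriv (ψ j q.1) q.2) ≤ 3 * κ * deriv (fun u => ψ j u q.2) q.1

/-- The far estimate for any causal weight; the tables are used on its support. -/
def FA : Prop := Sd C F F0 t K Vw → ∀ (o : Od) n s l, o.Ok → n ≤ o.ia →
  Rng n 0 s o.m o.m' o.N l → ∃ c > 0, ∃ B, 0 ≤ B ∧ ∀ j e ps, 0 ≤ e → de C K j e ≤ c →
    K.Cau F j ps → (∀ x : C.Pt, x.1 = j → Tb C F F0 Vw o e x ∨ ∀ i, C.jet i ps x = 0) →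
    K.E j ps (Qb C F F0 K Vw l n s) ≤ B * K.L j ps (Ql C F F0 K Vw l n s)

/-- Causal weights. -/
def CAUS : Prop := F.Ga F0 C t → K.Is → T.Is K → ∀ κ > 0,
  (∀ x, 2 * (C.rr x * C.md x (F0.mc 0)) ^ 2 ≤ κ) → ∃ c > 0, ∀ (o : Od) j s e φ ψ, s ∈ T.Lv j →
    0 ≤ e → de C K j e ≤ c → (∀ x ∈ T.Y j s, Tb C F F0 Vw o e x) → Cf s φ → Cw C κ j ψ →
    K.Cau F j (T.fc φ * C.fn ψ) ∧
      ∀ x : C.Pt, x.1 = j → x ∉ T.Y j s → ∀ i, C.jet i (T.fc φ * C.fn ψ) x = 0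

/-- The far estimate below the level s. -/
def FAR : Prop := Sd C F F0 t K Vw → T.Is K → ∀ κ > 0,
  (∀ x, 2 * (C.rr x * C.md x (F0.mc 0)) ^ 2 ≤ κ) → ∀ (o : Od) n s l, o.Ok → n ≤ o.ia →
  Rng n 0 s o.m o.m' o.N l → ∃ c > 0, ∃ B, 0 ≤ B ∧ ∀ j σ e φ ψ, σ ∈ T.Lv j → 0 ≤ e →
    de C K j e ≤ c → (∀ x ∈ T.Y j σ, Tb C F F0 Vw o e x) → Cf σ φ → Cw C κ j ψ →
    K.E j (T.fc φ * C.fn ψ) (Qb C F F0 K Vw l n s) ≤
      B * K.L j (T.fc φ * C.fn ψ) (Ql C F F0 K Vw l n s)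

/-- The boundary data of the size e up to the level σ. -/
structure In (o : Od) (ψ : Fam C.J) (j : C.J) (σ e : ℝ) : Prop where
  pt : ∀ x ∈ T.Z, x.1 = j → T.tv x ≤ σ → Tb C F F0 Vw o.up e x
  lay : ∀ φ, Cf σ φ → ∀ l ∈ Icc (0 : ℝ) (1 / 100), ∀ n s, n ≤ o.m + 6 → n + s ≤ o.N + 6 →
    K.L j (T.fc φ * C.fn ψ) (Ql C F F0 K Vw l n s) ≤ e ^ 2

/-- The tables, by continuity. -/
def FT : Prop := Sd C F F0 t K Vw → T.Is K → ∀ κ > 0,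
  (∀ x, 2 * (C.rr x * C.md x (F0.mc 0)) ^ 2 ≤ κ) → ∀ o : Od, o.Ok → ∃ c > 0, ∃ B, 1 ≤ B ∧
  ∀ j ψ ep e, Cw C κ j ψ → (∀ x : C.Pt, x.1 = j → C.at' (C.mon 0 0 (-3 / 10)) x ≤ C.at' ψ x) →
    0 < e → B * e ≤ ep → de C K j ep ≤ c →
    (∀ σ ∈ T.Lv j, (∀ x ∈ T.Y j σ, Tb C F F0 Vw o ep x) → In C F F0 K Vw T o ψ j σ e) →
    ∀ σ ∈ T.Lv j, ∀ x ∈ T.Y j σ, Tb C F F0 Vw o (B * e) x

/-- Transport of the suprema, with the strong table. -/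
def F5s : Prop := F.Ga F0 C t → ∀ n : ℕ, ∃ B, ∀ Z, C.Lin Z → ∀ e0 e1 e2 : C.J → ℝ,
  (∀ j, 0 ≤ e0 j ∧ 0 ≤ e1 j ∧ 0 ≤ e2 j) → TabS C n e0 (F.df F0 C) Z → C.TabA n e0 F.al →
  TabB C n e0 F.al → TabS C n e1 (F.df F0 C) univ → C.TabV n (1 / 100) e2 (F.df F0 C).V univ →
  TabS C n (fun j => B * (e0 j + e2 j + (e1 j + C.R0 j ^ (-1 / 10 : ℝ)) * e1 j)) (F.df F0 C) univ

/-- The inputs, for all charts. -/
structure Inp : Prop where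
  f1 : ∀ (A : Type) [CommRing A] [Algebra ℂ A] (C : Ch A) F F0 t K, F1W C F F0 t K
  f5 : ∀ (A : Type) [CommRing A] [Algebra ℂ A] (C : Ch A) F F0 t K, F5a C F F0 t K
  fs : ∀ (A : Type) [CommRing A] [Algebra ℂ A] (C : Ch A) F F0 t, F5s C F F0 t
  f7 : ∀ (A : Type) [CommRing A] [Algebra ℂ A] (C : Ch A) F F0 t K Vw, BS C F F0 Vw →
    F7 C F F0 t K Vw

end Vale.Agent.P354YL
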