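import Vale.Agent.P354YL.Par
import Vale.Agent.P354XI.Tool
import Vale.Agent.P354XD.Fun
import Vale.Agent.P354XR.Su

/-!
Smooth functions of real elements of the ring of smooth functions, and the chain rule.
-/

open scoped ContDiff
open Set Filter Topology

namespace Vale.Agent.P354YL

open Vale.Agent.P354XG Vale.Agent.P354XI Vale.Agent.P354XD Vale.Agent.P354XR

variable {E : Type} [NormedAddCommGroup E] [NormedSpace ℝ E] {O : Set E}

/-- φ is smooth at all values of the real part of a. -/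
def At (φ : ℝ → ℝ) (a : Sm (on O)) : Prop := ∀ x ∈ O, ContDiffAt ℝ ∞ φ (fv a x).re

theorem At.of {φ : ℝ → ℝ} (h : ContDiff ℝ ∞ φ) (a : Sm (on O)) : At φ a := fun _ _ => h.contDiffAt

theorem At.deriv {φ : ℝ → ℝ} {a : Sm (on O)} (h : At φ a) : At (deriv φ) a := fun x hx =>
  ((h x hx).fderiv_right (m := ∞) (by simp)).clm_apply contDiffAt_const

theorem At.sm (hO : IsOpen O) {φ : ℝ → ℝ} {a : Sm (on O)} (h : At φ a) {x : E} (hx : x ∈ O) :
    ContDiffAt ℝ ∞ (fun y => (φ (fv a y).re : ℂ)) x :=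
  Complex.ofRealCLM.contDiff.contDiffAt.comp x ((h x hx).comp (f := fun y => (fv a y).re) x
    (Complex.reCLM.contDiff.contDiffAt.comp x (fv_sm hO a hx)))

/-- The function φ of the real part of a. -/
noncomputable def cmp (φ : ℝ → ℝ) (a : Sm (on O)) : Sm (on O) :=
  gm (on O) fun p => (φ (fv a p.2).re : ℂ)

theorem fv_cmp (hO : IsOpen O) {φ : ℝ → ℝ} {a : Sm (on O)} (h : At φ a) {x : E} (hx : x ∈ O) :
    fv (cmp φ a) x = (φ (fv a x).re : ℂ) := by
  have : SmF (on O) fun p => (φ (fv a p.2).re : ℂ) := on_of hO fun y hy => h.sm hO hy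
  rw [fv_in _ hx]
  exact ev_on (rs_gm this) hx

theorem cj_cmp (hO : IsOpen O) {φ : ℝ → ℝ} {a : Sm (on O)} (h : At φ a) :
    cj (cmp φ a) = cmp φ a :=
  ext_fv hO fun x hx => by rw [fv_cj, fv_cmp hO h hx, Complex.conj_ofReal]

theorem fv_re {a : Sm (on O)} (r : cj a = a) (x : E) : ((fv a x).re : ℂ) = fv a x := by
  have := fv_cj a x
  rw [r] at this
  exact Complex.conj_eq_iff_re.1 this.symm

/-- The derivation D obeys the chain rule. -/
def Ch (D : Der (Sm (on O))) : Prop :=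
  ∀ φ a, At φ a → cj a = a → D (cmp φ a) = cmp (deriv φ) a * D a

theorem ch_pd (hO : IsOpen O) (v : E) : Ch (pd v : Der (Sm (on O))) := fun φ a h r =>
  ext_fv hO fun x hx => by
    have e : fv (cmp φ a) =ᶠ[𝓝 x] fun y => (φ (fv a y).re : ℂ) :=
      (hO.eventually_mem hx).mono fun y hy => fv_cmp hO h hy
    have d := ((fv_sm hO a hx).differentiableAt (by simp)).hasFDerivAt
    have d1 := Complex.reCLM.hasFDerivAt.comp x d
    have d2 := Complex.ofRealCLM.hasFDerivAt.comp x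
      (((h x hx).differentiableAt (by simp)).hasDerivAt.comp_hasFDerivAt x d1)
    have r2 := fv_re (a := pd v a) (by rw [cj_pd, r]) x
    rw [fv_mul, fv_cmp hO h.deriv hx, fv_pd hO v _ hx, e.fderiv_eq, ← r2, fv_pd hO v a hx]
    refine (congrArg (fun L : E →L[ℝ] ℂ => L v) d2.fderiv).trans ?_
    simp

theorem Ch.add {D D' : Der (Sm (on O))} (h : Ch D) (h' : Ch D') : Ch (D + D') := fun φ a p r => by
  rw [Derivation.add_apply, Derivation.add_apply, h φ a p r, h' φ a p r, mul_add]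

theorem Ch.sub {D D' : Der (Sm (on O))} (h : Ch D) (h' : Ch D') : Ch (D - D') := fun φ a p r => by
  rw [Derivation.sub_apply, Derivation.sub_apply, h φ a p r, h' φ a p r, mul_sub]

theorem Ch.smul {D : Der (Sm (on O))} (h : Ch D) (c : Sm (on O)) : Ch (c • D) := fun φ a p r => by
  rw [Derivation.smul_apply, Derivation.smul_apply, h φ a p r, smul_eq_mul, smul_eq_mul,
    mul_left_comm]

theorem Ch.congr {D D' : Der (Sm (on O))} (h : Ch D) (e : ∀ f, D' f = D f) : Ch D' :=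
  fun φ a p r => by rw [e, e, h φ a p r]

section
variable {O : Set E6} (hO : IsOpen O)
include hO

theorem ch_d (i : Fin 6) : Ch ((hp (on O)).d i) := ((ch_pd hO _).smul _).add ((ch_pd hO _).smul _)
theorem ch_P : Ch (hp (on O)).P := ((ch_d hO _).smul _).sub ((ch_d hO _).smul _)
theorem ch_Q : Ch (hp (on O)).Q := ((ch_d hO _).smul _).sub ((ch_d hO _).smul _)
theorem ch_H : Ch (hp (on O)).H := ((ch_d hO _).smul _).add ((ch_d hO _).smul _)
theorem ch_B : Ch (hp (on O)).B := ((ch_d hO _).smul _).add ((ch_d hO _).smul _)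

omit hO in
theorem ch_V {K : KC (Sm (on O))} (h1 : Ch K.T) (h2 : Ch K.R) (h3 : Ch K.P) (h4 : Ch K.Q)
    (h5 : Ch K.H) (h6 : Ch K.B) (e1 e2 e3 e4 e5 e6 : Sm (on O)) : Ch (K.V e1 e2 e3 e4 e5 e6) :=
  (((((h1.smul _).add (h2.smul _)).add (h3.smul _)).add (h4.smul _)).add (h5.smul _)).add
    (h6.smul _)

theorem ch_kcV (e1 e2 e3 e4 e5 e6 : Sm (on O)) : Ch ((hp (on O)).kc.V e1 e2 e3 e4 e5 e6) :=
  ch_V (ch_d hO 0) (ch_d hO 1) (ch_P hO) (ch_Q hO) (ch_H hO) (ch_B hO) _ _ _ _ _ _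

theorem ch_kkR (p : Pm (Sm (on O))) : Ch (kk (hp (on O)) p).R :=
  (ch_kcV hO _ _ _ _ _ _).sub (Ch.smul (ch_kcV hO _ _ _ _ _ _) _)

theorem ch_kkV (p : Pm (Sm (on O))) (e1 e2 e3 e4 e5 e6 : Sm (on O)) :
    Ch ((kk (hp (on O)) p).V e1 e2 e3 e4 e5 e6) :=
  ch_V (ch_d hO 0) (ch_kkR hO p) (ch_P hO) (ch_Q hO) (ch_H hO) (ch_B hO) _ _ _ _ _ _

theorem ch_Om (j : Fin 3) : Ch (Om (hp (on O)) j) := by
  have d := fun i c => (ch_d hO i).smul c
  fin_cases j
  · exact ((((d _ _).add (d _ _)).sub (d _ _)).sub (d _ _)).smul _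
  · exact ((((d _ _).sub (d _ _)).add (d _ _)).sub (d _ _)).smul _
  · exact ((((d _ _).sub (d _ _)).add (d _ _)).sub (d _ _)).smul _

end

/-- Products and powers. -/
theorem cmp_mul (hO : IsOpen O) {φ ψ : ℝ → ℝ} {a : Sm (on O)} (h : At φ a) (h' : At ψ a) :
    cmp (fun s => φ s * ψ s) a = cmp φ a * cmp ψ a :=
  ext_fv hO fun x hx => by
    rw [fv_mul, fv_cmp hO h hx, fv_cmp hO h' hx,
      fv_cmp hO (φ := fun s => φ s * ψ s) (fun y hy => (h y hy).mul (h' y hy)) hx,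
      Complex.ofReal_mul]

theorem at_rpow {a : Sm (on O)} (p : ∀ x ∈ O, 0 < (fv a x).re) (c : ℝ) :
    At (fun s => s ^ c) a := fun x hx => contDiffAt_id.rpow_const_of_ne (p x hx).ne'

/-- The power a ^ c of a positive element. -/
noncomputable def pw (a : Sm (on O)) (c : ℝ) : Sm (on O) := cmp (fun s => s ^ c) a

theorem fv_pw (hO : IsOpen O) {a : Sm (on O)} (p : ∀ x ∈ O, 0 < (fv a x).re) (c : ℝ) {x : E}
    (hx : x ∈ O) : fv (pw a c) x = (((fv a x).re ^ c : ℝ) : ℂ) := fv_cmp hO (at_rpow p c) hx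

theorem Ch.pw (hO : IsOpen O) {D : Der (Sm (on O))} (h : Ch D) {a : Sm (on O)} (r : cj a = a)
    (p : ∀ x ∈ O, 0 < (fv a x).re) (c : ℝ) :
    D (pw a c) = Ibp.rl _ c * pw a (c - 1) * D a := by
  rw [P354YL.pw, h _ a (at_rpow p c) r]
  congr 1
  refine ext_fv hO fun x hx => ?_
  rw [fv_mul, fv_pw hO p _ hx, fv_cmp hO (at_rpow p c).deriv hx, Ibp.rl, fv_alg _ hx,
    Real.deriv_rpow_const, Complex.ofReal_mul]

end Vale.Agent.P354YL
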