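import Vale.Agent.P354YL.Defs
import Vale.Agent.P354YF.Sy
import Vale.Agent.P354YS.Wt

/-!
The closure of the far estimate in the mean.
-/

open Finset
open Set (Icc)

noncomputable section

namespace Vale.Agent.P354YL

open Vale.Agent.P354XG (Der D_mul D_neg)
open Vale.Agent.P354XI Vale.Agent.P354XZ Vale.Agent.P354YF
open Vale.Agent.P354YS (Ps ps_mon ps_Dw ps_Db ps_Zh ps_OA ps_OB val_dn dn_nonneg om_cons)

variable {A : Type} [CommRing A] [Algebra ℂ A] {C : Ch A}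

theorem om_le (I : List (Fin 5)) : Ch.om I ≤ 2 * I.length := by
  induction I with
  | nil => simp [Ch.om]
  | cons a I ih =>
    have : Ch.om1 a ≤ 2 := by fin_cases a <;> simp [Ch.om1]
    rw [om_cons, List.length_cons]; omega

theorem sw_le {M : ℝ} (hM : 0 ≤ M) (i ρ : ℕ) (Λ : (A → A) →+ ℝ)
    (e : ∀ I : List (Fin 5), I.length = i → ρ ≤ Ch.om I → Λ (fun f => C.sw 0 0 (C.wd I f)) ≤ M) :
    Λ (C.sw i ρ) ≤ 5 ^ i * M := by
  induction i generalizing ρ Λ with
  | zero =>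
    by_cases c : ρ = 0
    · subst c
      rw [pow_zero, one_mul]
      exact e [] rfl (Nat.zero_le _)
    · have : C.sw 0 ρ = 0 := funext fun f => by rw [Ch.sw, if_neg c]; rfl
      rw [this, map_zero]; positivity
  | succ i ih =>
    have : C.sw (i + 1) ρ = ∑ a, fun f => C.sw i (ρ - Ch.om1 a) (C.X a f) :=
      funext fun f => by rw [Ch.sw, Finset.sum_apply]
    rw [this, map_sum]
    refine (sum_le_sum fun a _ => ih _ (AddMonoidHom.mk' (fun o => Λ fun f => o (C.X a f))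
      fun _ _ => Λ.map_add _ _) fun I l k => e (a :: I) (by rw [List.length_cons, l])
        (by rw [om_cons]; omega)).trans_eq ?_
    rw [sum_const, card_univ, Fintype.card_fin, nsmul_eq_mul]
    push_cast
    ring

/-! ### Integrals -/

section
variable (h : C.Is) {j : C.J} {w : A}
include h

theorem vl_rl (x : C.Pt) (a : ℝ) (f : A) : C.val x (Ibp.rl A a * f) = a * C.val x f :=
  ((h.ibp _).val_mul ((h.ibp _).re_rl a) _ f).trans (by rw [(h.ibp _).val_rl]; rfl)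

theorem J_mono (hw : (C.B j).Wt w) {f g : A} (e : ∀ x : C.Pt, x.1 = j → C.val x f ≤ C.val x g) :
    (C.B j).J (w * f) ≤ (C.B j).J (w * g) :=
  (h.ibp j).J_le (Ideal.mul_mem_right _ _ hw.K) (Ideal.mul_mem_right _ _ hw.K) fun x => by
    rw [(h.ibp j).val_mul hw.re, (h.ibp j).val_mul hw.re]
    exact mul_le_mul_of_nonneg_left (e ⟨j, x⟩ rfl) (hw.pos x)

theorem J_le3 (hw : (C.B j).Wt w) {a b c : ℝ} {f g1 g2 g3 : A} (e : ∀ x : C.Pt, x.1 = j →
    C.val x f ≤ a * C.val x g1 + b * C.val x g2 + c * C.val x g3) :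
    (C.B j).J (w * f) ≤ a * (C.B j).J (w * g1) + b * (C.B j).J (w * g2) + c * (C.B j).J (w * g3) := by
  refine (J_mono h hw (g := Ibp.rl A a * g1 + Ibp.rl A b * g2 + Ibp.rl A c * g3) fun x k => ?_).trans_eq ?_
  · rw [vl_add, vl_add, vl_rl h, vl_rl h, vl_rl h]; exact e x k
  · rw [mul_add, mul_add, Ibp.J_add, Ibp.J_add, mul_left_comm, mul_left_comm w, mul_left_comm w,
      Ibp.J_rl, Ibp.J_rl, Ibp.J_rl]

theorem J_pos (hw : (C.B j).Wt w) {f : A} (e : ∀ x : C.Pt, x.1 = j → 0 ≤ C.val x f) :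
    0 ≤ (C.B j).J (w * f) := by
  have := J_mono h hw (f := 0) fun x k => vl_zero.trans_le (e x k)
  rwa [mul_zero, Ibp.J_zero] at this

variable {K : Cut C} {F : NF A} {ps : A}

theorem wt_fn (c : K.Cau F j ps) {φ : Fam C.J} (s : SmF φ) (m : ps * C.fn φ ∈ (C.B j).K)
    (p : ∀ q ∈ C.Dom j, 0 ≤ φ j q.1 q.2) : (C.B j).Wt (ps * C.fn φ) where
  K := m
  re := by rw [Ibp.Re, h.c_eq, map_mul, c.re, h.fn_c φ s]
  pos x := by
    have : ∀ y : C.Pt, y.1 = j → 0 ≤ C.val y (ps * C.fn φ) := fun y e => by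
      rw [vl_mul h c.re, vl_fn h s]
      subst e
      exact mul_nonneg (c.pos y rfl).1 (p _ (h.dom y))
    exact this ⟨j, x⟩ rfl

theorem wtE (k : K.Is) (c : K.Cau F j ps) : (C.B j).Wt (ps * C.fn K.chi) :=
  wt_fn h c k.sm.1 c.cpt.1 fun q e => (k.rng j q e).1.1
theorem wtL (k : K.Is) (c : K.Cau F j ps) : (C.B j).Wt (ps * C.fn K.lay) :=
  wt_fn h c k.sm.2.1 c.cpt.2.1 fun q e => (k.rng j q e).2.1

/-! ### Densities -/

variable {x : C.Pt} {o o' : A → A}

theorem dn_mono {ι : Type} [Fintype ι] {D : ι → Fam C.J} (a : ∀ i, Ps (D i))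
    (e : ∀ f, C.val x (o f) ≤ C.val x (o' f)) (V : ι → A) :
    C.val x (C.dn D o V) ≤ C.val x (C.dn D o' V) := by
  rw [val_dn h a, val_dn h a]
  exact sum_le_sum fun i _ => mul_le_mul_of_nonneg_left (e _) ((a i).at h x).le

variable {D : Fin 5 → Fam C.J} {Vw : List Lt → Fin 5 → A}

theorem dW_mono (a : ∀ i, Ps (D i)) (e : ∀ f, C.val x (o f) ≤ C.val x (o' f)) (k s : ℕ) :
    C.val x (C.dW D o Vw k s) ≤ C.val x (C.dW D o' Vw k s) := by
  rw [Ch.dW, Ch.dW, vl_sum, vl_sum]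
  exact sum_le_sum fun _ _ => dn_mono h a e _

theorem dW_pos (a : ∀ i, Ps (D i)) (e : ∀ f, 0 ≤ C.val x (o f)) (k s : ℕ) :
    0 ≤ C.val x (C.dW D o Vw k s) := by
  rw [Ch.dW, vl_sum]
  exact sum_nonneg fun _ _ => dn_nonneg h a e _

theorem dW_le (a : ∀ i, Ps (D i)) (e : ∀ f, 0 ≤ C.val x (o f)) (k : ℕ) {s s' : ℕ} (l : s' ≤ s) :
    C.val x (C.dW D o Vw k s') ≤ C.val x (C.dWl D o Vw k s) := by
  rw [Ch.dWl, vl_sum]
  exact single_le_sum (f := fun s => C.val x (C.dW D o Vw k s)) (fun _ _ => dW_pos h a e _ _)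
    (mem_range.2 (by omega))

theorem dWl_mono (a : ∀ i, Ps (D i)) {n n' s s' : ℕ} (l : n' ≤ n) (l' : s' ≤ s) (k : ℕ) :
    C.val x (C.dWl D (C.sl n') Vw k s') ≤ C.val x (C.dWl D (C.sl n) Vw k s) := by
  rw [Ch.dWl, Ch.dWl, vl_sum, vl_sum]
  exact (sum_le_sum fun _ _ => dW_mono h a (vl_sl_mono h l) _ _).trans
    (sum_le_sum_of_subset_of_nonneg (range_mono (by omega)) fun _ _ _ => dW_pos h a (vl_sl0 h _) _ _)

theorem dWl_pos (a : ∀ i, Ps (D i)) (n k s : ℕ) : 0 ≤ C.val x (C.dWl D (C.sl n) Vw k s) :=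
  (dW_pos h a (vl_sl0 h n) k s).trans (dW_le h a (vl_sl0 h n) k le_rfl)

variable {p : Fam C.J} {l : ℝ}

theorem dG_mono (a : Ps p) (e : ∀ f, C.val x (o f) ≤ C.val x (o' f)) (U : Un A) :
    C.val x (C.dG p l o U) ≤ C.val x (C.dG p l o' U) := by
  rw [Ch.dG, Ch.dG, vl_add, vl_add, vl_add, vl_add]
  exact add_le_add (add_le_add (dn_mono h (fun _ => ps_mon h ..) e _)
    (dn_mono h (fun _ => ps_mon h ..) e _)) (dn_mono h (ps_Zh h a l) e _)

theorem dG_pos (a : Ps p) (e : ∀ f, 0 ≤ C.val x (o f)) (U : Un A) :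
    0 ≤ C.val x (C.dG p l o U) := by
  rw [Ch.dG, vl_add, vl_add]
  exact add_nonneg (add_nonneg (dn_nonneg h (fun _ => ps_mon h ..) e _)
    (dn_nonneg h (fun _ => ps_mon h ..) e _)) (dn_nonneg h (ps_Zh h a l) e _)

theorem dA_pos (e : ∀ f, 0 ≤ C.val x (o f)) (f : A) : 0 ≤ C.val x (C.dA l o f) := by
  have a : Ps (C.mon (-2) 0 0 * C.Zg l) := (ps_mon h ..).mul (ps_mon h ..)
  rw [Ch.dA, vl_fn_mul h a.sm]
  exact mul_nonneg (a.at h x).le (e f)

theorem dS_pos (a : Ps p) (SA SB : Fin 4 → A) : 0 ≤ C.val x (C.dS p l SA SB) := by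
  rw [Ch.dS, vl_add]
  exact add_nonneg (dn_nonneg h (ps_OA h a l) (vl_sw0 h _ _) _)
    (dn_nonneg h (ps_OB h a l) (vl_sw0 h _ _) _)

theorem ps_DL (a : Ps p) (i : Fin 5) : Ps (C.DL p l i) := (ps_mon h ..).mul (ps_Db h a l i)

omit h in
theorem ps_p (k : K.Is) : Ps K.p := ⟨k.sm.2.2, k.pos⟩

variable {F0 : NF A}

theorem Qb_mono (k : K.Is) {n n' s s' : ℕ} (e : n' ≤ n) (e' : s' ≤ s) :
    C.val x (Qb C F F0 K Vw l n' s') ≤ C.val x (Qb C F F0 K Vw l n s) := by
  rw [Qb, Qb, vl_add, vl_add]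
  exact add_le_add (dWl_mono h (ps_Dw h (ps_p k) l) (by omega) e' 0)
    (dG_mono h (ps_p k) (vl_sl_mono h (by omega)) _)

theorem Qb_pos (k : K.Is) (n s : ℕ) : 0 ≤ C.val x (Qb C F F0 K Vw l n s) := by
  rw [Qb, vl_add]
  exact add_nonneg (dWl_pos h (ps_Dw h (ps_p k) l) ..) (dG_pos h (ps_p k) (vl_sl0 h _) _)

theorem Ql_pos (k : K.Is) (n s : ℕ) : 0 ≤ C.val x (Ql C F F0 K Vw l n s) := by
  rw [Ql, vl_add, vl_add]
  exact add_nonneg (add_nonneg (dWl_pos h (ps_DL h (ps_p k)) ..)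
    (dG_pos h (ps_p k) (vl_sl0 h _) _)) (dA_pos h (vl_sl0 h _) _)

/-! ### The conserved part -/

theorem dA_le (k : K.Is) : ∃ L, 0 ≤ L ∧ ∀ l j ps, K.Cau F j ps → ∀ n g, C.X 1 g = -g →
    K.E j ps (C.dA l (C.sl n) g) ≤ L * K.L j ps (C.dA l (C.sl n) g) := by
  obtain ⟨L, hL⟩ := k.dchi
  refine ⟨|L|, abs_nonneg L, fun l j ps c n => ?_⟩
  have W := ps_mon h (-57 / 20) (46 / 25) (24 / 25 - l)
  have base : ∀ g, C.X 1 g = -g → K.E j ps (C.dA l (C.sl 1) g) ≤
      |L| * K.L j ps (C.dA l (C.sl 1) g) := fun g e => by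
    have v : ∀ x, C.val x (C.dA l (C.sl 1) g) =
        C.at' (C.mon (-57 / 20) (46 / 25) (24 / 25 - l)) x * C.md x g ^ 2 := fun x => by
      rw [Ch.dA, Ch.Zg, vl_fn_mul h ((ps_mon h ..).mul (ps_mon h ..)).sm, sl_one, vl_nsq h, at_mul,
        at_mon_mul h]
      norm_num
    set M := C.fn (C.mon (-57 / 20) (46 / 25) (24 / 25 - l)) with hM
    have rM : C.c M = M := h.fn_c _ W.sm
    have wE := wtE h k c
    have i := (h.skR j).int (Ideal.mul_mem_right (C.r * M * (g * C.c g)) _ wE.K)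
    have e' : C.r * C.R (C.c g) = -C.c g := by rw [← X1, ← X_c h j, e, map_neg]
    have d : C.R (C.r * M * (g * C.c g)) = C.r * (C.R M * (g * C.c g)) - M * (g * C.c g) := by
      rw [D_mul, D_mul, D_mul, R_r h]
      rw [X1] at e
      linear_combination M * g * e' + M * C.c g * e
    rw [D_mul, d, Ibp.J_add] at i
    have i1 := J_le3 h wE (f := C.r * (C.R M * (g * C.c g)) - M * (g * C.c g)) (a := -1) (b := 0)
      (c := 0) (g1 := C.dA l (C.sl 1) g) (g2 := 0) (g3 := 0) fun x _ => by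
      have r := rr_pos h x
      have q := two_le_vv x.1 (C.uu x) (C.rr x)
      have w := W.at h x
      rw [v, sub_eq_add_neg, vl_add, vl_mul h h.c_r, vl_mul h (by rw [R_c h x.1, rM]), vl_nsq h,
        ← neg_mul, ← neg_one_mul M, ← Ibp.rl_one, ← Ibp.rl_neg, mul_assoc, vl_rl h, vl_fn_mul h W.sm,
        vl_nsq h, vl_R_fn h W.sm, (mon_deriv _ _ _ _ _ r).deriv]
      have z : C.rr x * (-57 / 20 / C.rr x + 2 * (46 / 25) / C.vv x.1 (C.uu x) (C.rr x)) ≤ 0 := by
        rw [mul_add, mul_div_cancel₀ _ r.ne', ← mul_div_assoc, add_comm, ← le_neg_iff_add_nonpos_right,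
          div_le_iff₀ (by linarith)]
        linarith
      have := mul_nonpos_of_nonpos_of_nonneg z (mul_nonneg w.le (sq_nonneg (C.md x g)))
      simp only [Ch.at', Ch.rr] at *
      linarith
    have i2 : (C.B j).J (C.r * M * (g * C.c g) * C.R (ps * C.fn K.chi)) ≤
        (C.B j).J (Ibp.rl A |L| * (ps * C.fn K.lay * C.dA l (C.sl 1) g)) :=
      (h.ibp j).J_le (Ideal.mul_mem_left _ _ ((h.skR j).dv.K_D _ wE.K))
        (Ideal.mul_mem_left _ _ (Ideal.mul_mem_right _ _ c.cpt.2.1)) fun y => by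
        set x : C.Pt := ⟨j, y⟩
        have r := rr_pos h x
        have w := mul_nonneg (W.at h x).le (sq_nonneg (C.md x g))
        obtain ⟨p1, p2, -⟩ := c.pos x rfl
        obtain ⟨⟨q1, -⟩, q2, -⟩ := k.rng j _ (h.dom x)
        have q3 := (hL j _ (h.dom x)).2
        change C.val x _ ≤ C.val x _
        rw [vl_rl h, mul_assoc ps, vl_mul h c.re, vl_fn_mul h k.sm.2.1, v, mul_assoc, mul_assoc,
          vl_mul h h.c_r, vl_fn_mul h W.sm, vl_mul h (by rw [map_mul, cc h j, mul_comm]), vl_nsq h,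
          D_mul, vl_add, vl_mul h c.re, vl_fn_mul h k.sm.1, vl_R_fn h k.sm.1]
        have a1 : C.rr x * deriv (K.chi j (C.uu x)) (C.rr x) ≤ |L| * C.at' K.lay x :=
          (mul_le_mul_of_nonneg_left ((le_abs_self _).trans (le_add_of_nonneg_left (abs_nonneg _)))
            r.le).trans (q3.trans (mul_le_mul_of_nonneg_right (le_abs_self L) q2))
        have a2 := mul_le_mul_of_nonneg_left a1 (mul_nonneg p1 w)
        have a3 := mul_nonpos_of_nonneg_of_nonpos (mul_nonneg (mul_nonneg r.le w) q1) p2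
        simp only [Ch.at', Ch.rr] at *
        linarith
    rw [Ibp.J_rl] at i2
    simp only [Cut.E, Cut.L]
    linarith
  induction n with
  | zero => intro g _; simp [Ch.dA, Ch.sl, Cut.E, Cut.L, Ibp.J_zero]
  | succ n ih =>
    intro g e
    have s := sum_le_sum fun a (_ : a ∈ univ) => ih (C.X a g) (by rw [X1_X h, e, D_neg])
    have b := base g e
    simp only [Cut.E, Cut.L, Ch.dA, sl_one] at b
    simp only [Cut.E, Cut.L, Ch.dA, sl_succ, mul_add, mul_sum, Ibp.J_add, Ibp.J_sum] at s ⊢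
    linarith

end

/-! ### The closure -/

/-- q is at most a constant times X if d is small. -/
def Bd {σ : Type} (d X q : σ → ℝ) : Prop := ∃ c > 0, ∃ B, 0 ≤ B ∧ ∀ p, d p ≤ c → q p ≤ B * X p

section
variable {σ : Type} {d X q q' q'' : σ → ℝ}

theorem Bd.add (a : Bd d X q) (b : Bd d X q') : Bd d X fun p => q p + q' p := by
  obtain ⟨c, c0, B, B0, a⟩ := a
  obtain ⟨c', c0', B', B0', b⟩ := b
  refine ⟨min c c', lt_min c0 c0', B + B', add_nonneg B0 B0', fun p e => ?_⟩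
  linarith [a p (e.trans (min_le_left ..)), b p (e.trans (min_le_right ..))]

theorem Bd.sum {ι : Type} (s : Finset ι) {f : ι → σ → ℝ} (a : ∀ i ∈ s, Bd d X (f i)) :
    Bd d X fun p => ∑ i ∈ s, f i p := by
  classical
  induction s using Finset.induction_on with
  | empty => exact ⟨1, one_pos, 0, le_rfl, fun p _ => by simp⟩
  | insert i s hi ih =>
    simp only [sum_insert hi]
    exact (a i (mem_insert_self ..)).add (ih fun k e => a k (mem_insert_of_mem e))

theorem Bd.of (a : Bd d (fun p => q' p + X p) q) (b : Bd d X q') : Bd d X q := by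
  obtain ⟨c, c0, B, B0, a⟩ := a
  obtain ⟨c', c0', B', B0', b⟩ := b
  refine ⟨min c c', lt_min c0 c0', B * (B' + 1), by positivity, fun p e => ?_⟩
  have := mul_le_mul_of_nonneg_left (b p (e.trans (min_le_right ..))) B0
  linarith [a p (e.trans (min_le_left ..))]

end

variable {F F0 : NF A} {t : Fin 4 → A} {K : Cut C} {Vw : List Lt → Fin 5 → A}

/-- The integral of the density of the words of length s as a function of the jet operator. -/
def lam (j : C.J) (w : A) (D : Fin 5 → Fam C.J) (Vw : List Lt → Fin 5 → A) (s : ℕ) :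
    (A → A) →+ ℝ :=
  AddMonoidHom.mk' (fun o => (C.B j).J (w * C.dW D o Vw 0 s)) fun o o' => by
    simp only [Ch.dW, Ch.dn, Pi.add_apply, mul_add, sum_add_distrib, Ibp.J_add]

theorem fa0 (h1 : F1W C F F0 t K) (h5 : F5a C F F0 t K) (h7 : F7 C F F0 t K Vw)
    (st : St C F F0 t K 1) (nil : Vw [] = (F.df F0 C).V) {n s m m' N : ℕ} {l : ℝ}
    (hG : C.TabG m K.ep (F.df F0 C) Set.univ) (hA : C.TabA n K.ep F.al) (hW : C.TabW m' N K.ep Vw)
    (r : Rng n 0 s m m' N l) : ∃ c > 0, ∃ B, 0 ≤ B ∧ ∀ j, K.de j ≤ c → ∀ ps, K.Cau F j ps →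
      K.E j ps (Qb C F F0 K Vw l n s) ≤ B * K.L j ps (Ql C F F0 K Vw l n s) := by
  have h := st.ga.ch
  have k := st.cut
  have pp := ps_p k
  have hl : l ∈ Icc (0 : ℝ) (1 / 100) := r.1.elim (fun a => a.1) fun a => by
    rw [a.1]; constructor <;> norm_num
  let σ := {p : C.J × A // K.Cau F p.1 p.2 ∧ 1 ≤ K.pm p.1}
  let d : σ → ℝ := fun p => K.de p.1.1
  let EQ : σ → ℝ := fun p => K.E p.1.1 p.1.2 (Qb C F F0 K Vw l n s)
  let LQ : σ → ℝ := fun p => K.L p.1.1 p.1.2 (Ql C F F0 K Vw l n s)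
  let X : σ → ℝ := fun p => LQ p + d p ^ 2 * EQ p
  let e : ℕ → (A → A) → σ → ℝ := fun s' o p =>
    lam p.1.1 (p.1.2 * C.fn K.chi) (C.Dw K.p l) Vw s' o
  have E0 : ∀ p, 0 ≤ EQ p := fun p => J_pos h (wtE h k p.2.1) fun x _ => Qb_pos h k ..
  have L0 : ∀ p, 0 ≤ LQ p := fun p => J_pos h (wtL h k p.2.1) fun x _ => Ql_pos h k ..
  have e0 : ∀ s' o p, (∀ x f, 0 ≤ C.val x (o f)) → 0 ≤ e s' o p := fun s' o p a =>
    J_pos h (wtE h k p.2.1) fun x _ => dW_pos h (ps_Dw h pp l) (a x) ..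
  have d2 : ∀ p : σ, (K.ep p.1.1 * K.pm p.1.1) ^ 2 ≤ d p ^ 2 := fun p =>
    pow_le_pow_left₀ (mul_nonneg (k.ep _) (zero_le_one.trans p.2.2)) (le_add_of_nonneg_right
      (Real.rpow_nonneg (zero_le_one.trans (h.one_le _).1) _)) 2
  obtain ⟨c1, c0, B1, h1⟩ := h1 st
  have step : ∀ s' ≤ s, ∀ i ≤ n, ∀ ρ, Bd d
      (fun p => (e s' (C.sw i (ρ + 1)) p + e s' (C.sl i) p) + X p) (e s' (C.sw i ρ)) := by
    intro s' hs i hi ρ
    obtain ⟨B, h7⟩ := h7 st.ga k s' i
    obtain ⟨B', h7⟩ := h7 0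
    refine ⟨min c1 1, lt_min c0 one_pos, 5 ^ i * (|B1| * (|B| + |B'| + 1)), by positivity,
      fun p hp => ?_⟩
    have a1 := e0 s' (C.sw i (ρ + 1)) p fun x => vl_sw0 h _ _
    have a2 := e0 s' (C.sl i) p fun x => vl_sl0 h _
    have a3 := mul_nonneg (sq_nonneg (d p)) (E0 p)
    have a4 := L0 p
    rw [mul_assoc, mul_assoc]
    refine sw_le (by positivity) i ρ _ fun I hI hρ => ?_
    obtain ⟨am, SA, SB, sys, h7⟩ := h7 I hI
    have b1 := h1 _ (hp.trans (min_le_left ..)) l hl _ p.2.1 _ _ am _ SA SB sys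
    have b2 : K.E p.1.1 p.1.2 (∑ w, C.dS K.p l (SA w) (SB w)) ≤ |B| * e s' (C.sw i (ρ + 1)) p +
        |B| * e s' (C.sl i) p + (|B| + |B'|) * d p ^ 2 * EQ p :=
      J_le3 h (wtE h k p.2.1) fun x hx => by
        have a := h7 m m' N hG (fun x => (jet_mono (by omega) _).trans (hA x)) hW l
          ⟨r.1.imp (fun a => ⟨a.1, by omega⟩) fun a => ⟨a.1, by omega⟩, r.2.1, r.2.2.1,
            by have := r.2.2.2; omega⟩ x (hx ▸ hp.trans (min_le_right ..))
        have q1 := dW_mono h (x := x) (Vw := Vw) (ps_Dw h pp l)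
          (vl_sw_mono h i (show ρ + 1 ≤ Ch.om I + 1 by omega)) 0 s'
        have q2 := dW_pos h (x := x) (Vw := Vw) (ps_Dw h pp l) (vl_sw0 h i (Ch.om I + 1)) 0 s'
        have q3 := dW_pos h (x := x) (Vw := Vw) (ps_Dw h pp l) (vl_sl0 h i) 0 s'
        have q4 := Qb_mono h (x := x) (F := F) (F0 := F0) (Vw := Vw) (l := l) k hi hs
        have q5 := Qb_pos h (x := x) (F := F) (F0 := F0) (Vw := Vw) (l := l) k i s'
        have q6 := mul_le_mul (le_abs_self B) (add_le_add q1 le_rfl) (add_nonneg q2 q3) (abs_nonneg B)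
        have q7 := mul_le_mul (mul_le_mul_of_nonneg_right (le_abs_self B) (sq_nonneg (d p))) q4 q5
          (by positivity)
        have q8 := mul_le_mul (mul_le_mul (le_abs_self B') (d2 p) (sq_nonneg _) (abs_nonneg _)) q4 q5
          (by positivity)
        rw [sml, hx, vl_add] at a
        change _ ≤ _ + (_ * C.val x (Qb C F F0 K Vw l i s') + _ * C.val x (Qb C F F0 K Vw l i s')) at a
        linarith
    have b3 : K.L p.1.1 p.1.2 (∑ w, C.dn (C.DL K.p l) (C.sw 0 0)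
        fun i => C.wd I (C.Vs Vw 0 s' w i)) ≤ LQ p :=
      J_mono h (wtL h k p.2.1) fun x _ => by
        have q1 := dW_mono h (x := x) (Vw := Vw) (ps_DL (l := l) h pp)
          (o := fun f => C.sw 0 0 (C.wd I f)) (o' := C.sl (n + 1)) (fun f => (vl_sw00 h _).trans_le
            ((md_wd_sw h I (Nat.zero_le _) f).trans ((vl_sw_le_sl h _ _ f).trans
              (vl_sl_mono h (by omega) f)))) 0 s'
        have q2 := dW_le h (x := x) (Vw := Vw) (ps_DL (l := l) h pp) (vl_sl0 h (n + 1)) 0 hs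
        have q3 := dG_pos h (x := x) (l := l) pp (vl_sl0 h (n + 1)) (F.df F0 C)
        have q4 := dA_pos h (x := x) (l := l) (vl_sl0 h (n + 1)) F.al
        rw [Ql, vl_add, vl_add]
        exact q1.trans (by linarith)
    have b4 : 0 ≤ K.E p.1.1 p.1.2 (∑ w, C.dS K.p l (SA w) (SB w)) :=
      J_pos h (wtE h k p.2.1) fun x _ => by
        rw [vl_sum]; exact sum_nonneg fun _ _ => dS_pos h pp ..
    have b5 : 0 ≤ K.L p.1.1 p.1.2 (∑ w, C.dn (C.DL K.p l) (C.sw 0 0)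
        fun i => C.wd I (C.Vs Vw 0 s' w i)) :=
      J_pos h (wtL h k p.2.1) fun x _ => by
        rw [vl_sum]; exact sum_nonneg fun _ _ => dn_nonneg h (ps_DL h pp) (vl_sw0 h _ _) _
    refine b1.trans (mul_le_mul (le_abs_self _) ?_ (add_nonneg b4 b5) (abs_nonneg _))
    have := mul_nonneg (abs_nonneg B') (add_nonneg (add_nonneg a1 a2) a4)
    have := mul_nonneg (abs_nonneg B) a4
    simp only [X]
    linarith
  have low : ∀ s' i, (∀ i' < i, Bd d X (e s' (C.sw i' 0))) → Bd d X (e s' (C.sl i)) := by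
    intro s' i a
    have : e s' (C.sl i) = fun p => ∑ i' ∈ range i, e s' (C.sw i' 0) p := funext fun p => by
      rw [show C.sl i = ∑ i' ∈ range i, C.sw i' 0 from funext fun f => by
        rw [Ch.sl, Finset.sum_apply]]
      exact map_sum ..
    rw [this]
    exact Bd.sum _ fun i' e => a i' (mem_range.1 e)
  have all : ∀ s' ≤ s, ∀ i ≤ n, Bd d X (e s' (C.sw i 0)) := by
    intro s' hs i
    induction i using Nat.strong_induction_on with
    | _ i ih =>
      intro hi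
      have lo := low s' i fun i' e => ih i' e (by omega)
      have : ∀ q ρ, ρ + q = 2 * i + 1 → Bd d X (e s' (C.sw i ρ)) := by
        intro q
        induction q with
        | zero =>
          exact fun ρ a => ⟨1, one_pos, 0, le_rfl, fun p _ => (sw_le le_rfl i ρ _ fun I b c => by
            have := om_le I; omega).trans_eq (by rw [mul_zero, zero_mul])⟩
        | succ q iq => exact fun ρ a => (step s' hs i hi ρ).of ((iq _ (by omega)).add lo)
      exact this _ 0 (zero_add _)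
  have top : ∀ s' ≤ s, Bd d X (e s' (C.sl (n + 1))) := fun s' hs =>
    low s' _ fun i e => all s' hs i (by omega)
  have gau : Bd d X fun p => K.E p.1.1 p.1.2 (C.dG K.p l (C.sl (n + 1)) (F.df F0 C)) := by
    obtain ⟨c, c0, B, h5⟩ := h5 st.ga k n
    obtain ⟨B', h5⟩ := h5 0
    obtain ⟨L, hL, hd⟩ := dA_le (F := F) h k
    refine Bd.of ⟨c, c0, |B| * (L + 1) + |B'|, by positivity, fun p hp => ?_⟩ (top 0 (Nat.zero_le _))
    have a := h5 m hG hA (by have := r.1; have := r.2.1; omega) _ hp l hl _ p.2.1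
    have wE := wtE h k p.2.1
    have wL := wtL h k p.2.1
    have a1 : K.E p.1.1 p.1.2 (C.dn (C.Dw K.p l) (C.sl (n + 1)) (F.df F0 C).V) =
        e 0 (C.sl (n + 1)) p := by
      simp only [e, lam, AddMonoidHom.mk'_apply, Ch.dW, univ_unique, sum_singleton, ← nil]
      rfl
    have a2 := hd l _ _ p.2.1 (n + 1) F.al (by
      have := st.ga.is.al.1
      rw [D_mul, R_r h, mul_one] at this
      rw [X1]; linear_combination this)
    have a3 : 0 ≤ K.L p.1.1 p.1.2 (C.dA l (C.sl (n + 1)) F.al) :=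
      J_pos h wL fun x _ => dA_pos h (vl_sl0 h _) _
    have a4 : 0 ≤ K.E p.1.1 p.1.2 (C.dA l (C.sl (n + 1)) F.al) :=
      J_pos h wE fun x _ => dA_pos h (vl_sl0 h _) _
    have a5 : 0 ≤ K.L p.1.1 p.1.2 (C.dG K.p l (C.sl (n + 1)) (F.df F0 C)) :=
      J_pos h wL fun x _ => dG_pos h pp (vl_sl0 h _) _
    have a6 : 0 ≤ K.E p.1.1 p.1.2 (C.dG K.p l (C.sl (n + 1)) (F.df F0 C)) :=
      J_pos h wE fun x _ => dG_pos h pp (vl_sl0 h _) _
    have a7 : K.E p.1.1 p.1.2 (C.dG K.p l (C.sl (n + 1)) (F.df F0 C)) ≤ EQ p :=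
      J_mono h wE fun x _ => by
        rw [Qb, vl_add]; exact le_add_of_nonneg_left (dWl_pos h (ps_Dw h pp l) ..)
    have a8 : K.L p.1.1 p.1.2 (C.dG K.p l (C.sl (n + 1)) (F.df F0 C)) +
        K.L p.1.1 p.1.2 (C.dA l (C.sl (n + 1)) F.al) ≤ LQ p := by
      have : 0 ≤ K.L p.1.1 p.1.2 (C.dWl (C.DL K.p l) (C.sl (n + 1)) Vw 0 s) :=
        J_pos h wL fun x _ => dWl_pos h (ps_DL h pp) ..
      simp only [LQ, Ql, Cut.L, mul_add, Ibp.J_add] at *
      linarith
    have a9 := e0 0 (C.sl (n + 1)) p fun x => vl_sl0 h _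
    have b0 : K.ep p.1.1 ^ 2 * K.pm p.1.1 ≤ d p ^ 2 := (d2 p).trans' (by
      have := p.2.2
      rw [mul_pow]
      exact mul_le_mul_of_nonneg_left (by nlinarith) (sq_nonneg _))
    have b1 := mul_le_mul (le_abs_self B') (mul_le_mul b0 a7 a6 (sq_nonneg _))
      (mul_nonneg (mul_nonneg (sq_nonneg _) (zero_le_one.trans p.2.2)) a6) (abs_nonneg _)
    have b3 := mul_nonneg (sq_nonneg (d p)) (E0 p)
    have b2 := mul_le_mul (le_abs_self B) (show e 0 (C.sl (n + 1)) p +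
      K.L p.1.1 p.1.2 (C.dG K.p l (C.sl (n + 1)) (F.df F0 C)) +
      K.E p.1.1 p.1.2 (C.dA l (C.sl (n + 1)) F.al) ≤ (L + 1) * (e 0 (C.sl (n + 1)) p + X p) by
        have := mul_nonneg hL (add_nonneg (add_nonneg a9 b3) a5)
        have := mul_le_mul_of_nonneg_left a8 hL
        simp only [X]
        linarith) (by positivity) (abs_nonneg _)
    have b4 := mul_nonneg (abs_nonneg B') (add_nonneg a9 (L0 p))
    change K.E _ _ (C.dG K.p l (C.sl (n + 1)) (F.df F0 C)) ≤ B * (K.E _ _ (C.dn _ _ (F.df F0 C).V) +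
      K.L _ _ (C.dG K.p l (C.sl (n + 1)) (F.df F0 C)) + K.E _ _ (C.dA l (C.sl (n + 1)) F.al)) +
      _ * K.E _ _ (C.dG K.p l (C.sl (n + 1)) (F.df F0 C)) at a
    rw [a1] at a
    simp only [X] at b2 ⊢
    linarith
  obtain ⟨c, c0, B, B0, fin⟩ :=
    (Bd.sum (range (s + 1)) fun s' a => top s' (by have := mem_range.1 a; omega)).add gau
  refine ⟨min c (min 1 (1 / (2 * B + 1))), by positivity, 2 * B, by positivity, fun j hj ps c => ?_⟩
  by_cases hx : ∃ x : C.Pt, x.1 = j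
  · obtain ⟨x, rfl⟩ := hx
    have pm := k.ple _ _ (h.dom x)
    let p : σ := ⟨(x.1, ps), c, pm.1.trans pm.2.1⟩
    have a := fin p (hj.trans (min_le_left ..))
    have e1 : ∑ s' ∈ range (s + 1), e s' (C.sl (n + 1)) p +
        K.E p.1.1 p.1.2 (C.dG K.p l (C.sl (n + 1)) (F.df F0 C)) = EQ p := by
      simp only [EQ, Qb, Ch.dWl, Cut.E, mul_add, mul_sum, Ibp.J_add, Ibp.J_sum]
      rfl
    have d0 : 0 ≤ d p := add_nonneg (mul_nonneg (k.ep _) (zero_le_one.trans p.2.2))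
      (Real.rpow_nonneg (zero_le_one.trans (h.one_le _).1) _)
    have d1 : d p ≤ 1 := hj.trans ((min_le_right ..).trans (min_le_left ..))
    have d3 : d p * (2 * B + 1) ≤ 1 := (le_div_iff₀ (by positivity)).1
      (hj.trans ((min_le_right ..).trans (min_le_right ..)))
    have d4 : B * d p ^ 2 ≤ 1 / 2 := by nlinarith [mul_nonneg B0 d0]
    have := mul_le_mul_of_nonneg_right d4 (E0 p)
    change EQ p ≤ 2 * B * LQ p
    simp only [e1, X] at a
    linarith
  · have := J_mono h (wtE h k c) (f := Qb C F F0 K Vw l n s) (g := 0) fun x e => (hx ⟨x, e⟩).elim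
    rw [mul_zero, Ibp.J_zero] at this
    exact this.trans (mul_nonneg (by positivity) (J_pos h (wtL h k c) fun x _ => Ql_pos h k ..))

end Vale.Agent.P354YL
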