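import Vale.Agent.P354YK.Ins
import Vale.Agent.P354XW.Sob6
import Vale.Agent.P354EF.Hom
import Vale.Agent.P354CV.Box
import Vale.Agent.P354YL.Fa

/-!
The boxes of the far chart and the Sobolev inequality on them.
-/

open Set MeasureTheory

noncomputable section

namespace Vale.Agent.P354YL

open Vale.Agent.P354XG Vale.Agent.P354XI Vale.Agent.P354XD Vale.Agent.P354XR Vale.Agent.P354Z
open Vale.Agent.P354XZ Vale.Agent.P354YF Vale.Agent.P354YK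
open Vale.Agent.P354XW (bx ed6 mem6 nq_bx sob6 fv_le pq_eq pq_om up ed5 e4)
open Vale.Agent.P354EF (sr eu eu_ap sr_mem nq_sr orb0 base_eu)

section abs
variable {A : Type} [CommRing A] [Algebra ℂ A] {C : P354XZ.Ch A} (h : C.Is) (x : C.Pt)
include h

theorem sl_qq (n : ℕ) (f : A) : C.val x (C.sl (n + 1) f) ≤ qq (C.B x.1) C.X x.2 n f := by
  induction n generalizing f with
  | zero => rw [zero_add, sl_one, vl_nsq h]; rfl
  | succ n ih =>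
    rw [sl_succ, vl_add, vl_nsq h, vl_sum]
    exact add_le_add (md_le_qq n f) (Finset.sum_le_sum fun a _ => ih _)

theorem qq_sl (n : ℕ) (f : A) : qq (C.B x.1) C.X x.2 n f ≤ 2 ^ n * C.val x (C.sl (n + 1) f) := by
  induction n generalizing f with
  | zero => rw [zero_add, sl_one, vl_nsq h, pow_zero, one_mul]; rfl
  | succ n ih =>
    have a : C.val x (C.sl (n + 1) f) ≤ C.val x (C.sl (n + 1 + 1) f) :=
      vl_sl_mono h (Nat.le_succ _) f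
    have b : ∑ a, C.val x (C.sl (n + 1) (C.X a f)) ≤ C.val x (C.sl (n + 1 + 1) f) := by
      rw [sl_succ (n + 1), vl_add, vl_nsq h, vl_sum]
      exact le_add_of_nonneg_left (sq_nonneg _)
    have c := Finset.sum_le_sum fun a (_ : a ∈ Finset.univ) => ih (C.X a f)
    rw [← Finset.mul_sum] at c
    have d := mul_le_mul_of_nonneg_left (add_le_add a b) (pow_nonneg (zero_le_two (α := ℝ)) n)
    rw [qq, pow_succ]
    linarith [ih f]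

omit x in
theorem J_sq {j : C.J} {w : A} (hw : (C.B j).Wt w) (n : ℕ) (f : A) :
    (C.B j).J (w * P354YF.sq C.c C.X n f) ≤ 2 ^ n * (C.B j).J (w * C.sl (n + 1) f) := by
  refine (J_mono h hw (g := Ibp.rl A (2 ^ n) * C.sl (n + 1) f) fun x _ => ?_).trans_eq ?_
  · rw [P354YL.vl_rl h, ← h.c_eq x.1]
    exact (val_sq (h.ibp x.1) n f).trans_le (qq_sl h x n f)
  · rw [mul_left_comm, Ibp.J_rl]

end abs

theorem num3 {u s0 s1 d o r ρ m : ℝ} (d0 : 0 ≤ d) (o0 : 0 ≤ o) (r0 : 0 ≤ r) (hr : r ≤ 2 * ρ)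
    (b : ρ * d ≤ s1 + m * s0) (c : m * s0 ≤ s0) :
    1 / 4 * s0 ^ 2 ≤ 8 * (u ^ 2 + (s0 ^ 2 + s1 ^ 2 + o)) ∧
      r ^ 2 * d ^ 2 ≤ 8 * (u ^ 2 + (s0 ^ 2 + s1 ^ 2 + o)) ∧
      0 ^ 2 + 4 * o ≤ 300 * 8 * (u ^ 2 + (s0 ^ 2 + s1 ^ 2 + o)) := by
  have e := pow_le_pow_left₀ (mul_nonneg r0 d0) (show r * d ≤ 2 * (s1 + s0) by
    linarith [mul_le_mul_of_nonneg_right hr d0]) 2
  have := sq_nonneg s0
  have := sq_nonneg s1
  have := sq_nonneg (s0 - s1)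
  have := sq_nonneg u
  exact ⟨by linarith, by linarith, by linarith⟩

section one
variable {O : Set E6} {y : E6}

theorem fd_split (h : Cone O) (M0 M a : ℝ) (f : Sm (on O)) (hy : y ∈ O) (v : E6) :
    fderiv ℝ (fv f) y v = (v.1 - 4 * M0 ^ 2 / y.2.1 ^ 2 * v.2.1 : ℝ) * fv ((hp (on O)).d 0 f) y +
      (v.2.1 : ℝ) * fv ((kO O M0 M a).R f) y + fderiv ℝ (fv f) y (0, 0, v.2.2) := by
  have e : v = (v.1 - 4 * M0 ^ 2 / y.2.1 ^ 2 * v.2.1) • v1 0 +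
      v.2.1 • ((4 * M0 ^ 2 / y.2.1 ^ 2, 1, 0) : E6) + (0, 0, v.2.2) := by
    ext <;> simp [v1, mul_comm]
  rw [fv_R h _ _ _ _ hy, fv_d h.op _ _ hy]
  conv_lhs => rw [e, map_add, map_add, map_smul, map_smul]
  simp [d1, d2]

theorem fd_ang (h : Cone O) {f : Sm (on O)} (e : eu O f = 0) (hy : y ∈ O) (n : 3 / 4 ≤ nq y)
    (z : ℂ × ℂ) : ‖fderiv ℝ (fv f) y (0, 0, z)‖ ^ 2 ≤
      16 * nq (0, 0, z) * ∑ j, ‖fv (Om (hp (on O)) j f) y‖ ^ 2 := by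
  have a := fv_le h.op f hy (0, 0, z)
  have b := pq_eq f hy
  have c := pq_om f hy
  rw [← eu_ap, e, fv_zero] at c
  rw [fv_pd h.op _ _ hy] at a
  have z0 : 0 ≤ ∑ i : Fin 4, ‖fv ((hp (on O)).d i.succ.succ f) y‖ ^ 2 := by positivity
  have z1 : 0 ≤ nq (0, 0, z) := add_nonneg (Complex.normSq_nonneg _) (Complex.normSq_nonneg _)
  have d := mul_le_mul_of_nonneg_left (show 3 * ∑ i : Fin 4, ‖fv ((hp (on O)).d i.succ.succ f) y‖ ^ 2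
    ≤ 8 * ∑ j, ‖fv (Om (hp (on O)) j f) y‖ ^ 2 by
      simp only [norm_zero] at c; nlinarith [mul_le_mul_of_nonneg_right n z0]) z1
  simp only at a
  nlinarith

theorem reCLM_fd (hO : IsOpen O) (f : Sm (on O)) (hy : y ∈ O) :
    HasFDerivAt (rv f) (Complex.reCLM.comp (fderiv ℝ (fv f) y)) y :=
  Complex.reCLM.hasFDerivAt.comp y ((fv_sm hO _ hy).differentiableAt (by simp)).hasFDerivAt

/-- The unit spinor, and the edges. -/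
def nrm (x : E6) : E6 := sr (√(nq x))⁻¹ x
def eg (θ r : ℝ) : Fin 6 → E6 :=
  ed6 (-1 / 2) (-(θ / 16 * r)) (θ / 20) 0 fun _ => -(θ / 100 * r)

variable {x : E6} {θ : ℝ}

theorem nrm_pos (h : An x) : 0 < (√(nq x))⁻¹ := inv_pos.2 (Real.sqrt_pos.2 (by linarith [h.1]))

theorem nq_nrm (h : An x) : nq (nrm x) = 1 := by
  have : 0 < nq x := by linarith [h.1]
  rw [nrm, nq_sr, inv_pow, Real.sq_sqrt this.le, inv_mul_cancel₀ this.ne']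

theorem eg_geo (h : An x) (h0 : 0 < θ) (h1 : θ ≤ 1) (hr : 0 < x.2.1)
    (hy : y ∈ bx (nrm x) (eg θ x.2.1)) : x.1 - 1 / 2 ≤ y.1 ∧ y.1 ≤ x.1 ∧
      x.2.1 - θ / 8 * x.2.1 ≤ y.2.1 ∧ y.2.1 ≤ x.2.1 ∧ 3 / 4 ≤ nq y ∧ nq y ≤ 5 / 4 := by
  have n := nq_bx hy
  rw [nq_nrm h] at n
  obtain ⟨a, b, t, a0, a1, b0, b1, ht, e1, e2, -⟩ := mem6 hy
  simp only [Pi.zero_apply, mul_zero, Finset.sum_const_zero, add_zero, Fin.sum_univ_four] at e1 e2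
  have p : 0 < θ * x.2.1 := mul_pos h0 hr
  have q : ∀ s : ℝ, 0 ≤ s ∧ s ≤ 1 → 0 ≤ s * (θ * x.2.1) ∧ s * (θ * x.2.1) ≤ θ * x.2.1 := fun s k =>
    ⟨mul_nonneg k.1 p.le, mul_le_of_le_one_left p.le k.2⟩
  have q0 := q _ (ht 0)
  have q1 := q _ (ht 1)
  have q2 := q _ (ht 2)
  have q3 := q _ (ht 3)
  have q4 := q b ⟨b0, b1⟩
  rw [show (nrm x).1 = x.1 from rfl] at e1
  rw [show (nrm x).2.1 = x.2.1 from rfl] at e2
  have s : θ ^ 2 ≤ 1 := pow_le_one₀ h0.le h1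
  refine ⟨by linarith, by linarith, by linarith, by linarith, by nlinarith, by nlinarith⟩

theorem eg_uu {M R θ' : ℝ} (h : An x) (h0 : 0 < θ) (h1 : θ ≤ 1) (hM : 24 * M ^ 2 ≤ R)
    (hR : 1 ≤ θ * R) (hr : 8 * R < x.2.1) (h2 : θ ≤ θ') (hu : θ' * x.2.1 < uu M x + x.2.1)
    (hy : y ∈ bx (nrm x) (eg θ x.2.1)) : 1 ≤ R ∧ 7 * R ≤ y.2.1 ∧ x.2.1 ≤ 2 * y.2.1 ∧
      θ' * y.2.1 / 4 ≤ uu M y + y.2.1 ∧ |uu M y - uu M x| ≤ 1 := by
  have R1 : 1 ≤ R := by nlinarith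
  have p : 0 < x.2.1 := by linarith
  obtain ⟨a, b, c, d, -⟩ := eg_geo h h0 h1 p hy
  have e : 7 / 8 * x.2.1 ≤ y.2.1 := by nlinarith
  have q : 0 < y.2.1 := by linarith
  have f : 4 * M ^ 2 / x.2.1 ≤ 4 * M ^ 2 / y.2.1 := div_le_div_of_nonneg_left (by positivity) q d
  have g : 4 * M ^ 2 / y.2.1 ≤ 1 := (div_le_one q).2 (by linarith)
  have k : 0 ≤ 4 * M ^ 2 / x.2.1 := by positivity
  have l := mul_le_mul_of_nonneg_left d (h0.le.trans h2)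
  have m := mul_le_mul_of_nonneg_right h2 p.le
  have n := mul_le_mul_of_nonneg_left hr.le h0.le
  simp only [uu] at hu ⊢
  exact ⟨R1, by linarith, by linarith, by linarith, abs_le.2 ⟨by linarith, by linarith⟩⟩

variable {c : Cs} {E : Est}

theorem eg_fd (S : E.Shape c) (cw : 0 ≤ c.cw ∧ 0 ≤ c.R1) (h0 : 0 < θ) {r : ℝ} (hy : y ∈ E.O2) (f : Est.Fa c y)
    (n : 3 / 4 ≤ nq y) (r1 : 1 ≤ y.2.1) (hM : 24 * c.M ^ 2 ≤ y.2.1) (hr : y.2.1 ≤ r) (k : Fin 6) :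
    (fderiv ℝ (fv E.tau) y (eg θ r k)).re ≤ 0 := by
  have T := S.taT y hy f
  have R := (S.taR y hy f).1
  have T0 : 0 ≤ rv ((E.K2 c).T E.tau) y := by
    have := mul_nonneg (mul_nonneg cw.1 (zero_le_one.trans r1))
      (Real.rpow_nonneg (add_nonneg (abs_nonneg (uu c.M y)) cw.2) (-1 - c.d0))
    linarith [T.1]
  have D : 1 / 2 ≤ rv ((E.K2 c).R E.tau) y - 4 * c.M ^ 2 / y.2.1 ^ 2 * rv ((E.K2 c).T E.tau) y := by
    have a : 4 * c.M ^ 2 / y.2.1 ^ 2 * (2 + y.2.1) ≤ 1 / 2 := by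
      rw [div_mul_eq_mul_div, div_le_iff₀ (by positivity)]; nlinarith [sq_nonneg c.M]
    linarith [mul_le_mul_of_nonneg_left T.2 (show 0 ≤ 4 * c.M ^ 2 / y.2.1 ^ 2 by positivity)]
  have p : 0 ≤ θ * r := by nlinarith
  rw [fd_split S.co2 c.M E.M E.a _ hy, Complex.add_re, Complex.add_re, Complex.re_ofReal_mul,
    Complex.re_ofReal_mul]
  change _ * rv ((E.K2 c).T E.tau) y + _ * rv ((E.K2 c).R E.tau) y + _ ≤ 0
  refine Fin.cases ?_ (fun k => Fin.cases ?_ (fun k => ?_) k) k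
  · simp [eg, ed6, up, Prod.mk_zero_zero]
    linarith
  · simp [eg, ed6, ed5, up, Prod.mk_zero_zero]
    nlinarith
  · have a := fd_ang S.co2 (base_eu S.co2 S.b2).2 hy n ((θ / 20) • e4 k)
    have b : nq (0, 0, (θ / 20) • e4 k) = (θ / 20) ^ 2 := by
      generalize θ / 20 = δ
      fin_cases k <;> simp [nq, e4, pow_two]
    have d : ∑ j, ‖fv (Om (hp (on E.O2)) j E.tau) y‖ ^ 2 ≤ 3 * (r / 100) ^ 2 :=
      (Finset.sum_le_card_nsmul _ _ ((r / 100) ^ 2) fun j _ => pow_le_pow_left₀ (norm_nonneg _)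
        ((S.taO y hy f j).trans (by linarith)) 2).trans_eq (by simp)
    rw [b] at a
    change ((0 : ℝ) - _ * -(θ / 100 * r)) * _ + -(θ / 100 * r) * _ +
      (fderiv ℝ (fv E.tau) y (0, 0, (θ / 20) • e4 k)).re ≤ 0
    generalize fderiv ℝ (fv E.tau) y (0, 0, (θ / 20) • e4 k) = z at a ⊢
    generalize ∑ j, ‖fv (Om (hp (on E.O2)) j E.tau) y‖ ^ 2 = s at a d
    have e := (Complex.re_le_norm z).trans (abs_le_of_sq_le_sq' (b := θ * r / 200) (by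
      nlinarith [mul_le_mul_of_nonneg_left d (sq_nonneg θ), sq_nonneg (θ * r)]) (by positivity)).2
    nlinarith [mul_le_mul_of_nonneg_left D p]

theorem eg_sub {R : ℝ} (S : E.Shape c) (cw : 0 ≤ c.cw ∧ 0 ≤ c.R1) (R1 : c.R1 + 3 ≤ R)
    (hx : x ∈ E.O2) (h : An x) (h0 : 0 < θ) (h1 : θ ≤ 1) (hM : 24 * c.M ^ 2 ≤ R) (hR : 1 ≤ θ * R)
    (hr : 8 * R < x.2.1) (hu : θ * x.2.1 < uu c.M x + x.2.1) (hy : y ∈ bx (nrm x) (eg θ x.2.1)) :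
    y ∈ E.O2 ∧ rv E.tau y ≤ rv E.tau x := by
  have p : 0 < x.2.1 := (S.co2.pos x hx).1
  have m : nrm x ∈ E.O2 := sr_mem S.co2 (nrm_pos h).ne' hx
  have e : rv E.tau (nrm x) = rv E.tau x :=
    congrArg Complex.re (orb0 S.co2 (base_eu S.co2 S.b2).2 (nrm_pos h) x)
  have g : ∀ y ∈ bx (nrm x) (eg θ x.2.1), An y ∧ Est.Fa c y := fun y hy => by
    obtain ⟨-, -, -, -, a, b⟩ := eg_geo h h0 h1 p hy
    obtain ⟨c, d, -, e, -⟩ := eg_uu h h0 h1 hM hR hr le_rfl hu hy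
    exact ⟨⟨by linarith, by linarith⟩, by linarith, le_trans (by nlinarith) e⟩
  have k := P354CV.trap_bx (σ := rv E.tau) S.co2.op (S.cp2 _ (S.lv2 _ m)).isClosed
    (fun _ a => a.1) (fun y a => (reCLM_fd S.co2.op _ a).differentiableAt)
    ⟨m, (g _ (P354XW.bx_self _ _)).1, le_rfl, (g _ (P354XW.bx_self _ _)).2⟩ (fun _ a => a.2.2.1)
    (fun y hy a k => by
      obtain ⟨-, -, -, b, n, -⟩ := eg_geo h h0 h1 p hy
      obtain ⟨c, d, -⟩ := eg_uu h h0 h1 hM hR hr le_rfl hu hy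
      rw [(reCLM_fd S.co2.op _ a).fderiv]
      exact eg_fd S cw h0 a (g y hy).2 n (by linarith) (by linarith) b k)
    (fun y hy a b => ⟨a, (g y hy).1, b, (g y hy).2⟩) hy
  exact ⟨k.1, e ▸ k.2.2.1⟩

end one

/-- The hypotheses on the family. -/
structure Hy (Φ : Fm) (θ : ℝ) : Prop where
  sh : ∀ j, (Φ.E j).Shape (Φ.c j)
  cw : ∀ j, 0 ≤ (Φ.c j).cw ∧ 0 ≤ (Φ.c j).R1
  R1 : ∀ j, (Φ.c j).R1 + 3 ≤ Φ.R0 j
  M : ∀ j, 24 * Φ.M0 ^ 2 ≤ Φ.R0 j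
  th : 0 < θ ∧ θ ≤ 1
  R0 : ∀ j, 1 ≤ θ * Φ.R0 j

variable {Φ : Fm} (h : Φ.Ok) {θ : ℝ}

/-- The box in the past of x. -/
def Bx (θ : ℝ) (x : h.ch.Pt) : Set h.ch.Pt :=
  {y | y.1 = x.1 ∧ h.pt y ∈ bx (nrm (h.pt x)) (eg θ (h.pt x).2.1)}

theorem bx_sub (H : Hy Φ θ) (x : h.ch.Pt) (hr : 8 * Φ.R0 x.1 < h.ch.rr x)
    (hu : θ * h.ch.rr x < h.ch.uu x + h.ch.rr x) {y : E6}
    (hy : y ∈ bx (nrm (h.pt x)) (eg θ (h.pt x).2.1)) :
    y ∈ (Φ.E x.1).O2 ∧ rv (Φ.E x.1).tau y ≤ rv (Φ.E x.1).tau (h.pt x) := by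
  rw [h.rr_eq] at hr hu
  rw [h.uu_eq, ← h.M x.1] at hu
  exact eg_sub (H.sh _) (H.cw _) (H.R1 _) (h.pt_mem x).1 (h.pt_mem x).2.1 H.th.1 H.th.2
    (h.M x.1 ▸ H.M _) (H.R0 _) hr hu hy

theorem bx_geo (H : Hy Φ θ) {θ' : ℝ} (e : θ ≤ θ') (x : h.ch.Pt) (hr : 8 * Φ.R0 x.1 < h.ch.rr x)
    (hu : θ' * h.ch.rr x < h.ch.uu x + h.ch.rr x) : ∀ y ∈ Bx h θ x, y.1 = x.1 ∧
      h.ch.val y (fun j => (Φ.E j).tau) ≤ h.ch.val x (fun j => (Φ.E j).tau) ∧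
      3 * Φ.R0 y.1 ≤ h.ch.rr y ∧ θ' * h.ch.rr y / 4 ≤ h.ch.uu y + h.ch.rr y ∧
      h.ch.rr x ≤ 2 * h.ch.rr y ∧ h.ch.rr y ≤ h.ch.rr x ∧ |h.ch.uu y - h.ch.uu x| ≤ 1 := by
  intro y ⟨e1, hy⟩
  have p : 0 < h.ch.rr x := by linarith [(h.one x.1).1]
  refine ⟨e1, ?_, ?_⟩
  · obtain ⟨j, y⟩ := y
    obtain rfl : j = x.1 := e1
    exact (bx_sub h H x hr ((mul_le_mul_of_nonneg_right e p.le).trans_lt hu) hy).2
  simp only [h.rr_eq, h.uu_eq, e1] at hr hu p ⊢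
  obtain ⟨b, c, d, f, g⟩ := eg_uu (h.pt_mem x).2.1 H.th.1 H.th.2 (H.M _) (H.R0 _) hr e hu hy
  exact ⟨by linarith, f, d, (eg_geo (h.pt_mem x).2.1 H.th.1 H.th.2 p hy).2.2.2.1, g⟩

/-- The letters at j. -/
def Xj (Φ : Fm) (j : Φ.J) : Fin 5 → Der (Sm (on (Φ.E j).O2)) :=
  ![(hp _).d 0, (hp (on (Φ.E j).O2)).z 1 • ((Φ.E j).K2 (Φ.c j)).R, Om (hp _) 0, Om (hp _) 1,
    Om (hp _) 2]

theorem Xj_ap (a : Fin 5) (f : Φ.A) (j : Φ.J) : h.ch.X a f j = Xj Φ j a (f j) := h.X_ap a f j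

theorem sq_ap (j : Φ.J) (n : ℕ) (f : Φ.A) :
    P354YF.sq h.ch.c h.ch.X n f j = P354YF.sq cj (Xj Φ j) n (f j) := by
  induction n generalizing f with
  | zero => rfl
  | succ n ih => simp only [P354YF.sq, Pi.add_apply, Finset.sum_apply, ih, Xj_ap]

theorem eu_S {f : Φ.A} (e : h.ch.S f = 0) (j : Φ.J) : eu _ (f j) = 0 := by
  rw [eu_ap, ← Fm.H_ap, ← Fm.B_ap]
  exact congrFun e j

theorem qq_nrm (x : h.ch.Pt) (m : nrm (h.pt x) ∈ (Φ.E x.1).O2) (n : ℕ) (f : Φ.A)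
    (e : h.ch.S f = 0) : qq (h.ch.B x.1) h.ch.X x.2 n f =
      qq (box volume (h.co x.1).op) (Xj Φ x.1) ⟨_, m⟩ n (f x.1) := by
  induction n generalizing f with
  | zero =>
    exact congrArg (‖·‖ ^ 2) (orb0 (h.co x.1) (eu_S h e _) (nrm_pos (h.pt_mem x).2.1) _).symm
  | succ n ih =>
    exact congrArg₂ (· + ·) (ih f e) (Finset.sum_congr rfl fun a _ =>
      (ih _ (by rw [S_X h.is, e, map_zero])).trans (congrArg _ (Xj_ap h a f _)))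

theorem nj_eq (j : Φ.J) (w f : Φ.A) (n : ℕ) :
    nj (box volume (h.co j).op) (Xj Φ j) (den _ * w j) n (f j) =
      (h.ch.B j).J (w * P354YF.sq h.ch.c h.ch.X n f) :=
  congrArg (box volume (h.co j).op).J (show den _ * w j * P354YF.sq cj (Xj Φ j) n (f j) =
    den _ * (w j * P354YF.sq h.ch.c h.ch.X n f j) by rw [sq_ap, mul_assoc])

theorem wt_box {j : Φ.J} {w : Φ.A} (hw : (h.ch.B j).Wt w) :
    (box volume (h.co j).op).Wt (den _ * w j) := by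
  have r : cj (w j) = w j := congrFun hw.re j
  refine ⟨csW_cs hw.K, ?_, fun x : (Φ.E j).O2 => ?_⟩
  · show cj _ = _
    rw [map_mul, r, den, cj_cmp (h.co j).op den_at]
  · obtain ⟨C, -, -, wC, ha⟩ := (h.mem_K j w).1 hw.K
    show 0 ≤ (fv (den _ * w j) x.1).re
    by_cases c : x.1 ∈ C
    · rw [fv_mul, fv_den (h.co j).op x.2, Complex.re_ofReal_mul]
      by_cases b : An x
      · exact mul_nonneg (sq_nonneg _) (hw.pos (h.pk j x ⟨x.2, b, wC c⟩).2)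
      · simp [bu_out b]
    · exact (congrArg Complex.re (ha x c)).ge

theorem Xj_le {j : Φ.J} {u : Sm (on (Φ.E j).O2)} (e : eu _ u = 0) (y : (Φ.E j).O2) {r : ℝ}
    (r0 : 0 ≤ r) (hr : r ≤ 2 * y.1.2.1) (hM : 4 * Φ.M0 ^ 2 ≤ y.1.2.1) :
    1 / 4 * ‖fv ((hp _).d 0 u) y.1‖ ^ 2 ≤ 8 * qq (box volume (h.co j).op) (Xj Φ j) y 1 u ∧
      r ^ 2 * ‖fv ((hp _).d 1 u) y.1‖ ^ 2 ≤ 8 * qq (box volume (h.co j).op) (Xj Φ j) y 1 u ∧
      ‖fv ((hp _).H u + (hp _).B u) y.1‖ ^ 2 + 4 * ∑ i, ‖fv (Om (hp _) i u) y.1‖ ^ 2 ≤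
        300 * 8 * qq (box volume (h.co j).op) (Xj Φ j) y 1 u := by
  have p := ((h.co j).pos _ y.2).1
  have q : qq (box volume (h.co j).op) (Xj Φ j) y 1 u = ‖fv u y.1‖ ^ 2 +
      (‖fv ((hp _).d 0 u) y.1‖ ^ 2 +
      ‖fv ((hp (on (Φ.E j).O2)).z 1 * ((Φ.E j).K2 (Φ.c j)).R u) y.1‖ ^ 2 +
      ∑ i, ‖fv (Om (hp _) i u) y.1‖ ^ 2) := by
    rw [Fin.sum_univ_three, ← add_assoc (_ + _), ← add_assoc (_ + _)]
    exact congrArg _ (Fin.sum_univ_five _)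
  have a : (y.1.2.1 : ℂ) * fv ((hp _).d 1 u) y.1 =
      fv ((hp (on (Φ.E j).O2)).z 1 * ((Φ.E j).K2 (Φ.c j)).R u) y.1 -
        (4 * Φ.M0 ^ 2 / y.1.2.1 : ℝ) * fv ((hp _).d 0 u) y.1 := by
    have : (y.1.2.1 : ℂ) ≠ 0 := Complex.ofReal_ne_zero.2 p.ne'
    rw [Est.K2, h.M, kO_R (h.co j), fv_mul, fv_add, fv_mul, fv_mul, fv_mul, fv_rl _ y.2,
      fv_ri (h.co j) y.2, P354YK.fv_z _ y.2, show zc 1 y.1 = y.1.2.1 from rfl]
    push_cast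
    field_simp
    ring
  have b := (congrArg norm a).trans_le (norm_sub_le _ _)
  rw [norm_mul, norm_mul, Complex.norm_of_nonneg p.le, Complex.norm_of_nonneg (by positivity)] at b
  rw [q, ← eu_ap, e, fv_zero, norm_zero]
  exact num3 (norm_nonneg _) (by positivity) r0 hr b
    (mul_le_of_le_one_left (norm_nonneg _) ((div_le_one p).2 hM))

/-- The Sobolev inequality on the boxes. -/
theorem sob_ok (H : Hy Φ θ) (n : ℕ) : ∃ B, ∀ x : h.ch.Pt, 8 * Φ.R0 x.1 < h.ch.rr x →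
    θ * h.ch.rr x < h.ch.uu x + h.ch.rr x → ∀ w μ, (h.ch.B x.1).Wt w → 0 ≤ μ →
    (∀ y ∈ Bx h θ x, μ ≤ h.ch.val y w) → ∀ f, h.ch.S f = 0 →
      μ * h.ch.rr x * h.ch.jet n f x ^ 2 ≤ B * (h.ch.B x.1).J (w * h.ch.sl (n + 7) f) := by
  obtain ⟨C, hC, s⟩ := sob6 (volume : Measure E6)
  have h0 := H.th.1
  have h1 := H.th.2
  refine ⟨10 ^ n * (C * (2 + 9 * 8) ^ 6 * 2 ^ (6 + n)) / (θ / 32 * (θ / 20) ^ 4),
    fun x hr hu w μ hw μ0 hμ f hf => ?_⟩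
  have an := (h.pt_mem x).2.1
  have m : nrm (h.pt x) ∈ (Φ.E x.1).O2 := sr_mem (h.co _) (nrm_pos an).ne' (h.pt_mem x).1
  have sb := fun y hy => (bx_sub h H x hr hu (y := y) hy).1
  rw [h.rr_eq] at hr hu ⊢
  rw [h.uu_eq] at hu
  have p : 0 < (h.pt x).2.1 := by linarith [(h.one x.1).1]
  have t2 : θ ^ 2 ≤ 1 := pow_le_one₀ h0.le h1
  have t3 := mul_le_mul_of_nonneg_right t2 (sq_nonneg (h.pt x).2.1)
  have k := s (h.co x.1).op (Xj Φ x.1) (fun u => ∃ g, h.ch.S g = 0 ∧ g x.1 = u) 8 μ _ _ _ (1 / 4)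
    ((h.pt x).2.1 ^ 2) _ _ ⟨_, m⟩ (den _ * w x.1) (by norm_num) μ0
    (by rw [nq_nrm an]; linarith) (by norm_num) (by simp) (by nlinarith) (fun _ => by nlinarith)
    (by rintro a _ ⟨g, e, rfl⟩; exact ⟨_, by rw [S_X h.is, e, map_zero], Xj_ap h a g _⟩) sb
    (by
      rintro _ ⟨g, e, rfl⟩ y hy
      obtain ⟨a, b, c, -⟩ := eg_uu an h0 h1 (H.M _) (H.R0 _) hr le_rfl hu hy
      exact Xj_le h (eu_S h e _) y p.le c (by linarith [H.M x.1, sq_nonneg Φ.M0]))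
    (wt_box h hw)
    (fun y hy => by
      obtain ⟨-, -, -, -, a, b⟩ := eg_geo an h0 h1 p hy
      obtain ⟨c, d, -, e, -⟩ := eg_uu an h0 h1 (H.M _) (H.R0 _) hr le_rfl hu hy
      show μ ≤ (fv (den _ * w x.1) y.1).re
      rw [fv_mul, fv_den (h.co _).op y.2, P354BO.bu.one_of_mem_closedBall (by
        rw [Metric.mem_closedBall, Real.dist_eq, abs_le, show P354BO.bu.rIn = 1 / 4 from rfl]
        constructor <;> linarith), one_pow, Complex.ofReal_one, one_mul]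
      exact hμ (h.pk x.1 y.1 ⟨y.2, ⟨by linarith, by linarith⟩, by linarith,
        le_trans (by nlinarith) e⟩) ⟨rfl, hy⟩) n (f x.1) ⟨f, hf, rfl⟩
  rw [← qq_nrm h x m n f hf, abs_neg, abs_of_pos (a := θ / 16 * _) (by positivity),
    show |(-1 / 2 : ℝ)| = 1 / 2 by norm_num] at k
  have a := (nj_eq h x.1 w f (6 + n)).trans_le (J_sq h.is hw (6 + n) f)
  rw [show 6 + n + 1 = n + 7 by omega] at a
  have b := (jet_sq_le (x := x) h.is n f).trans (mul_le_mul_of_nonneg_left (sl_qq h.is x n f)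
    (by positivity))
  have c := mul_le_mul_of_nonneg_left (k.trans (mul_le_mul_of_nonneg_left a (by positivity)))
    (show (0 : ℝ) ≤ 10 ^ n by positivity)
  have d := mul_le_mul_of_nonneg_left b (show 0 ≤ μ * (h.pt x).2.1 * (θ / 32 * (θ / 20) ^ 4) by
    positivity)
  rw [div_mul_eq_mul_div, le_div_iff₀ (by positivity)]
  linarith

end Vale.Agent.P354YL
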