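import Vale.Agent.P354YL.Ft
import Vale.Agent.P354XZ.Src
import Vale.Agent.P354YP.F1
import Vale.Agent.P354YS.Com
import Vale.Agent.P354YF.F5a
import Vale.Agent.P354YF.Sup

/-!
The far zone: all statements without hypotheses.
-/

namespace Vale.Agent.P354YL

open Vale.Agent.P354XZ

theorem inp : Inp where
  f1 _ _ _ := P354YP.f1w'
  f5 _ _ _ := P354YF.f5a
  fs _ _ _ := P354YF.f5b'
  f7 _ _ _ C F F0 t K Vw h := f7 C K Vw F F0 t h (P354YS.com C F F0 t K Vw)

variable {A : Type} [CommRing A] [Algebra ℂ A] (C : Ch A) (F F0 : NF A) (t : Fin 4 → A)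
  (K : Cut C) (Vw : List Lt → Fin 5 → A) (T : Tm C)

theorem fa' : FA C F F0 t K Vw := fa inp
theorem far' : FAR C F F0 t K Vw T := far inp
theorem ft' : FT C F F0 t K Vw T := ft inp

end Vale.Agent.P354YL
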