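import Vale.Agent.P354YL.Tl

/-!
The tables of the far zone, by continuity in the level.
-/

open scoped ContDiff
open Set Filter Topology

noncomputable section

namespace Vale.Agent.P354YL

open Vale.Agent.P354XG (Der D_mul)
open Vale.Agent.P354XI Vale.Agent.P354XZ Vale.Agent.P354YF
open Vale.Agent.P354YS (Ps ps_mon ps_Dw ps_one le_dn cw cw_pos)

variable {A : Type} [CommRing A] [Algebra ℂ A] {C : Ch A} {F F0 : NF A} {t : Fin 4 → A}
  {K : Cut C} {Vw : List Lt → Fin 5 → A} {T : Tm C}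

theorem ps_Dt (h : C.Is) (l : ℝ) (k : Fin 5) : Ps (C.Dt l k) :=
  (ps_mon h ..).mul (ps_Dw h ps_one l k)

theorem Tb.mono (h : C.Is) {o : Od} {e e' : ℝ} {x : C.Pt} (e0 : 0 ≤ e) (k : e ≤ e')
    (a : Tb C F F0 Vw o e x) : Tb C F F0 Vw o e' x :=
  have m := fun a b c => mul_le_mul_of_nonneg_right k (at_pos h a b c x).le
  ⟨fun i => (a.b i).trans (m ..), fun i => (a.g i).trans (m ..), fun i => (a.h i).trans (m ..),
    a.a.trans (m ..), a.a'.trans (m ..), fun i w j p q => (a.V i w j p q).trans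
      (pow_le_pow_left₀ e0 k 2)⟩

theorem le_Qb (h : C.Is) (k : K.Is) {l : ℝ} {n s : ℕ} {w : List Lt} (e : w.length ≤ s) (i : Fin 5)
    (x : C.Pt) : C.val x (C.fn (C.Dw K.p l i) * C.sl (n + 1) (Vw w i)) ≤
      C.val x (Qb C F F0 K Vw l n s) := by
  have p := ps_Dw h (ps_p k) l
  have a := le_dn h p (x := x) (vl_sl0 h (n + 1)) (C.Vs Vw 0 w.length w.get) i
  have b := Finset.single_le_sum (s := Finset.univ) (f := fun j => C.val x (C.dn (C.Dw K.p l)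
    (C.sl (n + 1)) (C.Vs Vw 0 w.length j))) (fun _ _ => P354YS.dn_nonneg h p (vl_sl0 h _) _)
    (Finset.mem_univ w.get)
  rw [← vl_sum] at b
  rw [Ch.Vs, List.ofFn_get] at a
  rw [vl_fn_mul h (p i).sm, Qb, vl_add]
  exact (a.trans (b.trans (dW_le h p (vl_sl0 h _) 0 e))).trans
    (le_add_of_nonneg_right (dG_pos h (ps_p k) (vl_sl0 h _) _))

theorem unif {ι : Type} (s : Finset ι) {P : ι → ℝ → ℝ → Prop}
    (m : ∀ i c c' B B', c' ≤ c → B ≤ B' → P i c B → P i c' B')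
    (h : ∀ i ∈ s, ∃ c > 0, ∃ B, 0 ≤ B ∧ P i c B) : ∃ c > 0, ∃ B, 0 ≤ B ∧ ∀ i ∈ s, P i c B := by
  classical
  induction s using Finset.induction_on with
  | empty => exact ⟨1, one_pos, 0, le_rfl, fun _ k => absurd k (Finset.notMem_empty _)⟩
  | insert i s _ ih =>
    obtain ⟨c, c0, B, B0, a⟩ := h i (Finset.mem_insert_self ..)
    obtain ⟨c', c0', B', B0', b⟩ := ih fun k e => h k (Finset.mem_insert_of_mem e)
    exact ⟨min c c', lt_min c0 c0', B + B', add_nonneg B0 B0', Finset.forall_mem_insert .. |>.2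
      ⟨m _ _ _ _ _ (min_le_left ..) (le_add_of_nonneg_right B0') a,
        fun k e => m _ _ _ _ _ (min_le_right ..) (le_add_of_nonneg_left B0) (b k e)⟩⟩

theorem Y_all {j : C.J} {σ : ℝ} {P : C.Pt → Prop}
    (a : ∀ x : (C.B j).Pt, T.tv ⟨j, x⟩ < σ → P ⟨j, x⟩) : ∀ x ∈ T.Y j σ, P x := by
  rintro ⟨k, x⟩ ⟨e, b⟩
  cases e
  exact a x b

variable (F F0 K Vw T) in
/-- The bound of the curvature off the known set. -/
def TV (κ : ℝ) (o : Od) (n s : ℕ) (l c B : ℝ) : Prop := ∀ j ψ σ ep e, Cw C κ j ψ →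
  (∀ x : C.Pt, x.1 = j → C.at' (C.mon 0 0 (-3 / 10)) x ≤ C.at' ψ x) → σ ∈ T.Lv j → 0 ≤ ep →
  de C K j ep ≤ c → (∀ x ∈ T.Y j σ, Tb C F F0 Vw o ep x) →
  (∀ φ, Cf σ φ → K.L j (T.fc φ * C.fn ψ) (Ql C F F0 K Vw l (n + 6) s) ≤ e ^ 2) →
  ∀ x ∈ T.Y j σ, x ∉ T.Z → ∀ w : List Lt, w.length ≤ s → ∀ k,
    C.rr x * C.at' (C.Dt l k) x * C.jet n (Vw w k) x ^ 2 ≤ B * e ^ 2

variable (H : Inp) (sd : Sd C F F0 t K Vw) (i : T.Is K) {κ : ℝ} (κ0 : 0 < κ)
  (hκ : ∀ x, 2 * (C.rr x * C.md x (F0.mc 0)) ^ 2 ≤ κ) {o : Od} (ok : o.Ok)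
include H sd i

include κ0 hκ ok in
/-- The table of the curvature from the estimate in the mean. -/
theorem tv_of {n s : ℕ} {l : ℝ} (hn : n + 6 ≤ o.ia) (r : Rng (n + 6) 0 s o.m o.m' o.N l) :
    ∃ c > 0, ∃ B, 0 ≤ B ∧ TV F F0 K Vw T κ o n s l c B := by
  have h := sd.ga.ch
  obtain ⟨c, c0, a⟩ := caus (Vw := Vw) sd.ga sd.cut i κ κ0 hκ
  obtain ⟨c', c0', B, B0, b⟩ := far H sd i κ κ0 hκ o _ s l ok hn r
  obtain ⟨S, hS⟩ := i.sob n
  choose M M0 hM using fun k => (cq_mon h 0 0 (-3 / 10)).mul (cq_Dw h l k)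
  have M1 : 0 ≤ ∑ k, M k := Finset.sum_nonneg fun k _ => M0 k
  refine ⟨min c c', lt_min c0 c0', (∑ k, M k + 1) * (|S| * B), by positivity,
    fun j ψ σ ep e cw lo hs e0 hd tb lay x hx hz w hw k => ?_⟩
  obtain ⟨rfl, hx'⟩ := id hx
  obtain ⟨φ, cf, φ1⟩ := cf_ex hx'
  have ca := (a o _ σ ep φ ψ hs e0 (hd.trans (min_le_left ..)) tb cf cw).1
  have wE := wtE h sd.cut ca
  have p := ps_Dw h (ps_p sd.cut) l k
  have wt := (h.ibp _).wt_mul wE (P354YP.re_fn h p.sm _) fun y =>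
    (p.at h ⟨_, y⟩).le.trans_eq (vl_fn h p.sm).symm
  have d0 := ((ps_Dt h l k).at h x).le
  have s1 := hS x hz _ (C.at' (C.Dt l k) x / (∑ k, M k + 1)) wt (by positivity) (fun y hy => by
    obtain ⟨y1, y2, y3, y4⟩ := i.bx x hz y hy
    have q1 := (hM k x y ⟨y1, y4⟩).2
    have q2 := mul_le_mul (lo y y1) (Dw_le h le_rfl y (sd.cut.ple _ _ (h.dom y)).1 k)
      ((ps_Dw h ps_one l k).at h y).le (((ps_mon h ..).at h y).le.trans (lo y y1))
    have q3 := mul_le_mul_of_nonneg_right (Finset.single_le_sum (fun k _ => M0 k)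
      (Finset.mem_univ k)) ((ps_Dt h l k).at h y).le
    have q4 := (ps_Dt h l k).at h y
    rw [mul_assoc, mul_assoc, vl_mul h (i.fc_c φ cf.1), vl_fc i cf.1, φ1 _ y2, one_mul,
      vl_fn_mul h cw.1, vl_fn_mul h sd.cut.sm.1, y3, one_mul, vl_fn h p.sm,
      div_le_iff₀ (by positivity)]
    refine q1.trans (le_trans ?_ (mul_le_mul_of_nonneg_right q2 (by positivity)))
    change M k * C.at' (C.Dt l k) y ≤ C.at' (C.Dt l k) y * _
    linarith) _ (sd.S w k)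
  rw [mul_assoc (T.fc φ * C.fn ψ * C.fn K.chi)] at s1
  have s2 := J_mono h wE fun y _ => le_Qb (F := F) (F0 := F0) (Vw := Vw) (l := l) (n := n + 6) h
    sd.cut hw k y
  have s3 := J_pos h wE (f := C.fn (C.Dw K.p l k) * C.sl (n + 7) (Vw w k)) fun y _ => by
    rw [vl_fn_mul h p.sm]; exact mul_nonneg (p.at h y).le (vl_sl0 h ..)
  have s4 := (b _ σ ep φ ψ hs e0 (hd.trans (min_le_right ..)) tb cf cw).trans
    (mul_le_mul_of_nonneg_left (lay φ cf) B0)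
  have s5 := s1.trans (mul_le_mul (le_abs_self S) (s2.trans s4) s3 (abs_nonneg S))
  rw [div_mul_eq_mul_div, div_mul_eq_mul_div, div_le_iff₀ (by positivity)] at s5
  linarith

/-- The table of the gauge quantities. -/
theorem ts_of (n : ℕ) : ∃ B, 0 ≤ B ∧ ∀ j σ (e0 e1 e2 : ℝ), σ ∈ T.Lv j → 0 ≤ e0 → 0 ≤ e1 → 0 ≤ e2 →
    TabS C n (fun _ => e0) (F.df F0 C) (T.Y j σ ∩ T.Z) →
    (∀ x ∈ T.Y j σ, C.jet n F.al x ≤ e0 * C.at' (C.mon (-1) 0 0) x ∧
      C.jet n F.al x ≤ e0 * C.at' (Sa C) x) → TabS C n (fun _ => e1) (F.df F0 C) (T.Y j σ) →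
    C.TabV n (1 / 100) (fun _ => e2) (F.df F0 C).V (T.Y j σ) →
    TabS C n (fun _ => B * (e0 + e2 + (e1 + C.R0 j ^ (-1 / 10 : ℝ)) * e1)) (F.df F0 C) (T.Y j σ) := by
  have h := sd.ga.ch
  let g : C.J × ℝ × ℝ × ℝ × ℝ → Prop := fun q => q.2.1 ∈ T.Lv q.1 ∧
    TabS C n (fun _ => |q.2.2.1|) (F.df F0 C) (T.Y q.1 q.2.1 ∩ T.Z) ∧
    (∀ x ∈ T.Y q.1 q.2.1, C.jet n F.al x ≤ |q.2.2.1| * C.at' (C.mon (-1) 0 0) x ∧
      C.jet n F.al x ≤ |q.2.2.1| * C.at' (Sa C) x) ∧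
    TabS C n (fun _ => |q.2.2.2.1|) (F.df F0 C) (T.Y q.1 q.2.1) ∧
    C.TabV n (1 / 100) (fun _ => |q.2.2.2.2|) (F.df F0 C).V (T.Y q.1 q.2.1)
  let ρ : Rs C := ⟨ℝ × ℝ × ℝ × ℝ, fun q => {x | x ∈ T.Y q.1 q.2.1 ∧ g q}⟩
  have m : ∀ x : ρ.ch.Pt, ρ.pt x ∈ T.Y x.1.1 x.1.2.1 ∧ g x.1 := Rs.pt_mem
  obtain ⟨B, a⟩ := H.fs _ ρ.ch _ _ _ (Rs.ga sd.ga) n
  have b := a (ρ.pt ⁻¹' T.Z) (fun q f φ s z d x e => by
      subst e
      have u := fun y (k : y ∈ T.Y x.1.1 x.1.2.1) => Rs.pt_up (ρ := ρ) x.1 y k.1 ⟨k, (m x).2⟩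
      refine i.lin _ _ (m x).2.1 (f x.1) (fun j => φ (j, x.1.2)) (Rs.smc s x.1) (fun y k k' => ?_)
        (fun y k => ?_) _ (m x).1
      · have := z (Rs.up x.1 y k.1 ⟨k, (m x).2⟩) (by rwa [mem_preimage, u y k]) rfl
        rw [← u y k]
        exact this
      · have := d (Rs.up x.1 y k.1 ⟨k, (m x).2⟩) rfl
        rw [← u y k]
        exact this)
    (fun q => |q.2.2.1|) (fun q => |q.2.2.2.1|) (fun q => |q.2.2.2.2|)
    (fun _ => ⟨abs_nonneg _, abs_nonneg _, abs_nonneg _⟩)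
    (fun x k => by simp only [Rs.df_eq, Rs.jet_eq]; exact (m x).2.2.1 _ ⟨(m x).1, k⟩)
    (fun x => by rw [Rs.jet_eq]; exact ((m x).2.2.2.1 _ (m x).1).1)
    (fun x => by rw [Rs.jet_eq]; exact ((m x).2.2.2.1 _ (m x).1).2)
    (fun x _ => by simp only [Rs.df_eq, Rs.jet_eq]; exact (m x).2.2.2.2.1 _ (m x).1)
    (fun x _ k => by
      rw [Rs.df_eq]; exact (Rs.tv_eq n _ _ k x).trans_le ((m x).2.2.2.2.2 _ (m x).1 k))
  refine ⟨|B|, abs_nonneg B, fun j σ e0 e1 e2 hs p0 p1 p2 t0 t1 t2 t3 x hx => ?_⟩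
  have k : g (j, σ, e0, e1, e2) := by
    simp only [g, abs_of_nonneg p0, abs_of_nonneg p1, abs_of_nonneg p2]
    exact ⟨hs, t0, t1, t2, t3⟩
  have := b (Rs.up (ρ := ρ) (j, σ, e0, e1, e2) x hx.1 ⟨hx, k⟩) trivial
  simp only [Rs.df_eq, Rs.jet_eq, Rs.pt_up] at this
  have u := Rs.pt_up (ρ := ρ) (j, σ, e0, e1, e2) x hx.1 ⟨hx, k⟩
  have q : ∀ a b c, B * (|e0| + |e2| + (|e1| + C.R0 j ^ (-1 / 10 : ℝ)) * |e1|) *
      C.at' (C.mon a b c) (ρ.pt (Rs.up (ρ := ρ) (j, σ, e0, e1, e2) x hx.1 ⟨hx, k⟩)) ≤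
      |B| * (e0 + e2 + (e1 + C.R0 j ^ (-1 / 10 : ℝ)) * e1) * C.at' (C.mon a b c) x :=
    fun a b c => by
    have := Real.rpow_nonneg (zero_le_one.trans (h.one_le j).1) (-1 / 10)
    rw [u, abs_of_nonneg p0, abs_of_nonneg p1, abs_of_nonneg p2]
    exact mul_le_mul_of_nonneg_right (mul_le_mul_of_nonneg_right (le_abs_self B) (by positivity))
      (at_pos h ..).le
  exact ⟨fun k => (this.1 k).trans (q ..), fun k => (this.2.1 k).trans (q ..),
    fun k => (this.2.2 k).trans (q ..)⟩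

omit H in
theorem tb_top (o : Od) (j : C.J) {e : ℝ} (e0 : 0 < e) :
    @IsClosed _ (T.top j) {x | Tb C F F0 Vw o (e / 2) ⟨j, x⟩} ∧
    ∀ x, Tb C F F0 Vw o (e / 2) ⟨j, x⟩ → ∀ᶠ y in @nhds _ (T.top j) x, Tb C F F0 Vw o e ⟨j, y⟩ := by
  have h := sd.ga.ch
  let _ := T.top j
  have m := fun (z : ℝ) a b c => (continuous_const (y := z)).mul (c_at i j h (smF_mon h a b c))
  have v := fun n l k f => ((c_val i j C.r).mul (c_at i j h (ps_Dt h l k).sm)).mul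
    ((c_jet i j n f).pow 2)
  refine ⟨?_, fun x a => ?_⟩
  · have c := fun n f a b c => isClosed_le (c_jet i j n f) (m (e / 2) a b c)
    exact isClosed_of_closure_subset fun x hx =>
      ⟨fun k => closure_minimal (fun _ a => Tb.b a k) (c ..) hx,
        fun k => closure_minimal (fun _ a => Tb.g a k) (c ..) hx,
        fun k => closure_minimal (fun _ a => Tb.h a k) (c ..) hx,
        closure_minimal (fun _ a => Tb.a a) (c ..) hx, closure_minimal (fun _ a => Tb.a' a) (c ..) hx,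
        fun n w k p q => closure_minimal (fun _ a => Tb.V a n w k p q)
          (isClosed_le (v ..) continuous_const) hx⟩
  · have c : ∀ n f a b c, C.jet n f ⟨j, x⟩ ≤ e / 2 * C.at' (C.mon a b c) ⟨j, x⟩ →
        ∀ᶠ y in 𝓝 x, C.jet n f ⟨j, y⟩ ≤ e * C.at' (C.mon a b c) ⟨j, y⟩ := fun n f a b c k =>
      ((c_jet i j n f).continuousAt.eventually_lt (m e a b c).continuousAt (k.trans_lt
        (mul_lt_mul_of_pos_right (by linarith) (at_pos h ..)))).mono fun _ => le_of_lt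
    have d : ∀ᶠ y in 𝓝 x, ∀ n ∈ {n | n ≤ o.m'}, ∀ w ∈ {w : List Lt | w.length ≤ o.N}, ∀ k,
        n + w.length ≤ o.N → C.rr ⟨j, y⟩ * C.at' (C.Dt 0 k) ⟨j, y⟩ * C.jet n (Vw w k) ⟨j, y⟩ ^ 2 ≤
          e ^ 2 :=
      (eventually_all_finite (finite_le_nat _)).2 fun n p => (eventually_all_finite
        (List.finite_length_le _ _)).2 fun w _ => eventually_all.2 fun k =>
          eventually_imp_distrib_left.2 fun q => ((v n 0 k _).continuousAt.eventually_lt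
            continuousAt_const ((a.V n w k p q).trans_lt
              (pow_lt_pow_left₀ (by linarith) (by linarith) two_ne_zero))).mono fun _ => le_of_lt
    filter_upwards [eventually_all.2 fun k => c _ _ _ _ _ (a.b k), eventually_all.2 fun k =>
      c _ _ _ _ _ (a.g k), eventually_all.2 fun k => c _ _ _ _ _ (a.h k), c _ _ _ _ _ a.a,
      c _ _ _ _ _ a.a', d] with y a1 a2 a3 a4 a5 a6
    exact ⟨a1, a2, a3, a4, a5, fun n w k p q => a6 n p w (le_of_add_le_right q) k q⟩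

include κ0 hκ ok in
theorem ft0 : ∃ c > 0, ∃ B, 1 ≤ B ∧ ∀ j ψ ep e, Cw C κ j ψ →
    (∀ x : C.Pt, x.1 = j → C.at' (C.mon 0 0 (-3 / 10)) x ≤ C.at' ψ x) → 0 < e → B * e ≤ ep →
    de C K j ep ≤ c →
    (∀ σ ∈ T.Lv j, (∀ x ∈ T.Y j σ, Tb C F F0 Vw o ep x) → In C F F0 K Vw T o ψ j σ e) →
    ∀ σ ∈ T.Lv j, ∀ x ∈ T.Y j σ, Tb C F F0 Vw o ep x := by
  have h := sd.ga.ch
  obtain ⟨o1, o2, o3, o4⟩ := id ok
  have z : (0 : ℝ) ∈ Icc (0 : ℝ) (1 / 100) := ⟨le_rfl, by norm_num⟩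
  obtain ⟨c1, p1, B1, q1, v1⟩ := unif (P := fun p => TV F F0 K Vw T κ o p.1 p.2 0)
    ((Finset.range (o.m' + 1) ×ˢ Finset.range (o.N + 1)).filter fun p => p.1 + p.2 ≤ o.N)
    (fun _ _ _ _ _ k1 k2 a j ψ σ ep e a1 a2 a3 a4 a5 a6 a7 x a8 a9 w b1 k =>
      (a j ψ σ ep e a1 a2 a3 a4 (a5.trans k1) a6 a7 x a8 a9 w b1 k).trans
        (mul_le_mul_of_nonneg_right k2 (sq_nonneg e))) fun p hp => by
      simp only [Finset.mem_filter, Finset.mem_product, Finset.mem_range] at hp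
      exact tv_of H sd i κ0 hκ ok (n := p.1) (s := p.2) (l := 0) (by omega)
        ⟨.inl ⟨z, by omega⟩, by omega⟩
  obtain ⟨c2, p2, B2, q2, v2⟩ := tv_of H sd i κ0 hκ ok (n := o.m) (s := 0) (l := 1 / 100) o4
    ⟨.inr ⟨rfl, by omega⟩, by omega⟩
  obtain ⟨B3, q3, v3⟩ := ts_of H sd i o.m
  have w1 : 1 ≤ cw o.ia := one_le_mul_of_one_le_of_one_le (by simp) (one_le_pow₀ (by norm_num))
  set β := B1 + B2 + 1 with hβ
  have β1 : 1 ≤ β := by linarith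
  refine ⟨min (min c1 c2) (1 / (4 * (B3 + 1))), by positivity, 4 * (B3 + 1) * (cw o.ia + β),
    by nlinarith, fun j ψ ep e cv lo e0 be hd hin σ0 hs0 => Y_all fun x hx => ?_⟩
  have a1 := mul_pos (cw_pos o.ia) e0
  have a2 : 0 < β * e := by positivity
  have a3 := mul_nonneg q3 (add_nonneg a1.le a2.le)
  have a4 := le_mul_of_one_le_left e0.le w1
  have ep0 : 0 < ep := by linarith
  have sq : ∀ {b : ℝ}, b ≤ β → b * e ^ 2 ≤ (β * e) ^ 2 := fun k => by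
    rw [mul_pow]; exact mul_le_mul_of_nonneg_right (by nlinarith) (sq_nonneg e)
  obtain ⟨cl, op⟩ := tb_top sd i o j ep0
  let _ := T.top j
  refine Tb.mono h (by linarith) (by linarith) (first2 (Z := {x | (⟨j, x⟩ : C.Pt) ∈ T.Z})
    (G := {x | Tb C F F0 Vw o ep ⟨j, x⟩}) (c_val i j T.ta) cl op
    (fun s k => i.cp _ s (i.low _ k.le hs0)) (fun σ k tb' y hy => ?_) (i.edge _) x hx)
  have hs := i.low _ k.le hs0
  have tb : ∀ x ∈ T.Y j σ, Tb C F F0 Vw o ep x := Y_all tb'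
  have I := hin σ hs tb
  by_cases hz : (⟨j, y⟩ : C.Pt) ∈ T.Z
  · have a := (I.pt _ hz rfl (hy.elim le_of_lt And.right)).mono h e0.le
      (show e ≤ ep / 2 by linarith)
    exact ⟨a.b, a.g, a.h, a.a, a.a', fun n w k p q => a.V n w k (p.trans (by omega : o.m' ≤ o.m)) q⟩
  have hy' : (⟨j, y⟩ : C.Pt) ∈ T.Y j σ := ⟨rfl, hy.resolve_right fun a => hz a.1⟩
  have pz := fun x (a : x ∈ T.Y j σ) b => I.pt x b a.1 a.2.le
  have x1 : C.X 1 F.al = -F.al := by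
    have := sd.ga.is.al.1
    rw [D_mul, R_r h, mul_one] at this
    rw [X1]; linear_combination this
  have l1 := al_lin h (i.lin _ σ hs) x1 e0.le le_rfl (by norm_num) o.ia fun x a b => (pz x a b).a
  have l2 := al_lin h (i.lin _ σ hs) x1 e0.le (by norm_num) (by norm_num) o.ia
    fun x a b => (pz x a b).a'
  simp only [← mul_assoc] at l1 l2
  have g := v3 _ σ _ ep (β * e) hs a1.le ep0.le a2.le
    (fun x a => have b := (pz x a.1 a.2).mono h e0.le a4; ⟨b.b, b.g, b.h⟩)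
    (fun x a => ⟨(jet_mono (by omega) _).trans (l1 x a), (jet_mono (by omega) _).trans (l2 x a)⟩)
    (fun x a => ⟨(tb x a).b, (tb x a).g, (tb x a).h⟩) (fun x a k => by
      rw [← sd.nil]
      by_cases b : x ∈ T.Z
      · refine le_trans (mul_le_mul_of_nonneg_right (mul_le_mul_of_nonneg_left
          (mul_le_mul_of_nonneg_left (Dw_le h (by norm_num) x le_rfl k) (at_pos h ..).le)
          (rr_pos h x).le) (sq_nonneg _)) (((pz x a b).V o.m [] k le_rfl o3).trans ?_)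
        exact (one_mul _).ge.trans (sq β1)
      · exact (v2 _ ψ σ ep e cv lo hs ep0.le (hd.trans ((min_le_left ..).trans (min_le_right ..)))
          tb (fun φ cf => I.lay φ cf _ ⟨by norm_num, le_rfl⟩ _ _ le_rfl (by omega)) x a b []
          le_rfl k).trans (sq (by linarith))) _ hy'
  have d1 : ep ≤ ep * K.pm j := (de_le h sd.cut ep0.le ⟨j, y⟩).1
  have d2 := (le_div_iff₀ (by positivity)).1 (hd.trans (min_le_right ..))
  have d3 := Real.rpow_nonneg (zero_le_one.trans (h.one_le j).1) (-1 / 10)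
  have d4 := mul_le_mul_of_nonneg_right (show B3 * (ep + C.R0 j ^ (-1 / 10 : ℝ)) ≤ 1 / 4 by
    rw [de] at d2
    linarith [mul_le_mul_of_nonneg_left d1 q3]) ep0.le
  have m : ∀ {z : ℝ}, z ≤ ep / 2 → ∀ a b c, z * C.at' (C.mon a b c) ⟨j, y⟩ ≤
      ep / 2 * C.at' (C.mon a b c) ⟨j, y⟩ := fun k a b c =>
    mul_le_mul_of_nonneg_right k (at_pos h ..).le
  have m1 := m (z := B3 * (cw o.ia * e + β * e + (ep + C.R0 j ^ (-1 / 10 : ℝ)) * ep)) (by linarith)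
  exact ⟨fun k => (g.1 k).trans (m1 ..), fun k => (g.2.1 k).trans (m1 ..),
    fun k => (g.2.2 k).trans (m1 ..), (l1 _ hy').trans (m (by linarith) ..),
    (l2 _ hy').trans (m (by linarith) ..), fun n w k p q =>
      (v1 (n, w.length) (by
        simp only [Finset.mem_filter, Finset.mem_product, Finset.mem_range]; omega) _ ψ σ ep e cv lo
        hs ep0.le (hd.trans ((min_le_left ..).trans (min_le_left ..))) tb
        (fun φ cf => I.lay φ cf _ z _ _ (by omega) (by omega)) _ hy' hz w le_rfl k).trans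
        ((sq (by linarith)).trans (pow_le_pow_left₀ a2.le (by linarith) 2))⟩

omit sd i in
theorem ft : FT C F F0 t K Vw T := fun sd i _ κ0 hκ _ ok => by
  obtain ⟨c, c0, B, B1, a⟩ := ft0 H sd i κ0 hκ ok
  refine ⟨c, c0, B, B1, fun j ψ ep e cv lo e0 be hd hin σ hs x hx => ?_⟩
  have pm := sd.cut.ple _ _ (sd.ga.ch.dom x)
  rw [hx.1] at pm
  refine a j ψ _ e cv lo e0 le_rfl (le_trans ?_ hd)
    (fun σ hs _ => hin σ hs (a j ψ ep e cv lo e0 be hd hin σ hs)) σ hs x hx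
  exact add_le_add (mul_le_mul_of_nonneg_right be (by linarith [pm.1, pm.2.1])) le_rfl

end Vale.Agent.P354YL
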