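import Vale.Agent.P354XI.Inst

/-!
The Sobolev inequality on a parallelepiped, and the continuity argument.
-/

open scoped ContDiff ENNReal
open Set Filter Topology MeasureTheory

namespace Vale.Agent.P354YL

open Vale.Agent.P354XG Vale.Agent.P354XI

/-- The one dimensional inequality. -/
theorem one_dim {g g' : ℝ → ℂ} (h : ∀ t ∈ Icc (0 : ℝ) 1, HasDerivAt g (g' t) t)
    (hc : ContinuousOn g' (Icc 0 1)) {x : ℝ} (hx : x ∈ Icc (0 : ℝ) 1) :
    ‖g x‖ ^ 2 ≤ 2 * ∫ t in Icc (0 : ℝ) 1, (‖g t‖ ^ 2 + ‖g' t‖ ^ 2) := by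
  have cg : ContinuousOn g (Icc 0 1) := fun t ht => (h t ht).continuousAt.continuousWithinAt
  have cF : ContinuousOn (fun t => ‖g t‖ ^ 2 + ‖g' t‖ ^ 2) (Icc 0 1) :=
    (cg.norm.pow 2).add (hc.norm.pow 2)
  have iF := cF.integrableOn_Icc (μ := volume)
  have cD : ContinuousOn (fun t => 2 * inner ℝ (g t) (g' t)) (Icc 0 1) :=
    continuousOn_const.mul (cg.inner hc)
  set S := ∫ t in Icc (0 : ℝ) 1, (‖g t‖ ^ 2 + ‖g' t‖ ^ 2) with hS
  have key : ∀ y ∈ Icc (0 : ℝ) 1, ‖g x‖ ^ 2 ≤ ‖g y‖ ^ 2 + S := by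
    intro y hy
    have sub : uIcc y x ⊆ Icc 0 1 := uIcc_subset_Icc hy hx
    have e := intervalIntegral.integral_eq_sub_of_hasDerivAt (f := fun t => ‖g t‖ ^ 2)
      (f' := fun t => 2 * inner ℝ (g t) (g' t)) (a := y) (b := x)
      (fun t ht => (h t (sub ht)).norm_sq) ((cD.mono sub).intervalIntegrable)
    have b : ‖∫ t in y..x, 2 * inner ℝ (g t) (g' t)‖ ≤ S := by
      refine intervalIntegral.norm_integral_le_integral_norm_uIoc.trans ?_
      have s2 : uIoc y x ⊆ Icc 0 1 := uIoc_subset_uIcc.trans sub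
      refine (setIntegral_mono_on ((cD.norm.integrableOn_Icc (μ := volume)).mono_set s2)
        (iF.mono_set s2) measurableSet_uIoc fun t _ => ?_).trans
        (setIntegral_mono_set iF (Eventually.of_forall fun t => by positivity) s2.eventuallyLE)
      rw [norm_mul, Real.norm_ofNat]
      have := norm_inner_le_norm (𝕜 := ℝ) (g t) (g' t)
      nlinarith [sq_nonneg (‖g t‖ - ‖g' t‖)]
    rw [e] at b
    linarith [le_abs_self (‖g x‖ ^ 2 - ‖g y‖ ^ 2), Real.norm_eq_abs (‖g x‖ ^ 2 - ‖g y‖ ^ 2)]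
  have m : ∫ _ in Icc (0 : ℝ) 1, (‖g x‖ ^ 2 - S) ≤ S :=
    setIntegral_mono_on (integrableOn_const (by simp)) iF measurableSet_Icc fun y hy => by
      nlinarith [key y hy, sq_nonneg ‖g' y‖]
  simp at m
  linarith

variable {E : Type} [NormedAddCommGroup E] [NormedSpace ℝ E] {O : Set E} {ι : Type} [Fintype ι]

/-- The sum of the squares of all derivatives of order at most n in the directions e i. -/
noncomputable def Jt (e : ι → E) : ℕ → Sm (on O) → E → ℝ
  | 0, a, x => ‖fv a x‖ ^ 2
  | n + 1, a, x => Jt e n a x + ∑ i, Jt e n (pd (e i) a) x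

theorem Jt_nonneg (e : ι → E) : ∀ (n : ℕ) (a : Sm (on O)) (x : E), 0 ≤ Jt e n a x
  | 0, _, _ => sq_nonneg _
  | n + 1, a, x => add_nonneg (Jt_nonneg e n a x) (Finset.sum_nonneg fun _ _ => Jt_nonneg e n _ x)

theorem fv_cont (hO : IsOpen O) (a : Sm (on O)) : ContinuousOn (fv a) O :=
  fun _ hx => (fv_sm hO a hx).continuousAt.continuousWithinAt

theorem fv_meas [MeasurableSpace E] [BorelSpace E] (hO : IsOpen O) (a : Sm (on O)) :
    Measurable (fv a) := by
  classical
  have := (fv_cont hO a).measurable_piecewise (g := fun _ => 0) continuousOn_const hO.measurableSet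
  refine (funext fun x => ?_ : _ = fv a) ▸ this
  by_cases hx : x ∈ O
  · exact piecewise_eq_of_mem _ _ _ hx
  · rw [piecewise_eq_of_notMem _ _ _ hx, fv_out a hx]

theorem Jt_meas [MeasurableSpace E] [BorelSpace E] (hO : IsOpen O) (e : ι → E) :
    ∀ (n : ℕ) (a : Sm (on O)), Measurable (Jt e n a)
  | 0, a => (fv_meas hO a).norm.pow_const 2
  | n + 1, a => (Jt_meas hO e n a).add (Finset.measurable_sum _ fun _ _ => Jt_meas hO e n _)

/-- The uniform measure on the unit interval. -/
noncomputable abbrev um (ι : Type) : ι → Measure ℝ := fun _ => volume.restrict (Icc 0 1)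

theorem cube [DecidableEq ι] [MeasurableSpace E] [BorelSpace E] (hO : IsOpen O)
    (L : (ι → ℝ) →L[ℝ] E) (p : E) (hp : ∀ t : ι → ℝ, (∀ i, t i ∈ Icc (0 : ℝ) 1) → p + L t ∈ O)
    (s : Finset ι) : ∀ (a : Sm (on O)) (x : ι → ℝ), (∀ i, x i ∈ Icc (0 : ℝ) 1) →
      ENNReal.ofReal (‖fv a (p + L x)‖ ^ 2) ≤ 2 ^ s.card *
        (∫⋯∫⁻_s, (fun t => ENNReal.ofReal (Jt (fun i => L (Pi.single i 1)) s.card a (p + L t)))
          ∂um ι) x := by
  have mJ : ∀ n a, Measurable fun t : ι → ℝ =>
      ENNReal.ofReal (Jt (fun i => L (Pi.single i 1)) n a (p + L t)) := fun n a =>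
    ((Jt_meas hO _ n a).comp (continuous_const.add L.continuous).measurable).ennreal_ofReal
  induction s using Finset.induction_on with
  | empty => intro a x _; simp [Jt]
  | insert i s hi ih =>
    intro a x hx
    have hu : ∀ t ∈ Icc (0 : ℝ) 1, ∀ j, Function.update x i t j ∈ Icc (0 : ℝ) 1 := by
      intro t ht j
      by_cases c : j = i
      · rw [c, Function.update_self]; exact ht
      · rw [Function.update_of_ne c]; exact hx j
    have cu : Continuous fun t : ℝ => p + L (Function.update x i t) :=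
      continuous_const.add (L.continuous.comp (continuous_const.update i continuous_id))
    have cc : ∀ b : Sm (on O), ContinuousOn (fun t => fv b (p + L (Function.update x i t)))
        (Icc 0 1) := fun b => (fv_cont hO b).comp cu.continuousOn fun t ht => hp _ (hu t ht)
    have h1 := one_dim (g := fun t => fv a (p + L (Function.update x i t)))
      (g' := fun t => fv (pd (L (Pi.single i 1)) a) (p + L (Function.update x i t)))
      (fun t ht => by
        rw [fv_pd hO _ _ (hp _ (hu t ht))]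
        exact ((fv_sm hO a (hp _ (hu t ht))).differentiableAt (by simp)).hasFDerivAt.comp_hasDerivAt
          t ((L.hasFDerivAt.comp_hasDerivAt t (hasDerivAt_update x i t)).const_add p))
      (cc _) (hx i)
    rw [Function.update_eq_self] at h1
    refine (ENNReal.ofReal_le_ofReal h1).trans ?_
    have iF : IntegrableOn (fun t => ‖fv a (p + L (Function.update x i t))‖ ^ 2 +
        ‖fv (pd (L (Pi.single i 1)) a) (p + L (Function.update x i t))‖ ^ 2) (Icc 0 1) :=
      (((cc a).norm.pow 2).add ((cc _).norm.pow 2)).integrableOn_Icc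
    rw [ENNReal.ofReal_mul zero_le_two, ofReal_integral_eq_lintegral_ofReal iF
      (Eventually.of_forall fun t => add_nonneg (sq_nonneg _) (sq_nonneg _)),
      Finset.card_insert_of_notMem hi,
      lmarginal_insert _ (mJ _ _) hi, pow_succ', mul_assoc, ENNReal.ofReal_ofNat,
      ← lintegral_const_mul' (2 ^ s.card) _ (by simp)]
    refine mul_le_mul_right (setLIntegral_mono' (s := Icc (0 : ℝ) 1) measurableSet_Icc
      fun t ht => ?_) _
    rw [ENNReal.ofReal_add (sq_nonneg _) (sq_nonneg _)]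
    refine (add_le_add (ih a _ (hu t ht)) (ih _ _ (hu t ht))).trans ?_
    rw [← mul_add]
    refine mul_le_mul_right ((le_lintegral_add _ _).trans (lintegral_mono fun y => ?_)) _
    rw [← ENNReal.ofReal_add (Jt_nonneg _ _ _ _) (Jt_nonneg _ _ _ _)]
    refine ENNReal.ofReal_le_ofReal (add_le_add_right ?_ _)
    exact Finset.single_le_sum (f := fun j => Jt _ s.card (pd (L (Pi.single j 1)) a) _)
      (fun _ _ => Jt_nonneg _ _ _ _) (Finset.mem_univ i)

/-- The inequality against a density: F dominates m times the jet on the parallelepiped. -/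
theorem sob [DecidableEq ι] [MeasurableSpace E] [BorelSpace E] (μ : Measure E)
    [μ.IsAddLeftInvariant] (hO : IsOpen O) (L : (ι → ℝ) →L[ℝ] E) {κ : ℝ} (hκ : 0 ≤ κ)
    (hL : Measure.map L volume = ENNReal.ofReal κ • μ) (p : E)
    (hp : ∀ t : ι → ℝ, (∀ i, t i ∈ Icc (0 : ℝ) 1) → p + L t ∈ O) (a : Sm (on O)) {F : E → ℝ}
    (hF : Integrable F μ) (mF : Measurable F) (h0 : ∀ x, 0 ≤ F x)
    (hm : ∀ t : ι → ℝ, (∀ i, t i ∈ Icc (0 : ℝ) 1) →
      Jt (fun i => L (Pi.single i 1)) (Fintype.card ι) a (p + L t) ≤ F (p + L t)) :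
    ‖fv a p‖ ^ 2 ≤ 2 ^ Fintype.card ι * (κ * ∫ x, F x ∂μ) := by
  have h := cube hO L p hp Finset.univ a 0 (fun _ => ⟨le_rfl, zero_le_one⟩)
  rw [map_zero, add_zero, lmarginal_univ, Finset.card_univ] at h
  have i0 : 0 ≤ ∫ x, F x ∂μ := integral_nonneg h0
  rw [← ENNReal.ofReal_le_ofReal_iff (by positivity), ENNReal.ofReal_mul (by positivity),
    ENNReal.ofReal_pow zero_le_two, ENNReal.ofReal_ofNat, ENNReal.ofReal_mul hκ,
    ofReal_integral_eq_lintegral_ofReal hF (Eventually.of_forall h0)]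
  refine h.trans (mul_le_mul_right ?_ _)
  have mG : Measurable fun x => ENNReal.ofReal (F (p + x)) :=
    (mF.comp (measurable_const_add p)).ennreal_ofReal
  rw [← lintegral_add_left_eq_self (fun x => ENNReal.ofReal (F x)) p, ← smul_eq_mul,
    ← lintegral_smul_measure, ← hL, lintegral_map mG L.continuous.measurable,
    show Measure.pi (um ι) = volume.restrict (univ.pi fun _ => Icc 0 1) from
      (Measure.restrict_pi_pi _ _).symm]
  refine (setLIntegral_mono' (MeasurableSet.univ_pi fun _ => measurableSet_Icc) fun t ht => ?_).trans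
    (setLIntegral_le_lintegral _ _)
  exact ENNReal.ofReal_le_ofReal (hm t fun i => ht i trivial)

/-- The continuity argument. -/
theorem first {X : Type} [TopologicalSpace X] {τ : X → ℝ} (hτ : Continuous τ) {V : ℝ}
    {G S : Set X} (hG : IsOpen G) (hS : IsClosed S) (hSG : S ⊆ G)
    (hc : ∀ s < V, IsCompact {x | τ x ≤ s})
    (step : ∀ s < V, (∀ x, τ x < s → x ∈ G) → ∀ x, τ x < s → x ∈ S)
    (edge : ∀ x, τ x < V → x ∈ S ∨ x ∈ closure {y | τ y < τ x}) : ∀ x, τ x < V → x ∈ S := by
  intro x hx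
  by_cases c : ∀ y, τ y ≤ τ x → y ∈ G
  · rcases edge x hx with e | e
    · exact e
    · exact closure_minimal (step _ hx fun y hy => c y hy.le) hS e
  · exfalso
    push Not at c
    obtain ⟨y, hy, hy'⟩ := c
    obtain ⟨z, ⟨hz, hz'⟩, hm⟩ := ((hc _ hx).inter_right hG.isClosed_compl).exists_isMinOn
      ⟨y, hy, hy'⟩ hτ.continuousOn
    have hV : τ z < V := lt_of_le_of_lt hz hx
    refine hz' (hSG ?_)
    rcases edge z hV with e | e
    · exact e
    · refine closure_minimal (step _ hV fun w hw => ?_) hS e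
      by_contra k
      exact absurd (hm ⟨(hw.le.trans hz : τ w ≤ τ x), k⟩) (not_le.2 hw)

end Vale.Agent.P354YL
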