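import Vale.Agent.P354YL.Tf
import Vale.Agent.P354YP.Frm

/-!
Causal weights.
-/

open scoped ContDiff
open Set

noncomputable section

namespace Vale.Agent.P354YL

open Vale.Agent.P354XG (Der D_mul)
open Vale.Agent.P354XI Vale.Agent.P354XZ Vale.Agent.P354YF

variable {A : Type} [CommRing A] [Algebra ℂ A] {C : Ch A} {F F0 : NF A} {t : Fin 4 → A}
  {K : Cut C} {Vw : List Lt → Fin 5 → A} {T : Tm C} {x : C.Pt}

/-- f does not increase in the future causal directions at x. -/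
def Ng (F : NF A) (x : C.Pt) (f : A) : Prop :=
  C.val x (C.R f) ≤ 0 ∧ C.val x (F.n C f) ≤ 0 ∧
    2 * C.md x (F.m C f) ^ 2 ≤ C.val x (C.R f) * C.val x (F.n C f)

theorem cone {a b x1 y1 m1 x2 y2 m2 m : ℝ} (ha : 0 ≤ a) (hb : 0 ≤ b) (p1 : x1 ≤ 0) (q1 : y1 ≤ 0)
    (p2 : x2 ≤ 0) (q2 : y2 ≤ 0) (e1 : 2 * m1 ^ 2 ≤ x1 * y1) (e2 : 2 * m2 ^ 2 ≤ x2 * y2)
    (m0 : 0 ≤ m) (e : m ≤ a * m2 + b * m1) :
    2 * m ^ 2 ≤ (a * x2 + b * x1) * (a * y2 + b * y1) := by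
  have k : 4 * m1 * m2 ≤ x1 * y2 + x2 * y1 := by
    refine (le_abs_self _).trans (abs_le_of_sq_le_sq ?_ (add_nonneg
      (mul_nonneg_of_nonpos_of_nonpos p1 q2) (mul_nonneg_of_nonpos_of_nonpos p2 q1)))
    have := mul_le_mul e1 e2 (by positivity) (mul_nonneg_of_nonpos_of_nonpos p1 q1)
    nlinarith [sq_nonneg (x1 * y2 - x2 * y1)]
  have := pow_le_pow_left₀ m0 e 2
  nlinarith [mul_le_mul_of_nonneg_left k (mul_nonneg ha hb),
    mul_le_mul_of_nonneg_left e1 (sq_nonneg b), mul_le_mul_of_nonneg_left e2 (sq_nonneg a)]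

theorem Ng.mul (h : C.Is) {f g : A} (rf : C.c f = f) (rg : C.c g = g) (f0 : 0 ≤ C.val x f)
    (g0 : 0 ≤ C.val x g) (a : Ng F x f) (b : Ng F x g) : Ng F x (f * g) := by
  simp only [Ng, D_mul, vl_add, vl_mul h rf, vl_mul h rg]
  refine ⟨add_nonpos (mul_nonpos_of_nonneg_of_nonpos f0 b.1) (mul_nonpos_of_nonneg_of_nonpos g0 a.1),
    add_nonpos (mul_nonpos_of_nonneg_of_nonpos f0 b.2.1) (mul_nonpos_of_nonneg_of_nonpos g0 a.2.1),
    cone f0 g0 a.1 a.2.1 b.1 b.2.1 a.2.2 b.2.2 (md0 _) ((md_add _ _).trans_eq ?_)⟩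
  rw [md_mul, md_mul, md_re h rf, md_re h rg, abs_of_nonneg f0, abs_of_nonneg g0]

theorem van_vf (h : C.Is) {j : C.J} {Y : Set C.Pt} {f : A} (m : f ∈ van C j Y) (a : Fin 5 → A) :
    C.R f ∈ van C j Y ∧ C.vf a f ∈ van C j Y := by
  have r : C.R f ∈ van C j Y := by rw [R_eq h]; exact Ideal.mul_mem_left _ _ (van_X 1 f m)
  have n : ∀ i, C.an i f ∈ van C j Y := fun i => by
    rw [h.an_eq]
    exact Ideal.sum_mem _ fun i _ => Ideal.mul_mem_left _ _ (by rw [← XO]; exact van_X _ f m)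
  rw [vf_ap]
  exact ⟨r, add_mem (add_mem (add_mem (add_mem (Ideal.mul_mem_left _ _ (van_X 0 f m))
    (Ideal.mul_mem_left _ _ r)) (Ideal.mul_mem_left _ _ (n 0))) (Ideal.mul_mem_left _ _ (n 1)))
    (Ideal.mul_mem_left _ _ (n 2))⟩

theorem van_val {j : C.J} {Y : Set C.Pt} {f : A} (m : f ∈ van C j Y) (e : x.1 = j) (k : x ∉ Y) :
    C.md x f = 0 ∧ C.val x f = 0 :=
  have a : C.md x f = 0 := (jet_zero f).symm.trans (m x e k 0)
  ⟨a, abs_nonpos_iff.1 ((Ibp.abs_val_le _ f).trans_eq a)⟩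

theorem deriv_van {φ : ℝ → ℝ} (h : ContDiff ℝ ∞ φ) {s : ℝ} (e : ∀ y, s ≤ y → φ y = 0) (y : ℝ)
    (k : s ≤ y) : deriv φ y = 0 :=
  (uniqueDiffWithinAt_Ici y).eq_deriv _ (h.differentiable (by simp) y).hasDerivAt.hasDerivWithinAt
    ((hasDerivWithinAt_const y (Ici y) 0).congr (fun z hz => e z (k.trans hz)) (e y k))

theorem sm_deriv {φ : ℝ → ℝ} (h : ContDiff ℝ ∞ φ) : ContDiff ℝ ∞ (deriv φ) :=
  (contDiff_infty_iff_deriv.1 h).2

section
variable (i : T.Is K) {φ : ℝ → ℝ} (hφ : ContDiff ℝ ∞ φ)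
include i hφ

theorem vl_fc (x : C.Pt) : C.val x (T.fc φ) = φ (T.tv x) := by
  rw [Ch.val, Ibp.val, i.fc_ev φ hφ, Complex.ofReal_re]

theorem fc_van (j : C.J) {s : ℝ} (e : ∀ y, s ≤ y → φ y = 0) : T.fc φ ∈ van C j (T.Y j s) := by
  intro x a b n
  have c : s ≤ T.tv x := not_lt.1 fun c => b ⟨a, c⟩
  have z : ∀ φ, ContDiff ℝ ∞ φ → (∀ y, s ≤ y → φ y = 0) → C.md x (T.fc φ) = 0 := fun φ hφ e => by
    rw [Ch.md, Ibp.md, i.fc_ev φ hφ, e _ c, Complex.ofReal_zero, norm_zero]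
  induction n generalizing φ with
  | zero => rw [jet_zero, z φ hφ e]
  | succ n ih =>
    rw [jet_succ, z φ hφ e, zero_add]
    refine Finset.sum_eq_zero fun a _ => le_antisymm ?_ (jet0 ..)
    rw [i.fc_X φ hφ]
    refine (jet_mul_le ..).trans_eq ?_
    rw [ih (sm_deriv hφ) (deriv_van hφ e), zero_mul, mul_zero]

theorem fc_vf (h : C.Is) (a : Fin 5 → A) : C.R (T.fc φ) = T.fc (deriv φ) * C.R T.ta ∧
    C.vf a (T.fc φ) = T.fc (deriv φ) * C.vf a T.ta := by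
  have r : C.R (T.fc φ) = T.fc (deriv φ) * C.R T.ta := by
    rw [R_eq h, R_eq h, i.fc_X φ hφ, mul_left_comm]
  have n : ∀ b, C.an b (T.fc φ) = T.fc (deriv φ) * C.an b T.ta := fun b => by
    simp only [h.an_eq, ← XO, i.fc_X φ hφ, Finset.mul_sum, mul_left_comm]
  refine ⟨r, ?_⟩
  rw [vf_ap, vf_ap, r, n, n, n, ← X0, ← X0, i.fc_X φ hφ]
  ring

end

/-- The bounds of the frame at the point x. -/
structure Fb (F F0 : NF A) (x : C.Pt) (d b : ℝ) : Prop where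
  n0 : C.md x (F.nc 0 - 2) ≤ d + b
  n1 : C.md x (F.nc 1 + 1) ≤ d + C.rr x * b
  na : C.rr x * (C.md x (F.nc 2) + C.md x (F.nc 3) + C.md x (F.nc 4)) ≤ 3 * (d + C.rr x * b)
  m0 : C.rr x * C.md x (F.mc 0) ≤ C.rr x * C.md x (F0.mc 0) + d
  m1 : C.md x (F.mc 1) ≤ d
  ma : C.rr x * (C.md x (F.mc 2) + C.md x (F.mc 3) + C.md x (F.mc 4)) ≤ 1 + 3 * d

theorem sy0 (h : C.Is) {a : ℝ} {f : A} (s : C.Sy a f) :
    ∃ K, 0 ≤ K ∧ ∀ x, C.md x f ≤ K * C.rr x ^ (-a) :=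
  (sy_pos h s 0).imp fun _ e => ⟨e.1, fun x => (jet_zero f).ge.trans (e.2 x)⟩

theorem fb (g : F.Ga F0 C t) : ∃ K0, 0 ≤ K0 ∧ ∀ (x : C.Pt) o e, 0 ≤ e → Tb C F F0 Vw o e x →
    Fb F F0 x (K0 * (C.rr x)⁻¹ + 2 * e) (e * C.at' C.Sb x) ∧ C.rr x * C.md x (F0.mc 0) ≤ K0 := by
  have h := g.ch
  have f := g.rf
  obtain ⟨a0, p0, b0⟩ := sy0 h f.n0
  obtain ⟨a1, p1, b1⟩ := sy0 h f.n1
  obtain ⟨a2, p2, b2⟩ := sy0 h f.na.1
  obtain ⟨a3, p3, b3⟩ := sy0 h f.na.2.1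
  obtain ⟨a4, p4, b4⟩ := sy0 h f.na.2.2
  obtain ⟨a5, p5, b5⟩ := sy0 h f.m0.1
  obtain ⟨a6, p6, b6⟩ := sy0 h f.m0.2
  obtain ⟨a7, p7, b7⟩ := sy0 h f.ma.1
  obtain ⟨a8, p8, b8⟩ := sy0 h f.ma.2.1
  obtain ⟨a9, p9, b9⟩ := sy0 h f.ma.2.2
  refine ⟨a0 + a1 + a2 + a3 + a4 + a5 + a6 + a7 + a8 + a9, by positivity, fun x o e e0 tb => ?_⟩
  have r1 := one_le_rr h x
  have r0 := rr_pos h x
  set i := (C.rr x)⁻¹ with hi
  have i0 : 0 < i := inv_pos.2 r0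
  have ri : C.rr x * i = 1 := mul_inv_cancel₀ r0.ne'
  have i1 : i ≤ 1 := inv_le_one_of_one_le₀ r1
  have w1 : C.rr x ^ (-1 : ℝ) = i := Real.rpow_neg_one _
  have w2 : C.rr x ^ (-2 : ℝ) = i * i := by rw [← w1, ← Real.rpow_add r0]; norm_num
  have sg : C.at' (Ss C) x ≤ i := (Ss_le h x).trans (by
    simp only [Ch.at', Ch.Sg, Ch.mon, Real.rpow_zero, mul_one, w1]
    exact mul_le_of_le_one_right i0.le
      (Real.rpow_le_one_of_one_le_of_nonpos (one_le_ut h ..) (by norm_num)))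
  have B := fun k => (md_le_jet _ _).trans (tb.b k)
  have G : ∀ k, C.rr x * C.md x ((F.df F0 C).g k) ≤ e := fun k =>
    (mul_le_mul_of_nonneg_left ((md_le_jet _ _).trans ((tb.g k).trans
      (mul_le_mul_of_nonneg_left sg e0))) r0.le).trans_eq (by rw [mul_left_comm, ri, mul_one])
  have Al : C.rr x * C.md x F.al ≤ e := (mul_le_mul_of_nonneg_left ((md_le_jet _ _).trans tb.a)
    r0.le).trans_eq (by rw [at_r, w1, mul_left_comm, ri, mul_one])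
  have s1 : ∀ {a : ℝ} {f : A}, (∀ x, C.md x f ≤ a * C.rr x ^ (-1 : ℝ)) → C.md x f ≤ a * i :=
    fun k => w1 ▸ k x
  have s2 : ∀ {a : ℝ} {f : A}, (∀ x, C.md x f ≤ a * C.rr x ^ (-2 : ℝ)) →
      C.rr x * C.md x f ≤ a * i := fun {a f} k =>
    (mul_le_mul_of_nonneg_left (k x) r0.le).trans_eq (by rw [w2]; linear_combination a * i * ri)
  have tri : ∀ {f : A} (g k : A), f = g + k → C.rr x * C.md x f ≤
      C.rr x * C.md x g + C.rr x * C.md x k := fun g k e => by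
    rw [e, ← mul_add]; exact mul_le_mul_of_nonneg_left (md_add ..) r0.le
  have rm : ∀ {f : A} (g k : A), f = C.r * g + k → C.md x f ≤ C.rr x * C.md x g + C.md x k :=
    fun g k e => by rw [e, ← md_r h, ← md_mul]; exact md_add ..
  have q : ∀ {a : ℝ}, 0 ≤ a → 0 ≤ a * i := fun k => mul_nonneg k i0.le
  have B' := fun k => mul_le_mul_of_nonneg_left (B k) r0.le
  have := q p0; have := q p1; have := q p2; have := q p3; have := q p4
  have := q p5; have := q p6; have := q p7; have := q p8; have := q p9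
  refine ⟨⟨?_, ?_, ?_, ?_, ?_, ?_⟩, ?_⟩
  · have e1 : F.nc 0 - 2 = (F.df F0 C).b 2 + (F0.nc 0 - 2) := (sub_add_sub_cancel ..).symm
    have e2 := le_mul_of_one_le_left (md0 (x := x) (F0.nc 0 - 2)) r1
    rw [e1]
    linarith [md_add (x := x) ((F.df F0 C).b 2) (F0.nc 0 - 2), B 2, s2 b0]
  · have := rm (f := F.nc 1 + 1) ((F.df F0 C).b 3) (F0.nc 1 + 1) (by
      change _ = C.r * (C.ri * F.nc 1 - C.ri * F0.nc 1) + _
      linear_combination (F0.nc 1 - F.nc 1) * h.hr)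
    linarith [B' 3, s1 b1]
  · linarith [tri ((F.df F0 C).b 4) (F0.nc 2) (sub_add_cancel (F.nc 2) _).symm,
      tri ((F.df F0 C).b 5) (F0.nc 3) (sub_add_cancel (F.nc 3) _).symm,
      tri ((F.df F0 C).b 6) (F0.nc 4) (sub_add_cancel (F.nc 4) _).symm, B' 4, B' 5, B' 6,
      s2 b2, s2 b3, s2 b4]
  · have := tri (f := F.mc 0) ((F.df F0 C).g 4 + F.al) (F0.mc 0) (by
      change _ = F.mc 0 - F.al - (F0.mc 0 - F0.al) + F.al + _
      rw [f.al]; ring)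
    linarith [tri ((F.df F0 C).g 4) F.al rfl, G 4]
  · have := rm (f := F.mc 1) ((F.df F0 C).g 5) (F0.mc 1) (by
      change _ = C.r * (C.ri * F.mc 1 - C.ri * F0.mc 1) + _
      linear_combination (F0.mc 1 - F.mc 1) * h.hr)
    linarith [G 5, s1 b6]
  · have e1 := tri (F0.mc 3 - C.ri) C.ri (sub_add_cancel (F0.mc 3) _).symm
    rw [md_ri h, ri] at e1
    linarith [tri ((F.df F0 C).g 6) (F0.mc 2) (sub_add_cancel (F.mc 2) _).symm,
      tri ((F.df F0 C).g 7) (F0.mc 3) (sub_add_cancel (F.mc 3) _).symm,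
      tri ((F.df F0 C).g 8) (F0.mc 4) (sub_add_cancel (F.mc 4) _).symm, G 6, G 7, G 8,
      s2 b7, s2 b8, s2 b9]
  · have := mul_le_mul_of_nonneg_left (s1 b5) r0.le
    rw [mul_left_comm, ri] at this
    linarith

theorem vl_le (f : A) : -C.md x f ≤ C.val x f ∧ C.val x f ≤ C.md x f :=
  abs_le.1 (Ibp.abs_val_le _ f)

theorem vl_two (f : A) : C.val x (f - 2) = C.val x f - 2 ∧
    C.val x (f + 1) = C.val x f + 1 :=
  ⟨(Ibp.val_sub ..).trans (by rw [Ibp.val_two]; rfl), (Ibp.val_add ..).trans (by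
    rw [Ibp.val_one]; rfl)⟩

/-- The time function increases. -/
theorem ng_ta (h : C.Is) (i : T.Is K) {d b k : ℝ} (f : Fb F F0 x d b) (d1 : d ≤ 1 / 1000)
    (b1 : b ≤ 1 / 1000) (b2 : 1000 * (C.rr x * b) ≤ C.val x (C.T T.ta))
    (k0 : C.rr x * C.md x (F0.mc 0) ≤ k) (k1 : 3000 * (k + 1) ^ 2 ≤ C.rr x)
    (T1 : 19 / 20 ≤ C.val x (C.T T.ta)) :
    0 ≤ C.val x (F.n C T.ta) ∧
      2 * C.md x (F.m C T.ta) ^ 2 ≤ C.val x (C.R T.ta) * C.val x (F.n C T.ta) := by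
  obtain ⟨R1, R2⟩ := i.taR x
  obtain ⟨g, -, -, T2⟩ := i.taT x
  have r1 := one_le_rr h x
  have rT : C.c (C.T T.ta) = C.T T.ta := by rw [T_c h x.1, i.re]
  have rR : C.c (C.R T.ta) = C.R T.ta := by rw [R_c h x.1, i.re]
  have an : ∀ a, C.md x (C.an a T.ta) ≤ 6 / 100 * C.rr x := fun a => by
    have : ∀ j, C.md x (C.mu a j * C.Om j T.ta) ≤ 2 * (C.rr x / 100) := fun j => by
      rw [md_mul]; exact mul_le_mul (h.mu_le ..) (i.taO x j) (md0 _) zero_le_two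
    rw [h.an_eq, Fin.sum_univ_three]
    linarith [md_add (x := x) (C.mu a 0 * C.Om 0 T.ta + C.mu a 1 * C.Om 1 T.ta)
      (C.mu a 2 * C.Om 2 T.ta), md_add (x := x) (C.mu a 0 * C.Om 0 T.ta) (C.mu a 1 * C.Om 1 T.ta),
      this 0, this 1, this 2]
  have ang : ∀ a : Fin 5 → A, ∃ z, C.vf a T.ta = C.T T.ta * a 0 + C.R T.ta * a 1 + z ∧
      C.md x z ≤ 6 / 100 * (C.rr x * (C.md x (a 2) + C.md x (a 3) + C.md x (a 4))) := fun a => by
    refine ⟨a 2 * C.an 0 T.ta + a 3 * C.an 1 T.ta + a 4 * C.an 2 T.ta, by rw [vf_ap]; ring, ?_⟩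
    have := md_add (x := x) (a 2 * C.an 0 T.ta + a 3 * C.an 1 T.ta) (a 4 * C.an 2 T.ta)
    have := md_add (x := x) (a 2 * C.an 0 T.ta) (a 3 * C.an 1 T.ta)
    simp only [md_mul] at *
    linarith [mul_le_mul_of_nonneg_left (an 0) (md0 (x := x) (a 2)),
      mul_le_mul_of_nonneg_left (an 1) (md0 (x := x) (a 3)),
      mul_le_mul_of_nonneg_left (an 2) (md0 (x := x) (a 4))]
  obtain ⟨z, ez, hz⟩ := ang F.nc
  obtain ⟨y, ey, hy⟩ := ang F.mc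
  have d0 := (md0 _).trans f.m1
  have n0 := (vl_le _).1.trans_eq (vl_two (x := x) (F.nc 0)).1
  have n1 := (vl_le _).1.trans_eq (vl_two (x := x) (F.nc 1)).2
  have N : C.val x (C.T T.ta) / 11 ≤ C.val x (F.n C T.ta) := by
    rw [NF.n, ez, vl_add, vl_add, vl_mul h rT, vl_mul h rR]
    have a1 := mul_le_mul_of_nonneg_left (show 2 - 2 / 1000 ≤ C.val x (F.nc 0) by
      linarith [f.n0]) (show 0 ≤ C.val x (C.T T.ta) by linarith)
    have a2 := mul_le_mul_of_nonneg_left (show -(1 + 1 / 1000 + C.val x (C.T T.ta) / 1000) ≤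
      C.val x (F.nc 1) by linarith [f.n1]) (show 0 ≤ C.val x (C.R T.ta) by linarith)
    have a3 := mul_le_mul_of_nonneg_right R2
      (show 0 ≤ 1 + 1 / 1000 + C.val x (C.T T.ta) / 1000 by linarith)
    linarith [(vl_le (x := x) z).1, f.na]
  have M : C.md x (F.m C T.ta) ≤ C.val x (C.T T.ta) * C.md x (F.mc 0) + 62 / 1000 := by
    have a1 := md_add (x := x) (C.T T.ta * F.mc 0 + C.R T.ta * F.mc 1) y
    have a2 := md_add (x := x) (C.T T.ta * F.mc 0) (C.R T.ta * F.mc 1)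
    rw [md_mul, md_mul, md_re h rT, md_re h rR, abs_of_nonneg (by linarith),
      abs_of_nonneg (by linarith)] at a2
    have a3 := mul_le_mul R2 (f.m1.trans d1) (md0 _) (by norm_num)
    rw [NF.m, ey]
    linarith [f.ma]
  have m0 := md0 (x := x) (F.mc 0)
  have a1 := pow_le_pow_left₀ (mul_nonneg (by linarith) m0)
    (show C.rr x * C.md x (F.mc 0) ≤ k + 1 by linarith [f.m0]) 2
  have a2 : 3000 * (C.rr x * C.md x (F.mc 0) ^ 2) ≤ 1 :=
    le_of_mul_le_mul_left (a := C.rr x) (by linarith) (by linarith)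
  have a3 := mul_le_mul_of_nonneg_right (show C.val x (C.T T.ta) ≤ 3 * C.rr x by linarith)
    (sq_nonneg (C.md x (F.mc 0)))
  have a4 := mul_le_mul_of_nonneg_left (show C.val x (C.T T.ta) * C.md x (F.mc 0) ^ 2 ≤ 1 / 1000 by
    linarith) (show 0 ≤ C.val x (C.T T.ta) by linarith)
  have a5 := pow_le_pow_left₀ (md0 _) M 2
  have a6 := mul_le_mul_of_nonneg_right R1 (show 0 ≤ C.val x (F.n C T.ta) by linarith)
  refine ⟨by linarith, ?_⟩
  nlinarith [sq_nonneg (C.val x (C.T T.ta) * C.md x (F.mc 0) - 62 / 1000)]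

/-- A function of (u, r) which decreases with t. -/
theorem ng_fn (h : C.Is) {d b κ : ℝ} (f : Fb F F0 x d b) {ψ : Fam C.J} (w : Cw C κ x.1 ψ)
    (κ0 : 0 < κ) (d1 : d ≤ 1 / 1000) (d2 : d ≤ κ) (b1 : b ≤ 1 / 1000)
    (k0 : 2 * (C.rr x * C.md x (F0.mc 0)) ^ 2 ≤ κ) (k1 : 1000 * κ ≤ C.rr x) :
    Ng F x (C.fn ψ) := by
  obtain ⟨-, w1, w2⟩ := w.2 _ (h.dom x)
  have r0 := rr_pos h x
  have r1 := one_le_rr h x
  have du := P354YP.SmF.du w.1 (j := x.1) (u := C.uu x) r0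
  have dr := P354YP.SmF.dr w.1 (j := x.1) (u := C.uu x) r0
  rw [du.deriv, dr.deriv] at w1 w2
  have e1 := P354YP.val_R_fn h w.1 x dr
  have e2 := P354YP.val_vf_fn h w.1 F.nc x du dr
  have e3 := P354YP.md_vf_fn h w.1 F.mc x du dr
  generalize fderiv ℝ (fun p : ℝ × ℝ => ψ x.1 p.1 p.2) (C.uu x, C.rr x) (1, 0) = p at *
  generalize fderiv ℝ (fun p : ℝ × ℝ => ψ x.1 p.1 p.2) (C.uu x, C.rr x) (0, 1) = q at *
  have d0 := (md0 _).trans f.m1
  have p0 : p ≤ 0 := by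
    by_contra c
    linarith [mul_pos κ0 (not_le.1 c)]
  have kp := mul_nonneg κ0.le (neg_nonneg.2 p0)
  have q0 : q ≤ 0 := by
    by_contra c
    linarith [mul_pos (pow_pos r0 2) (not_le.1 c)]
  have q1 : 1000 * (C.rr x * -q) ≤ -p := le_of_mul_le_mul_left (a := C.rr x) (by
    linarith [mul_le_mul_of_nonneg_right k1 (neg_nonneg.2 p0)]) r0
  have q2 := mul_le_mul_of_nonneg_right r1 (neg_nonneg.2 q0)
  have n0 := (vl_le _).1.trans_eq (vl_two (x := x) (F.nc 0)).1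
  have n1 := (vl_le _).1.trans_eq (vl_two (x := x) (F.nc 1)).2
  have N : C.val x (F.n C (C.fn ψ)) ≤ 199 / 100 * p := by
    have a1 := mul_le_mul_of_nonneg_left (show 2 - 2 / 1000 ≤ C.val x (F.nc 0) by
      linarith [f.n0]) (neg_nonneg.2 p0)
    have a2 := mul_le_mul_of_nonneg_left (show -(2 + C.rr x / 1000) ≤ C.val x (F.nc 1) by
      linarith [f.n1, mul_le_mul_of_nonneg_left b1 r0.le]) (neg_nonneg.2 q0)
    rw [NF.n, e2]
    linarith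
  refine ⟨e1.trans_le q0, by linarith, ?_⟩
  rw [abs_of_nonpos p0, abs_of_nonpos q0] at e3
  have a1 : C.rr x * C.md x (F.m C (C.fn ψ)) ≤ -p * (C.rr x * C.md x (F0.mc 0) + 2 * d) := by
    have b1 := mul_le_mul_of_nonneg_left e3 r0.le
    have b2 := mul_le_mul_of_nonneg_left f.m0 (neg_nonneg.2 p0)
    have b3 := mul_le_mul (show C.rr x * -q ≤ -p by linarith) f.m1 (md0 _) (neg_nonneg.2 p0)
    rw [NF.m]
    linarith
  have a2 := pow_le_pow_left₀ (mul_nonneg r0.le (md0 _)) a1 2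
  have a3 : (C.rr x * C.md x (F0.mc 0) + 2 * d) ^ 2 ≤ 7 / 10 * κ := by
    nlinarith [sq_nonneg (C.rr x * C.md x (F0.mc 0) - 8 * d), mul_le_mul d1 d2 d0 (by norm_num)]
  have a4 := mul_le_mul_of_nonneg_left a3 (sq_nonneg p)
  have a5 := mul_le_mul (show 3 / 4 * (κ * -p) ≤ C.rr x ^ 2 * -q by linarith)
    (show 199 / 100 * -p ≤ -C.val x (F.n C (C.fn ψ)) by linarith) (by linarith)
    (mul_nonneg (sq_nonneg _) (neg_nonneg.2 q0))
  refine le_of_mul_le_mul_left ?_ (pow_pos r0 2)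
  rw [e1]
  nlinarith [mul_nonneg κ0.le (sq_nonneg p)]

theorem de_le (h : C.Is) (k : K.Is) {e : ℝ} (e0 : 0 ≤ e) (x : C.Pt) :
    e ≤ e * K.pm x.1 ∧ e * K.pm x.1 ≤ de C K x.1 e ∧ (C.rr x)⁻¹ ≤ de C K x.1 e := by
  obtain ⟨p1, p2, -⟩ := k.ple _ _ (h.dom x)
  have e1 : e ≤ e * K.pm x.1 := le_mul_of_one_le_right e0 (p1.trans p2)
  have R1 := (h.one_le x.1).1
  have e2 : (C.R0 x.1)⁻¹ ≤ C.R0 x.1 ^ (-1 / 10 : ℝ) := by
    rw [← Real.rpow_neg_one]; exact Real.rpow_le_rpow_of_exponent_le R1 (by norm_num)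
  have e3 : 0 < (C.R0 x.1)⁻¹ := by positivity
  have e4 := inv_anti₀ (by linarith) (R0_le_rr h x)
  rw [de]
  exact ⟨e1, by linarith, by linarith⟩

theorem caus : CAUS C F F0 t K Vw T := fun g k i κ κ0 hκ => by
  have h := g.ch
  obtain ⟨K0, p0, b⟩ := fb (Vw := Vw) g
  refine ⟨min (1 / (3000 * (K0 + 2) ^ 2)) (min (κ / (K0 + 2)) (1 / (1000 * κ))), by positivity,
    fun o j s e φ ψ hs e0 hd tb cf cw => ?_⟩
  have m := Ideal.mul_mem_right (C.fn ψ) _ (fc_van i cf.1 j cf.2.2)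
  have rφ := i.fc_c φ cf.1
  have rψ := h.fn_c ψ cw.1
  obtain ⟨c1, c2, c3, c4⟩ := i.cpt φ cf.1 j s hs cf.2.2
  refine ⟨⟨by rw [map_mul, rφ, rψ], ?_, fun x hx => ?_⟩, m⟩
  · simp only [mul_right_comm _ (C.fn ψ)]
    exact ⟨Ideal.mul_mem_right _ _ c1, Ideal.mul_mem_right _ _ c2, Ideal.mul_mem_right _ _ c3,
      Ideal.mul_mem_right _ _ c4⟩
  by_cases y : x ∈ T.Y j s
  swap
  · rw [(van_val m hx y).2, (van_val (van_vf h m F.nc).1 hx y).2, NF.n, NF.m,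
      (van_val (van_vf h m F.nc).2 hx y).2, (van_val (van_vf h m F.mc).2 hx y).1]
    norm_num
  subst hx
  obtain ⟨f, f0⟩ := b x o e e0 (tb x y)
  obtain ⟨d1, d2, d3⟩ := de_le h k e0 x
  have r0 := rr_pos h x
  have i0 := (inv_pos.2 r0).le
  have ri := mul_inv_cancel₀ r0.ne'
  set δ := de C K x.1 e
  have δ0 : 0 ≤ δ := i0.trans d3
  have h1 : δ * (3000 * (K0 + 2) ^ 2) ≤ 1 :=
    (le_div_iff₀ (by positivity)).1 (hd.trans (min_le_left ..))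
  have h2 : δ * (K0 + 2) ≤ κ :=
    (le_div_iff₀ (by positivity)).1 (hd.trans ((min_le_right ..).trans (min_le_left ..)))
  have h3 : δ * (1000 * κ) ≤ 1 :=
    (le_div_iff₀ (by positivity)).1 (hd.trans ((min_le_right ..).trans (min_le_right ..)))
  have big : ∀ {a : ℝ}, 0 ≤ a → δ * a ≤ 1 → a ≤ C.rr x := fun {a} a0 a1 => by
    have := mul_le_mul_of_nonneg_left ((mul_le_mul_of_nonneg_right d3 a0).trans a1) r0.le
    rwa [← mul_assoc, ri, one_mul, mul_one] at this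
  have h4 : K0 * (C.rr x)⁻¹ + 2 * e ≤ δ * (K0 + 2) := by
    linarith [mul_le_mul_of_nonneg_left d3 p0]
  have h5 : δ * (K0 + 2) ≤ 1 / 1000 := by nlinarith [mul_nonneg δ0 p0, mul_nonneg δ0 (sq_nonneg K0)]
  have h6 : δ ≤ 1 / 1000 := by linarith [mul_nonneg δ0 p0]
  have sb1 : C.at' C.Sb x ≤ 1 := by
    simp only [Ch.at', Ch.Sb, Ch.mon, Real.rpow_zero, one_mul]
    exact Real.rpow_le_one_of_one_le_of_nonpos (one_le_ut h ..) (by norm_num)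
  have sb0 : 0 < C.at' C.Sb x := at_pos h ..
  have b1 : e * C.at' C.Sb x ≤ 1 / 1000 := by linarith [mul_le_of_le_one_right e0 sb1]
  obtain ⟨γ, g1, g2, -⟩ := i.taT x
  have γ0 : 0 ≤ γ := by
    have := (k.ple _ _ (h.dom x))
    exact (pos_of_mul_pos_right (sb0.trans_le g1) (by linarith [this.1, this.2.1]) |>.le)
  have g3 := mul_nonneg r0.le γ0
  have b2 : 1000 * (C.rr x * (e * C.at' C.Sb x)) ≤ C.val x (C.T T.ta) := by
    have a1 := mul_le_mul_of_nonneg_left g1 (mul_nonneg r0.le e0)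
    have a2 := mul_le_mul_of_nonneg_right (d2.trans h6) g3
    linarith
  obtain ⟨t1, t2⟩ := ng_ta h i f (h4.trans h5) b1 b2 f0 (big (by positivity) (by
    nlinarith [mul_nonneg δ0 p0])) (by linarith)
  have v0 : 0 ≤ C.val x (T.fc φ) := by rw [vl_fc i cf.1]; exact (cf.2.1 _).1.1
  have v1 : 0 ≤ C.val x (C.fn ψ) := by rw [vl_fn h cw.1]; exact (cw.2 _ (h.dom x)).1
  refine ⟨by rw [vl_mul h rφ]; exact mul_nonneg v0 v1, Ng.mul h rφ rψ v0 v1 ?_ (ng_fn h f cw κ0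
    (h4.trans h5) (h4.trans h2) b1 (hκ x) (big (by positivity) h3))⟩
  have r' := i.fc_c _ (sm_deriv cf.1)
  have v2 := (cf.2.1 (T.tv x)).2
  rw [Ng, (fc_vf i cf.1 h F.nc).1, NF.n, NF.m, (fc_vf i cf.1 h F.nc).2, (fc_vf i cf.1 h F.mc).2,
    md_mul, md_re h r', vl_mul h r', vl_mul h r', vl_fc i (sm_deriv cf.1), mul_pow, sq_abs]
  refine ⟨mul_nonpos_of_nonpos_of_nonneg v2 (zero_le_one.trans (i.taR x).1),
    mul_nonpos_of_nonpos_of_nonneg v2 t1, ?_⟩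
  have := mul_le_mul_of_nonneg_left t2 (sq_nonneg (deriv φ (T.tv x)))
  rw [NF.n, NF.m] at this
  linarith

theorem far (H : Inp) : FAR C F F0 t K Vw T := fun sd i κ κ0 hκ o n s l ok hn r => by
  obtain ⟨c, c0, a⟩ := caus (Vw := Vw) sd.ga sd.cut i κ κ0 hκ
  obtain ⟨c', c0', B, B0, b⟩ := fa H sd o n s l ok hn r
  refine ⟨min c c', lt_min c0 c0', B, B0, fun j σ e φ ψ hs e0 hd tb cf cw => ?_⟩
  obtain ⟨p, q⟩ := a o j σ e φ ψ hs e0 (hd.trans (min_le_left ..)) tb cf cw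
  exact b j e _ e0 (hd.trans (min_le_right ..)) p fun x hx =>
    (em (x ∈ T.Y j σ)).imp (tb x) (q x hx)

end Vale.Agent.P354YL
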