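import Vale.Agent.P354YL.Lim
import Vale.Agent.P354YK.Tm2
import Vale.Agent.P354FS.Layb
import Vale.Agent.P354YF.Fte4
import Vale.Agent.P354FX.Ins
import Vale.Agent.P354PA.Low

/-!
The integral over the layer with the weight W0.
-/

open Set

noncomputable section

namespace Vale.Agent.P354YL

open Vale.Agent.P354XD Vale.Agent.P354XI Vale.Agent.P354Z Vale.Agent.P354CV Vale.Agent.P354XZ
open Vale.Agent.P354CO (Sl Gi Bo Ys_mono)
open Vale.Agent.P354YK (Fm lay_ne)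
open Vale.Agent.P354BO (q2_mono)
open Vale.Agent.P354FA (Vw)
open Vale.Agent.P354YF
open Vale.Agent.P354FS (layb)

theorem rawn : P354FS.RAWN := fun _ h m n N ρ =>
  let ⟨c, c0, B, B0, a⟩ := raw_near h m n N ρ
  ⟨c, c0, B, B0, fun x d y e1 e2 e3 e4 => a x d y e1 e2 e3 fun i =>
    (q2_mono _ _ (n.le_add_right 4) _).trans (e4 i)⟩

theorem rawl : P354FS.RAWL := fun _ h m _ N k =>
  let ⟨c, c0, B, B0, a⟩ := raw_lay h m N
  ⟨c, c0, B, B0, fun x e e1 e2 e3 => (a x e e1 e2 fun i =>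
    (q2_mono _ _ (N.le_add_right 2) _).trans (e3 i)).mono h.is k le_rfl le_rfl⟩

theorem w_num {a U t R : ℝ} (a0 : a ≤ 0) (a1 : -1 ≤ a) (U1 : 1 ≤ U) (R0 : 0 ≤ R) (e : -R ≤ t) :
    (U + max t 0) ^ a ≤ (1 + R) * (1 + |t|) ^ a := by
  have p := Real.rpow_nonneg (show 0 ≤ 1 + |t| by positivity) a
  rcases le_total 0 t with c | c
  · rw [max_eq_left c, abs_of_nonneg c] at *
    exact (Real.rpow_le_rpow_of_nonpos (by linarith) (by linarith) a0).trans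
      (le_mul_of_one_le_left p (by linarith))
  · have b := Real.rpow_le_rpow_of_exponent_le (le_add_of_nonneg_right (abs_nonneg t)) a1
    rw [Real.rpow_neg_one] at b
    rw [max_eq_right c, add_zero]
    refine (Real.rpow_le_one_of_one_le_of_nonpos U1 a0).trans (le_trans ?_
      (mul_le_mul (show 1 + |t| ≤ 1 + R by rw [abs_of_nonpos c]; linarith) b (by positivity)
        (by linarith)))
    rw [mul_inv_cancel₀ (by positivity)]

variable {Φ : Fm} (h : Φ.Ok) {θ : ℝ} {pm ep : Φ.J → ℝ} {p : Φ.J → ℝ → ℝ}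

/-- The layer up to the level s, for all orders n ≤ n0, n + s ≤ N. -/
theorem in_lay (g : Φ.Gd θ pm) (k : (h.cut θ p pm ep).Is) {a : ℝ} (a0 : a ≤ 0) (a1 : -1 ≤ a)
    (n0 N : ℕ) (t1 R0 U P R : ℝ) : ∃ δ > 0, ∃ C ≥ 0, ∀ j : Φ.J, (Φ.c j).t1 = t1 → Φ.R0 j = R0 →
      Φ.U0 j ≤ U → pm j ≤ P → n0 + 4 ≤ (Φ.c j).N0 → N ≤ (Φ.c j).K → 4 * (Φ.c j).R1 ≤ R0 →
      4 * R0 ≤ R → R + 1 ≤ (Φ.c j).Rs → θ ≤ 2 * (Φ.c j).del → ∀ L ε D s T, N / 2 ≤ L →
      Bo (Φ.c j) (Φ.E j) L ε → ε ≤ δ → D ≤ δ → s ∈ (Φ.E j).Lv → (Φ.E j).Top (Φ.c j) s T →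
      Gi (Φ.c j) (Φ.E j) (14 / 5 + a) R (T + (Φ.c j).B) D →
      (∀ s' < s, Sl (Φ.c j) (14 / 5 + a) (Ys (Φ.c j) (Φ.E j) N s' R) (T + (Φ.c j).B) D) →
      ∀ φ, Cf s φ → ∀ l ≥ 0, ∀ n m, n ≤ n0 → n + m ≤ N →
        (h.cut θ p pm ep).L j ((h.TT θ).fc φ * h.ch.fn (W0 h.ch (4 * Φ.M0 ^ 2) a))
          (Ql h.ch Φ.nf Φ.nf0 (h.cut θ p pm ep) (Vw Φ.nf Φ.nf0 h.ch) l n m) ≤ C * D := by
  have m4 : ∀ j, 4 * Φ.M0 ≤ Φ.R0 j := fun j => by nlinarith [g.M j, (h.one j).1]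
  have i := h.tm_is (p := p) (ep := ep) g
  choose δ δ0 C C0 H using fun q : Fin (n0 + 1) × Fin (N + 1) =>
    layb h k m4 P354FX.tubeb P354PA.low2 rawn rawl q.1 q.2 t1 R0 U P R
  obtain ⟨q0, m0⟩ := Finite.exists_min δ
  obtain ⟨q1, m1⟩ := Finite.exists_max C
  refine ⟨δ q0, δ0 _, C q1 * (2 * (1 + |4 * R0 + 1|)), mul_nonneg (C0 _) (by positivity),
    fun j ht hR hU hP hN hK r4 r5 r6 hθ L ε D s T hL b e1 e2 hs tp gi sl φ cf l l0 n m hn hm => ?_⟩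
  have o := g.ok j
  have sh := g.sh j
  have R1 := hR ▸ (h.one j).1
  have cw := cw_W0 h.is (κ := 4 * Φ.M0 ^ 2) (by positivity) a0 j
  have D0 := (sq_nonneg _).trans gi.1
  obtain ⟨s2, u1, u2⟩ := ((eventually_mem_nhdsWithin (s := Ioi s)).and
    (mem_nhdsWithin_of_mem_nhds (sh.lvO.mem_nhds hs))).exists
  refine lay_lim h.is k i u2 u1 cw (fun _ _ => Ql_pos h.is k n m) (fun s' u φ cf => ?_) cf
  refine (H (⟨n, by omega⟩, ⟨m, by omega⟩) j o ht hR hU hP (by dsimp only; omega) (hm.trans hK) r4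
    r5 r6 (fun x e z => ?_) L ε _ (2 * (1 + |4 * R0 + 1|)) D s' _ l _
    ((Nat.div_le_div_right hm).trans hL) b (e1.trans (m0 _)) (e2.trans (m0 _)) (by linarith)
    (by linarith) (by positivity) l0 gi ((sl s' u).mono le_rfl fun _ _ =>
      Ys_mono hm le_rfl le_rfl le_rfl le_rfl)
    (by rw [map_mul, i.fc_c φ cf.1, h.is.fn_c _ cw.1]) (by
      rw [mul_right_comm]
      exact Ideal.mul_mem_right _ _ (i.cpt φ cf.1 j _ (i.low j u.le hs) cf.2.2).2.1)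
    fun x e => ?_).trans (mul_le_mul_of_nonneg_right (mul_le_mul_of_nonneg_right (m1 _)
      (by positivity)) D0)
  · subst e
    refine (lay_ne g.th.1 (one_pos.trans_le (h.one x.1).1) (h.rr_pos x) z).2.2.imp
      (fun c => hR ▸ c.le) fun c => ?_
    linarith [mul_le_mul_of_nonneg_right hθ (h.rr_pos x).le]
  subst e
  obtain ⟨m2, an, w1, w2⟩ := h.pt_mem x
  have U1 : 1 ≤ h.ch.U0 x.1 := (h.one x.1).1.trans (h.one x.1).2
  have t : h.ch.uu x - 4 * Φ.M0 ^ 2 / h.ch.rr x = (h.pt x).1 := by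
    rw [h.uu_eq, h.rr_eq, uu, add_sub_cancel_right]
  have w := W0_le h.is (κ := 4 * Φ.M0 ^ 2) a0 x.1 (h.ch.uu x) (h.ch.rr x)
  rw [t] at w
  have w0 := (cw.2 _ (h.is.dom x)).1
  have f := (cf.2.1 ((h.TT θ).tv x)).1
  have v := mul_le_of_le_one_left w0 f.2
  rw [vl_mul h.is (i.fc_c φ cf.1), vl_fc i cf.1, vl_fn h.is cw.1]
  refine ⟨mul_nonneg f.1 w0, (v.trans w).trans ?_, fun r => ⟨?_, fun z => ?_⟩⟩
  · have := Real.rpow_le_one_of_one_le_of_nonpos (le_add_of_le_of_nonneg U1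
      (le_max_right (h.pt x).1 0)) a0
    linarith [abs_nonneg (4 * R0 + 1)]
  · have q : 4 * Φ.M0 ^ 2 / h.ch.rr x ≤ 1 := (div_le_one (h.rr_pos x)).2 (by
      rw [h.rr_eq]; linarith [g.M x.1, sq_nonneg Φ.M0])
    have := w_num a0 a1 U1 (abs_nonneg (4 * R0 + 1)) (t := (h.pt x).1) (by
      linarith [le_abs_self (4 * R0 + 1), (h.is.dom x).2])
    rw [add_comm (14 / 5 : ℝ), Real.rpow_add (by positivity), ← mul_assoc]
    exact mul_le_mul_of_nonneg_right ((v.trans w).trans (by linarith)) (by positivity)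
  · have lt : (h.TT θ).tv x < s' := lt_of_not_ge fun c => left_ne_zero_of_mul z (cf.2.2 _ c)
    have fa := h.fa x (g.R1 _)
    rw [h.rr_eq] at r
    have m := sh.low _ m2 fa (by linarith)
    refine ⟨lt.le, (le_total T _).elim (fun c => (tp.lens _ m ?_ c).2) fun c => by linarith [o.B]⟩
    exact (sh.up _ m fa).2.trans_lt (lt.trans u)

end Vale.Agent.P354YL
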