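import Vale.Agent.P354YL.All

/-!
The bound in the layer up to a level follows from the bounds up to the smaller levels.
-/

open Set Filter Topology

namespace Vale.Agent.P354YL

open Vale.Agent.P354XI Vale.Agent.P354XZ Vale.Agent.P354YF

variable {A : Type} [CommRing A] [Algebra ℂ A] {C : Ch A} {K : Cut C} {T : Tm C}

theorem Cf.anti {s : ℝ} {φ : ℝ → ℝ} (a : Cf s φ) : Antitone φ :=
  antitone_of_deriv_nonpos (a.1.differentiable (by simp)) fun y => (a.2.1 y).2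

theorem Cf.mul {s s' : ℝ} {φ χ : ℝ → ℝ} (a : Cf s φ) (b : Cf s' χ) : Cf s' (φ * χ) :=
  ⟨a.1.mul b.1, fun y => ⟨⟨mul_nonneg (a.2.1 y).1.1 (b.2.1 y).1.1,
    mul_le_one₀ (a.2.1 y).1.2 (b.2.1 y).1.1 (b.2.1 y).1.2⟩, Antitone.deriv_nonpos fun y z e =>
      mul_le_mul (a.anti e) (b.anti e) (b.2.1 z).1.1 (a.2.1 y).1.1⟩,
    fun y e => by rw [Pi.mul_apply, b.2.2 y e, mul_zero]⟩

theorem lay_lim (h : C.Is) (k : K.Is) (i : T.Is K) {j : C.J} {σ σ2 κ D : ℝ} (h2 : σ2 ∈ T.Lv j)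
    (lt : σ < σ2) {ψ : Fam C.J} (cw : Cw C κ j ψ) {Q : A}
    (Q0 : ∀ x : C.Pt, x.1 = j → 0 ≤ C.val x Q)
    (H : ∀ σ' < σ, ∀ φ, Cf σ' φ → K.L j (T.fc φ * C.fn ψ) Q ≤ D) {φ : ℝ → ℝ} (cf : Cf σ φ) :
    K.L j (T.fc φ * C.fn ψ) Q ≤ D := by
  obtain ⟨φ0, c0, e0⟩ := cf_ex lt
  have m : ∀ {s φ}, Cf s φ → s ≤ σ2 → T.fc φ * C.fn ψ * C.fn K.lay * Q ∈ (C.B j).K :=
    fun {s φ} c e => by
      rw [mul_right_comm (T.fc φ)]
      exact Ideal.mul_mem_right _ _ (Ideal.mul_mem_right _ _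
        (i.cpt φ c.1 j _ (i.low j e h2) c.2.2).2.1)
  have v : ∀ {s φ}, Cf s φ → ∀ x : C.Pt, C.val x (T.fc φ * C.fn ψ * C.fn K.lay * Q) =
      φ (T.tv x) * (C.at' ψ x * (C.at' K.lay x * C.val x Q)) := fun c x => by
    rw [mul_assoc, mul_assoc, vl_mul h (i.fc_c _ c.1), vl_fc i c.1, vl_fn_mul h cw.1,
      vl_fn_mul h k.sm.2.1]
  have t : Tendsto (fun s => D + φ s * K.L j (T.fc φ0 * C.fn ψ) Q) (𝓝[<] σ) (𝓝 D) := by
    have := ((cf.1.continuous.tendsto σ).mul_const (K.L j (T.fc φ0 * C.fn ψ) Q)).const_add D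
    rw [cf.2.2 σ le_rfl, zero_mul, add_zero] at this
    exact this.mono_left nhdsWithin_le_nhds
  refine ge_of_tendsto t (eventually_mem_nhdsWithin.mono fun s (hs : s < σ) => ?_)
  obtain ⟨s', a1, a2⟩ := exists_between hs
  obtain ⟨χ, c1, e1⟩ := cf_ex a1
  refine le_trans ?_ (add_le_add_left (H s' a2 _ (cf.mul c1)) _)
  rw [Cut.L, Cut.L, Cut.L, ← Ibp.J_rl, ← Ibp.J_add]
  refine (h.ibp j).J_le (m cf lt.le) (add_mem (m (cf.mul c1) (a2.trans lt).le)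
    (Ideal.mul_mem_left _ _ (m c0 le_rfl))) fun z => (fun (x : C.Pt) (e : x.1 = j) =>
      (?_ : C.val x _ ≤ C.val x _)) ⟨j, z⟩ rfl
  subst e
  rw [vl_add, P354YL.vl_rl h, v cf, v (cf.mul c1), v c0, ← mul_assoc (φ s), ← add_mul]
  refine mul_le_mul_of_nonneg_right ?_ (mul_nonneg (cw.2 _ (h.dom x)).1
    (mul_nonneg (k.rng _ _ (h.dom x)).2.1 (Q0 _ rfl)))
  generalize T.tv x = y
  have p := mul_nonneg (cf.2.1 s).1.1 (c0.2.1 y).1.1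
  have q := ((cf.mul c1).2.1 y).1.1
  rcases le_total y s with b | b
  · rw [Pi.mul_apply, e1 y b]; linarith
  rcases le_total y σ with d | d
  · rw [e0 y d]; linarith [cf.anti b]
  · rw [cf.2.2 y d]; linarith

variable {F F0 : NF A} {Vw : List Lt → Fin 5 → A}

/-- The boundary data from the bounds up to the smaller levels. -/
theorem In.of_lt (h : C.Is) (k : K.Is) (i : T.Is K) {j : C.J} {σ κ e : ℝ}
    (op : IsOpen (T.Lv j)) (hs : σ ∈ T.Lv j) {ψ : Fam C.J} (cw : Cw C κ j ψ) {o : Od}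
    (pt : ∀ x ∈ T.Z, x.1 = j → T.tv x ≤ σ → Tb C F F0 Vw o.up e x)
    (H : ∀ σ' < σ, ∀ φ, Cf σ' φ → ∀ l ∈ Icc (0 : ℝ) (1 / 100), ∀ n s, n ≤ o.m + 6 →
      n + s ≤ o.N + 6 → K.L j (T.fc φ * C.fn ψ) (Ql C F F0 K Vw l n s) ≤ e ^ 2) :
    In C F F0 K Vw T o ψ j σ e :=
  let ⟨_, a, b⟩ := ((eventually_mem_nhdsWithin (s := Ioi σ)).and
    (mem_nhdsWithin_of_mem_nhds (op.mem_nhds hs))).exists
  ⟨pt, fun _ cf l hl n s c d => lay_lim h k i b a cw (fun _ _ => Ql_pos h k n s)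
    (fun σ' u φ c' => H σ' u φ c' l hl n s c d) cf⟩

end Vale.Agent.P354YL
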