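import Vale.Agent.P354F2.Parts2

/-!
The two comparisons, from the comparison along families.
-/

open Set

noncomputable section

namespace Vale.Agent.P354YL

open Vale.Agent.P354XG Vale.Agent.P354XD Vale.Agent.P354XR Vale.Agent.P354XI Vale.Agent.P354Z
open Vale.Agent.P354F2
open Vale.Agent.P354XE (Tw gin)
open Vale.Agent.P354YO (sh IsTh)

/-- The data at one point. -/
structure Tu where
  O : Set E6
  g : Tw
  M : ℝ
  a : ℝ
  A : ℝ → ℝ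
  B : ℝ → ℝ
  x : E6
  d : ℝ
  l : ℝ

structure Tu.Ok (M0 R κ : ℝ) (n : ℕ) (t : Tu) : Prop where
  pre : P354F2.Pre M0 R t.O t.g
  th : IsTh M0 t.M t.a t.A t.B
  a : |t.a| < t.M
  M : t.M ≤ 5 / 4 * M0
  d : t.d ∈ Icc 0 1
  x : t.x ∈ t.O
  an : An t.x
  r : R ≤ t.x.2.1
  u : 0 ≤ uu M0 t.x + t.x.2.1
  one : 1 ≤ t.l
  rr : ∀ y ∈ Seg M0 R t.x, t.l ≤ κ * y.2.1 ∧ y.2.1 ≤ κ * t.l
  flat : t.l = 1 ∨ uu M0 t.x ≤ -R - 1 / 2
  jw : ∀ y ∈ Seg M0 R t.x, Jw (n + 2) t.l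
    (t.g - P354XE.pb (sh t.A t.B) (gin t.M t.a)) (pj y) (t.d / t.l)

theorem an_of {x y : E6} (h : An x) (e : y.2.2 = x.2.2) : An y := by
  unfold An nq at *
  rwa [e]

theorem tu_fam (c : P354F2.CORE) {M0 R : ℝ} (R0 : 0 < R) {F} (h : FAM M0 R F) (n : ℕ) (κ : ℝ) :
    ∃ e > 0, ∃ C, ∀ t : Tu, t.Ok M0 R κ n → t.d ≤ e → ∀ k,
      q2 (ll (hp _) (pO t.O M0 t.M t.a)) t.x n (dd t.O t.g (F t.O t.g t.M t.a) M0 t.M t.a k) ≤
        (C * t.d / t.l ^ dm k) ^ 2 ∧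
      (t.l = 1 → q2 (lt (hp _) (pO t.O M0 t.M t.a)) t.x n
        (dd t.O t.g (F t.O t.g t.M t.a) M0 t.M t.a k) ≤ (C * t.d) ^ 2) := by
  have s := fun (i : {t : Tu // t.Ok M0 R κ n}) y => c.2.2 M0 R i.1.x y R0 i.2.r i.2.u
  obtain ⟨e, e0, C, a⟩ := h n κ {t : Tu // t.Ok M0 R κ n} (·.1.O) (fun i => Seg M0 R i.1.x) (·.1.l)
    (·.1.d) (·.1.M) (·.1.a) (·.1.g) (·.1.A) (·.1.B)
    ⟨fun i => i.2.pre.co, fun i => i.2.pre.star, fun i => i.2.pre.star _ i.2.x,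
      fun i y m => (s i y m).2.1, fun i y m => an_of i.2.an (s i y m).2.2.2.1, fun i => i.2.one,
      fun i => i.2.rr, fun i => i.2.flat.imp id fun u y m => (s i y m).2.2.1.trans_le u⟩
    fun i => ⟨i.2.pre, i.2.th, i.2.a, i.2.M, i.2.d, i.2.jw⟩
  exact ⟨e, e0, C, fun t o he => a ⟨t, o⟩ he _ (s ⟨t, o⟩ _ ⟨_, left_mem_uIcc, rfl⟩).1⟩

theorem par_lt {M0 a0 M a : ℝ} (h : |a0| < M0) (e : |M - M0| + |a - a0| ≤ (M0 - |a0|) / 4) :
    |a| < M ∧ M ≤ 5 / 4 * M0 := by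
  have a1 := abs_sub_abs_le_abs_sub a a0
  have a2 := abs_le.1 (le_refl |M - M0|)
  constructor <;> linarith [abs_nonneg a0, abs_nonneg (a - a0), a2.1, a2.2]

theorem ntw : NTW := fun c M0 a0 R F ha hR h n => ⟨n + 2, fun ρ => by
  have M1 := (abs_nonneg _).trans_lt ha
  obtain ⟨e, e0, C, k⟩ := tu_fam c (by linarith) h n (max ρ 1)
  refine ⟨C, min (min e 1) ((M0 - |a0|) / 4), lt_min (lt_min e0 one_pos) (by linarith),
    fun O g M a A B pre th p x m an r u w d ⟨d0, d1⟩ b i => ?_⟩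
  have q := par_lt ha (p.trans (min_le_right ..))
  have d2 := le_min_iff.1 (d1.trans (min_le_left ..))
  refine (k ⟨O, g, M, a, A, B, x, d, 1⟩ ⟨pre, th, q.1, q.2, ⟨d0, d2.2⟩, m, an, r, u, le_rfl,
    fun y my => ?_, .inl rfl, fun y my j hj v v' => ?_⟩ d2.1 i).2 rfl
  · obtain ⟨-, -, -, -, y1, y2, -⟩ := c.2.2 M0 R x y (by linarith) r u my
    exact ⟨one_le_mul_of_one_le_of_one_le (le_max_right ..) (by linarith),
      (y2.trans (w.trans (le_max_left ..))).trans_eq (mul_one _).symm⟩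
  · exact (b y my j hj v v').trans_eq (by simp)⟩

theorem laf : LAF := fun c jw M0 a0 R F ha hR h n => ⟨n + 2, by
  have M1 := (abs_nonneg _).trans_lt ha
  obtain ⟨e, e0, C, k⟩ := tu_fam c (by linarith) h n 2
  obtain ⟨C1, c1, e1, p1, J⟩ := jw.2 M0 a0 R (n + 2) ha hR
  refine ⟨C * C1, min (min e 1 / (2 * C1 + 1)) (min e1 ((M0 - |a0|) / 4)),
    lt_min (by positivity) (lt_min p1 (by linarith)),
    fun O g gc M a A B pre th p x m an r u w d ⟨d0, d1⟩ b i => ?_⟩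
  obtain ⟨A', B', th'⟩ := jw.1 M0 M a M1
  obtain ⟨p2, p3, p4⟩ : _ ∧ _ ∧ _ := (le_min_iff.1 p).imp_right le_min_iff.1
  have q := par_lt ha p4
  have d2 := d1.trans (min_le_left ..)
  have z := add_nonneg (abs_nonneg (M - M0)) (abs_nonneg (a - a0))
  rw [le_div_iff₀ (by positivity)] at p2 d2
  have d3 := le_min_iff.1 (show C1 * (d + |M - M0| + |a - a0|) ≤ min e 1 by
    nlinarith [mul_nonneg c1 d0, mul_nonneg c1 z])
  have s := fun y => c.2.2 M0 R x y (by linarith) (by linarith) u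
  have rr : ∀ y ∈ Seg M0 R x, x.2.1 ≤ 2 * y.2.1 ∧ y.2.1 ≤ 2 * x.2.1 := fun y my => by
    obtain ⟨-, -, y0, -, y1, y2, -, y3, -⟩ := s y my
    have := y3 (by linarith)
    constructor <;> linarith
  refine (k ⟨O, g, M, a, A', B', x, C1 * (d + |M - M0| + |a - a0|), x.2.1⟩ ⟨pre, th', q.1, q.2,
    ⟨by positivity, d3.2⟩, m, an, by linarith, u, by linarith, rr, .inr (by linarith),
    fun y my => ?_⟩ d3.1 i).1.trans_eq (by rw [mul_assoc])
  obtain ⟨-, -, -, y0, y1, -⟩ := s y my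
  have e : P354XE.rd (pj y) = y.2.1 := rd_pj (by linarith) fun f => by
    have := (an_of an y0).1
    simp [nq, f] at this
    linarith
  exact J g gc M a A B A' B' _ _ d th th' p3 (e ▸ y1) (by linarith) (e ▸ (rr y my).1) d0
    (pre.lv y (pre.star x m my)) (b y my).1 (b y my).2⟩

end Vale.Agent.P354YL
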