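import Vale.Agent.P354YL.Defs
import Vale.Agent.P354YF.Sy
import Vale.Agent.P354XG.Quot

/-!
Restriction of a far chart to subsets of its points: the product ring with a new index set.
-/

open Set

noncomputable section

namespace Vale.Agent.P354YL

open Vale.Agent.P354XG (Der GHP)
open Vale.Agent.P354XI (Ibp)
open Vale.Agent.P354XZ

variable {A : Type} [CommRing A] [Algebra ℂ A]

/-- A derivation acting on the components. -/
def piD (J : Type) (D : Der A) : Der (J → A) :=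
  Derivation.mk' (LinearMap.compLeft D.toLinearMap J) fun _ _ => funext fun _ => D.leibniz _ _

theorem piD_ap {J : Type} (D : Der A) (f : J → A) (j : J) : piD J D f j = D (f j) := rfl

/-- The component j, on the points in Y, with supports in the ideal I. -/
def reB {J : Type} (B : Ibp A) (j : J) (Y : Set B.Pt) (I : Ideal A) : Ibp (J → A) where
  c := B.c.compLeft J
  K := (B.K ⊓ I).comap (Pi.evalRingHom _ j)
  I := B.I ∘ₗ LinearMap.proj j
  Pt := Y
  ev x := (B.ev x.1).comp (Pi.evalRingHom _ j)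

section
variable {J : Type} {B : Ibp A} {j : J} {Y : Set B.Pt} {I : Ideal A}

theorem mem_reB {f : J → A} : f ∈ (reB B j Y I).K ↔ f j ∈ B.K ∧ f j ∈ I := Iff.rfl

theorem reB_is (h : B.Is) (c : ∀ f ∈ I, B.c f ∈ I) (v : ∀ f ∈ I, ∀ x ∉ Y, B.ev x f = 0) :
    (reB B j Y I).Is where
  cc f := funext fun k => h.cc (f k)
  calg z := funext fun _ => h.calg z
  K_c f hf := ⟨h.K_c _ hf.1, c _ hf.2⟩
  ev_alg x z := h.ev_alg x.1 z
  ev_c x f := h.ev_c x.1 (f j)
  mono f hf e := h.mono (f j) hf.1 fun x => by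
    by_cases k : x ∈ Y
    · exact e ⟨x, k⟩
    · rw [v (f j) hf.2 x k, Complex.zero_re]

theorem reB_dv {D : Der A} (h : B.Dv D 0) (s : ∀ f ∈ I, D f ∈ I) :
    (reB B j Y I).Dv (piD J D) 0 :=
  ⟨fun _ hf => ⟨h.K_D _ hf.1, s _ hf.2⟩, fun f hf => h.ibp (f j) hf.1⟩

theorem reB_sk {D : Der A} (h : B.Skew D) (s : ∀ f ∈ I, D f ∈ I) :
    (reB B j Y I).Skew (piD J D) := ⟨reB_dv h.dv s, fun f => funext fun k => h.re (f k)⟩

end

/-- The GHP data acting on the components. -/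
def piG (J : Type) (G : GHP A) : GHP (J → A) where
  c := G.c.compLeft J
  th := piD J G.th
  tp := piD J G.tp
  et := piD J G.et
  ep := piD J G.ep
  H := piD J G.H
  Hb := piD J G.Hb
  ka _ := G.ka
  si _ := G.si
  rh _ := G.rh
  ta _ := G.ta
  ka' _ := G.ka'
  si' _ := G.si'
  rh' _ := G.rh'
  ta' _ := G.ta'
  P0 _ := G.P0
  P1 _ := G.P1
  P2 _ := G.P2
  P3 _ := G.P3
  P4 _ := G.P4

theorem piG_hom {J : Type} (G : GHP A) (j : J) :
    GHP.Hom (piG J G) G (Pi.evalAlgHom ℂ (fun _ => A) j) := by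
  constructor <;> intros <;> rfl

theorem piG_half {J : Type} {G : GHP A} (h : G.Half) : (piG J G).Half :=
  ⟨fun _ => funext fun _ => h.cc _, fun _ => funext fun _ => h.calg _,
    fun _ => funext fun _ => h.c_th _, fun _ => funext fun _ => h.c_et _,
    fun _ => funext fun _ => h.c_H _, fun _ => funext fun _ => h.H_Hb _,
    fun _ => funext fun _ => h.H_th _, fun _ => funext fun _ => h.H_et _,
    funext fun _ => h.H_ka, funext fun _ => h.Hb_ka, funext fun _ => h.H_si,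
    funext fun _ => h.Hb_si, funext fun _ => h.H_rh, funext fun _ => h.Hb_rh,
    funext fun _ => h.H_ta, funext fun _ => h.Hb_ta, funext fun _ => h.H_P0,
    funext fun _ => h.Hb_P0, funext fun _ => h.H_P1, funext fun _ => h.Hb_P1,
    funext fun _ => h.H_P2, funext fun _ => h.Hb_P2, fun _ => funext fun _ => h.th_tp _,
    fun _ => funext fun _ => h.th_et _, fun _ => funext fun _ => h.et_ep _,
    funext fun _ => h.r1, funext fun _ => h.r2, funext fun _ => h.r3, funext fun _ => h.r4,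
    funext fun _ => h.r5, funext fun _ => h.r6, funext fun _ => h.b1, funext fun _ => h.b2,
    funext fun _ => h.b3, funext fun _ => h.b4⟩

theorem piG_is {J : Type} {G : GHP A} (h : G.Is) : (piG J G).Is :=
  ⟨piG_half h.h, piG_half (G := G.pr) h.p⟩

/-- The functions whose jets vanish at the points over j which are not in Y. -/
def van (C : Ch A) (j : C.J) (Y : Set C.Pt) : Ideal A where
  carrier := {f | ∀ x : C.Pt, x.1 = j → x ∉ Y → ∀ n, C.jet n f x = 0}
  add_mem' {f g} hf hg x e k n := le_antisymm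
    ((P354YF.jet_add n f g).trans_eq (by rw [hf x e k, hg x e k, add_zero])) (P354YF.jet0 ..)
  zero_mem' _ _ _ n := P354YF.jet_null n
  smul_mem' g f hf x e k n := le_antisymm
    ((P354YF.jet_mul_le n g f).trans_eq (by rw [hf x e k, mul_zero, mul_zero])) (P354YF.jet0 ..)

theorem van_X {C : Ch A} {j : C.J} {Y : Set C.Pt} (a : Fin 5) (f : A) (h : f ∈ van C j Y) :
    C.X a f ∈ van C j Y := fun x e k n =>
  le_antisymm ((P354YF.jet_der n a f).trans_eq (h x e k _)) (P354YF.jet0 ..)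

/-- New indices (j, s) and sets of points Y (j, s). -/
structure Rs (C : Ch A) where
  S : Type
  Y : C.J × S → Set C.Pt

variable {C : Ch A}

namespace Rs
variable (ρ : Rs C)

abbrev J : Type := C.J × ρ.S
abbrev i (j : ρ.J) : C.J := j.1
def I (j : ρ.J) : Ideal A := van C j.1 (ρ.Y j)

/-- The restricted chart. -/
def ch : Ch (ρ.J → A) where
  J := ρ.J
  B j := reB (C.B (ρ.i j)) j {x | (⟨ρ.i j, x⟩ : C.Pt) ∈ ρ.Y j} (ρ.I j)
  c := C.c.compLeft _
  T := piD _ C.T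
  R := piD _ C.R
  S := piD _ C.S
  Om a := piD _ (C.Om a)
  an a := piD _ (C.an a)
  mu a i _ := C.mu a i
  eo := C.eo
  u _ := C.u
  r _ := C.r
  ri _ := C.ri
  N := Units.map (Pi.constRingHom ρ.J A).toMonoidHom C.N
  fn φ j := C.fn fun i => φ (i, j.2)
  R0 j := C.R0 (ρ.i j)
  U0 j := C.U0 (ρ.i j)
  Dom j := C.Dom (ρ.i j)

/-- The old point. -/
def pt (x : ρ.ch.Pt) : C.Pt := ⟨ρ.i x.1, x.2.1⟩

/-- The families of functions of (u, r) over the new indices. -/
def fm (φ : Fam C.J) : Fam ρ.ch.J := fun j => φ (ρ.i j)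

def nf (F : NF A) : NF (ρ.J → A) :=
  ⟨piG _ F.G, fun a _ => F.nc a, fun a _ => F.mc a, fun _ => F.ga, fun _ => F.be, fun _ => F.al⟩

def un (U : Un A) : Un (ρ.J → A) := ⟨fun a _ => U.V a, fun a _ => U.b a, fun a _ => U.g a,
  fun a _ => U.h a⟩

def cut (K : Cut C) (e : ρ.J → ℝ) : Cut ρ.ch :=
  ⟨ρ.fm K.chi, ρ.fm K.lay, ρ.fm K.p, fun j => K.pm (ρ.i j), e⟩

variable {ρ}

theorem pt_mem (x : ρ.ch.Pt) : ρ.pt x ∈ ρ.Y x.1 := x.2.2

/-- The new point over an old one. -/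
def up (j : ρ.J) (x : C.Pt) (e : x.1 = ρ.i j) (h : x ∈ ρ.Y j) : ρ.ch.Pt :=
  ⟨j, ⟨e ▸ x.2, by obtain ⟨a, y⟩ := x; cases e; exact h⟩⟩

theorem pt_up (j : ρ.J) (x : C.Pt) (e : x.1 = ρ.i j) (h : x ∈ ρ.Y j) : ρ.pt (up j x e h) = x := by
  obtain ⟨a, y⟩ := x; cases e; rfl

theorem md_eq (x : ρ.ch.Pt) (f : ρ.J → A) : ρ.ch.md x f = C.md (ρ.pt x) (f x.1) := rfl
theorem val_eq (x : ρ.ch.Pt) (f : ρ.J → A) : ρ.ch.val x f = C.val (ρ.pt x) (f x.1) := rfl
theorem rr_eq (x : ρ.ch.Pt) : ρ.ch.rr x = C.rr (ρ.pt x) := rfl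
theorem uu_eq (x : ρ.ch.Pt) : ρ.ch.uu x = C.uu (ρ.pt x) := rfl
theorem at_eq (φ : Fam C.J) (x : ρ.ch.Pt) : ρ.ch.at' (ρ.fm φ) x = C.at' φ (ρ.pt x) := rfl

theorem D_eq (a : Fin 5) (f : ρ.J → A) (j : ρ.J) : ρ.ch.D a f j = C.D a (f j) := by
  fin_cases a <;> rfl
theorem X_eq (a : Fin 5) (f : ρ.J → A) (j : ρ.J) : ρ.ch.X a f j = C.X a (f j) := by
  fin_cases a <;> rfl
theorem vf_eq (a : Fin 5 → ρ.J → A) (f : ρ.J → A) (j : ρ.J) :
    ρ.ch.vf a f j = C.vf (fun i => a i j) (f j) := by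
  simp only [Ch.vf, Fin.sum_univ_five, Derivation.add_apply, Derivation.smul_apply, smul_eq_mul,
    Pi.add_apply, Pi.mul_apply, D_eq]
theorem cj_eq (a : Fin 5 → ρ.J → A) (i : Fin 5) (j : ρ.J) :
    ρ.ch.cj a i j = C.cj (fun i => a i j) i := by fin_cases i <;> rfl

theorem wd_eq (I : List (Fin 5)) (f : ρ.J → A) (j : ρ.J) : ρ.ch.wd I f j = C.wd I (f j) := by
  induction I generalizing f with
  | nil => rfl
  | cons a I ih => rw [Ch.wd, Ch.wd, ih, X_eq]

theorem sw_eq (n k : ℕ) (f : ρ.J → A) (j : ρ.J) : ρ.ch.sw n k f j = C.sw n k (f j) := by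
  induction n generalizing k f with
  | zero => rw [Ch.sw, Ch.sw]; split_ifs <;> rfl
  | succ n ih => simp only [Ch.sw, Finset.sum_apply, ih, X_eq]

theorem sl_eq (n : ℕ) (f : ρ.J → A) (j : ρ.J) : ρ.ch.sl n f j = C.sl n (f j) := by
  simp only [Ch.sl, Finset.sum_apply, sw_eq]

theorem je_eq (n : ℕ) (f : ρ.J → A) (x : ρ.ch.Pt) : ρ.ch.je n f x = C.je n (f x.1) (ρ.pt x) := by
  induction n generalizing f with
  | zero => rfl
  | succ n ih =>
    exact Finset.sum_congr rfl fun a _ => (ih _).trans (congrArg (C.je n · _) (X_eq a f x.1))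

theorem jet_eq (n : ℕ) (f : ρ.J → A) (x : ρ.ch.Pt) :
    ρ.ch.jet n f x = C.jet n (f x.1) (ρ.pt x) := by simp only [Ch.jet, je_eq]

theorem it_eq (k : ℕ) (f : ρ.J → A) (j : ρ.J) : (ρ.ch.T)^[k] f j = (C.T)^[k] (f j) := by
  induction k generalizing f with
  | zero => rfl
  | succ k ih => rw [Function.iterate_succ_apply, Function.iterate_succ_apply, ih]; rfl

theorem smc {φ : Fam ρ.J} (h : SmF φ) (j : ρ.J) : SmF (fun i : C.J => φ (i, j.2)) := fun _ => h _
theorem smf {φ : Fam C.J} (h : SmF φ) : SmF (ρ.fm φ) := fun j => h (ρ.i j)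

theorem ch_is (h : C.Is) : ρ.ch.Is where
  ibp j := reB_is (h.ibp _)
    (fun f hf x e k n => by rw [h.c_eq, P354YF.jet_c h]; exact hf x e k n) fun f hf x k =>
    norm_eq_zero.1 ((P354YF.jet_zero (x := ⟨_, x⟩) f).symm.trans (hf ⟨_, x⟩ rfl k 0))
  c_eq j := by
    show (C.B (ρ.i j)).c.compLeft _ = C.c.compLeft _
    rw [h.c_eq]
  skT j := reB_sk (h.skT _) (van_X 0)
  skR j := reB_sk (h.skR _) fun f hf => by
    rw [P354YF.R_eq h]; exact Ideal.mul_mem_left _ _ (van_X 1 f hf)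
  skO j a := reB_sk (h.skO _ a) fun f hf => by rw [← P354YF.XO]; exact van_X _ f hf
  dva j a := reB_dv (h.dva _ a) fun f hf => by
    rw [h.an_eq]
    exact Ideal.sum_mem _ fun i _ => Ideal.mul_mem_left _ _ (by
      rw [← P354YF.XO]; exact van_X _ f hf)
  c_P f := funext fun j => h.c_P (f j)
  c_V f := funext fun j => h.c_V (f j)
  c_S f := funext fun j => h.c_S (f j)
  T_D a f := funext fun j => by rw [D_eq]; exact (congrArg C.T (D_eq a f j)).trans (h.T_D a _)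
  R_D a f := funext fun j => by rw [D_eq]; exact (congrArg C.R (D_eq a f j)).trans (h.R_D a _)
  O_D i a f := funext fun j => by
    rw [D_eq]; exact (congrArg (C.Om i) (D_eq a f j)).trans (h.O_D i a _)
  S_D a f := funext fun j => by rw [D_eq]; exact (congrArg C.S (D_eq a f j)).trans (h.S_D a _)
  S_O i f := funext fun j => h.S_O i (f j)
  P_Q f := funext fun j => h.P_Q (f j)
  V_P f := funext fun j => h.V_P (f j)
  V_Q f := funext fun j => h.V_Q (f j)
  an_eq a f := funext fun j => by rw [Finset.sum_apply]; exact h.an_eq a (f j)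
  T_mu a i := funext fun _ => h.T_mu a i
  R_mu a i := funext fun _ => h.R_mu a i
  O_mu k a i := funext fun _ => by rw [Finset.sum_apply]; exact h.O_mu k a i
  mu_le a i x := h.mu_le a i (ρ.pt x)
  D_u a := funext fun j => by
    rw [D_eq]; refine (h.D_u a).trans ?_; split_ifs <;> rfl
  D_r a := funext fun j => by
    rw [D_eq]; refine (h.D_r a).trans ?_; split_ifs <;> rfl
  O_r i := funext fun _ => h.O_r i
  S_r := funext fun _ => h.S_r
  c_u := funext fun _ => h.c_u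
  c_r := funext fun _ => h.c_r
  hr := funext fun _ => h.hr
  D_N a := funext fun j => (D_eq a _ j).trans (h.D_N a)
  O_N i := funext fun _ => h.O_N i
  S_N := funext fun _ => h.S_N
  c_N := funext fun _ => h.c_N
  N_le x := h.N_le (ρ.pt x)
  indep a s e := by
    have : ∀ j, (fun i => a i j) = 0 ∧ s j = 0 := fun j => h.indep _ _ fun f => by
      have := congrFun (e fun _ => f) j
      rwa [Pi.add_apply, vf_eq] at this
    exact ⟨funext fun i => funext fun j => congrFun (this j).1 i, funext fun j => (this j).2⟩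
  fn_val φ p x := h.fn_val _ (smc p x.1) (ρ.pt x)
  fn_T φ p := funext fun j => h.fn_T _ (smc p j)
  fn_R φ p := funext fun j => h.fn_R _ (smc p j)
  fn_an φ p a := funext fun j => h.fn_an _ (smc p j) a
  fn_c φ p := funext fun j => h.fn_c _ (smc p j)
  dom x := h.dom (ρ.pt x)
  one_le _ := h.one_le _
  rng _ := h.rng _

theorem sy {a : ℝ} {f : A} (h : C.Sy a f) : ρ.ch.Sy a fun _ => f :=
  ⟨funext fun _ => h.1, fun n => (h.2 n).imp fun _ e x => by rw [jet_eq]; exact e _⟩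

theorem nz_eq (b : ℤ) : NF.nz ρ.ch b = fun _ => NF.nz C b := by
  rw [NF.nz, show ρ.ch.N = Units.map (Pi.constRingHom ρ.J A).toMonoidHom C.N from rfl, ← map_zpow]
  rfl

theorem nf_is {F : NF A} (h : F.Is C) : (ρ.nf F).Is ρ.ch where
  is := piG_is h.is
  c_eq := by
    show F.G.c.compLeft _ = C.c.compLeft _
    rw [h.c_eq]
  HS f := funext fun j => h.HS (f j)
  HV f := funext fun j => h.HV (f j)
  th f := funext fun j => h.th (f j)
  ka := funext fun _ => h.ka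
  tp f := funext fun j => by
    have e := h.tp (f j)
    rw [show C.vf F.nc (f j) = _ from (vf_eq (ρ.nf F).nc f j).symm] at e
    exact e
  et f := funext fun j => by
    have e := h.et (f j)
    rw [show C.vf F.mc (f j) = _ from (vf_eq (ρ.nf F).mc f j).symm] at e
    exact e
  al := ⟨funext fun _ => h.al.1, funext fun _ => h.al.2⟩

theorem n_eq (F : NF A) (f : ρ.J → A) (j : ρ.J) : (ρ.nf F).n ρ.ch f j = F.n C (f j) := vf_eq _ f j
theorem m_eq (F : NF A) (f : ρ.J → A) (j : ρ.J) : (ρ.nf F).m ρ.ch f j = F.m C (f j) := vf_eq _ f j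
theorem mb_eq (F : NF A) (f : ρ.J → A) (j : ρ.J) : (ρ.nf F).mb ρ.ch f j = F.mb C (f j) :=
  (vf_eq _ f j).trans (by simp only [cj_eq]; rfl)

theorem ref {F : NF A} {t : Fin 4 → A} (h : F.Ref C t) : (ρ.nf F).Ref ρ.ch fun a _ => t a where
  is := nf_is h.is
  n0 := sy h.n0
  n1 := sy h.n1
  na := ⟨sy h.na.1, sy h.na.2.1, sy h.na.2.2⟩
  m0 := ⟨sy h.m0.1, sy h.m0.2⟩
  ma := ⟨sy h.ma.1, sy h.ma.2.1, sy h.ma.2.2⟩
  gb := ⟨sy h.gb.1, sy h.gb.2.1, sy h.gb.2.2.1, sy h.gb.2.2.2⟩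
  rh := by rw [nz_eq, nz_eq]; exact ⟨sy h.rh.1, sy h.rh.2⟩
  zero := by
    obtain ⟨a, b, c, d, e, f, g⟩ := h.zero
    exact ⟨funext fun _ => a, funext fun _ => b, funext fun _ => c, funext fun _ => d,
      funext fun _ => e, funext fun _ => f, funext fun _ => g⟩
  P2 := sy h.P2
  al := funext fun _ => h.al
  t0 := ⟨sy h.t0.1, sy h.t0.2.1, sy h.t0.2.2⟩
  tc := ⟨funext fun _ => h.tc.1, funext fun _ => h.tc.2.1, funext fun _ => h.tc.2.2⟩
  tw := by
    obtain ⟨a, b, c, d, e, f⟩ := h.tw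
    exact ⟨funext fun _ => a, funext fun _ => b, funext fun _ => c, funext fun _ => d,
      funext fun _ => e, funext fun _ => f⟩

theorem ga {F F0 : NF A} {t : Fin 4 → A} (h : F.Ga F0 C t) :
    (ρ.nf F).Ga (ρ.nf F0) ρ.ch fun a _ => t a :=
  ⟨ch_is h.ch, nf_is h.is, ref h.rf, funext fun _ => h.ta⟩

theorem df_eq (F F0 : NF A) : (ρ.nf F).df (ρ.nf F0) ρ.ch = ρ.un (F.df F0 C) := by
  simp only [NF.df, un, Un.mk.injEq]
  refine ⟨?_, ?_, ?_, ?_⟩ <;> funext a j
  · simp only [Pi.sub_apply, NF.nw, nz_eq, Pi.mul_apply]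
    fin_cases a <;> rfl
  · simp only [Pi.sub_apply, NF.gb, nz_eq]
    fin_cases a <;> rfl
  · simp only [Pi.sub_apply, NF.g1, nz_eq]
    fin_cases a <;> rfl
  · simp only [Pi.sub_apply, NF.g2, nz_eq]
    fin_cases a <;> rfl

theorem cut_is {K : Cut C} (h : K.Is) {e : ρ.J → ℝ} (he : ∀ j, 0 ≤ e j) : (ρ.cut K e).Is where
  sm := ⟨smf h.sm.1, smf h.sm.2.1, smf h.sm.2.2⟩
  ep := he
  pos _ := h.pos _
  rng _ := h.rng _
  near := h.near.imp fun _ k _ => k _
  dchi := h.dchi.imp fun _ k _ => k _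
  pu _ := h.pu _
  ple _ := h.ple _
  dp _ := h.dp _

theorem w_eq (p : Fam C.J) (l : ℝ) (i : Fin 4) : ρ.ch.w (ρ.fm p) l i = ρ.fm (C.w p l i) := by
  fin_cases i <;> rfl
theorem Dw_eq (p : Fam C.J) (l : ℝ) (i : Fin 5) : ρ.ch.Dw (ρ.fm p) l i = ρ.fm (C.Dw p l i) := by
  fin_cases i <;> rfl
theorem DL_eq (p : Fam C.J) (l : ℝ) (i : Fin 5) : ρ.ch.DL (ρ.fm p) l i = ρ.fm (C.DL p l i) := by
  fin_cases i <;> rfl
theorem Zh_eq (p : Fam C.J) (l : ℝ) (i : Fin 2) : ρ.ch.Zh (ρ.fm p) l i = ρ.fm (C.Zh p l i) := by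
  fin_cases i <;> rfl

end Rs

end Vale.Agent.P354YL
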