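import Vale.Agent.P354YL.Fa
import Vale.Agent.P354YL.Re

/-!
The far estimate with the tables on the support of the weight.
-/

open Set

noncomputable section

namespace Vale.Agent.P354YL

open Vale.Agent.P354XI Vale.Agent.P354XZ Vale.Agent.P354YF

variable {A : Type} [CommRing A] [Algebra ℂ A] {C : Ch A} {F F0 : NF A} {t : Fin 4 → A}
  {K : Cut C} {Vw : List Lt → Fin 5 → A}

namespace Rs
variable {ρ : Rs C}

def vw (ρ : Rs C) (Vw : List Lt → Fin 5 → A) : List Lt → Fin 5 → ρ.J → A := fun w i _ => Vw w i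

theorem at_un (U : Un A) (g : Gi) : (ρ.un U).at g = fun _ => U.at g := by
  rcases g with g | g | g <;> rfl

theorem cb_eq (b : Bool) (f : A) : ρ.ch.cb b (fun _ => f) = fun _ => C.cb b f := by
  cases b <;> rfl

theorem src {U : Un A} {s i : ℕ} {e : Bool} {f : A} (h : C.Src U Vw s e i f) :
    ρ.ch.Src (ρ.un U) (ρ.vw Vw) s e i fun _ => f := by
  induction h with
  | zero => exact .zero
  | add _ _ a b => exact a.add b
  | smul z _ a => exact a.smul z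
  | kv2 w j a b c => exact .kv2 w j (sy a) b c
  | kv3 b w j a c =>
    have := Ch.Src.kv3 (U := ρ.un U) (Vw := ρ.vw Vw) (e := e) (i := i) b w j (sy a) c
    rwa [show ρ.vw Vw w j = fun _ => Vw w j from rfl, cb_eq] at this
  | kg3 b g a c =>
    have := Ch.Src.kg3 (U := ρ.un U) (Vw := ρ.vw Vw) (s := s) b g (sy a) c
    rwa [at_un, cb_eq] at this
  | kg4 b g a =>
    have := Ch.Src.kg4 (U := ρ.un U) (Vw := ρ.vw Vw) (s := s) (e := e) (i := i) b g (sy a)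
    rwa [at_un, cb_eq] at this
  | gv b g w j a c =>
    have := Ch.Src.gv (C := ρ.ch) (U := ρ.un U) (Vw := ρ.vw Vw) b g w j a c
    rwa [at_un, cb_eq] at this
  | vv b w1 w2 k1 k2 a c =>
    have := Ch.Src.vv (C := ρ.ch) (U := ρ.un U) (Vw := ρ.vw Vw) b w1 w2 k1 k2 a c
    rwa [show ρ.vw Vw w1 k1 = fun _ => Vw w1 k1 from rfl, cb_eq] at this

theorem bs (h : BS C F F0 Vw) : BS ρ.ch (ρ.nf F) (ρ.nf F0) (ρ.vw Vw) := fun s => by
  obtain ⟨am, SA, SB, sys, a⟩ := h s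
  refine ⟨am, fun w i _ => SA w i, fun w i _ => SB w i, ⟨fun w i => funext fun j => ?_,
    fun w i => funext fun j => ?_⟩, fun w i => ?_⟩
  · simp only [Pi.add_apply, Finset.sum_apply, n_eq, m_eq]
    exact sys.eqA w i
  · simp only [Pi.add_apply, Pi.sub_apply, Finset.sum_apply, mb_eq]
    exact sys.eqB w i
  · rw [df_eq]
    exact ⟨src (a w i).1, src (a w i).2⟩

theorem Qb_eq (e : ρ.J → ℝ) (l : ℝ) (n s : ℕ) (j : ρ.J) :
    Qb ρ.ch (ρ.nf F) (ρ.nf F0) (ρ.cut K e) (ρ.vw Vw) l n s j = Qb C F F0 K Vw l n s := by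
  simp only [Qb, Ch.dWl, Ch.dW, Ch.dG, Ch.dn, Finset.sum_apply, Pi.add_apply, Pi.mul_apply, sl_eq,
    df_eq, show (ρ.cut K e).p = ρ.fm K.p from rfl, Dw_eq, Zh_eq]
  rfl

theorem Ql_eq (e : ρ.J → ℝ) (l : ℝ) (n s : ℕ) (j : ρ.J) :
    Ql ρ.ch (ρ.nf F) (ρ.nf F0) (ρ.cut K e) (ρ.vw Vw) l n s j = Ql C F F0 K Vw l n s := by
  simp only [Ql, Ch.dWl, Ch.dW, Ch.dG, Ch.dA, Ch.dn, Finset.sum_apply, Pi.add_apply, Pi.mul_apply,
    sl_eq, df_eq, show (ρ.cut K e).p = ρ.fm K.p from rfl, DL_eq, Zh_eq]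
  rfl

theorem cau {e : ρ.J → ℝ} {j : ρ.J} {ps : A} (c : K.Cau F j.1 ps) (m : ps ∈ ρ.I j) :
    (ρ.cut K e).Cau (ρ.nf F) j fun _ => ps where
  re := funext fun _ => c.re
  cpt := ⟨⟨c.cpt.1, Ideal.mul_mem_right _ _ m⟩, ⟨c.cpt.2.1, Ideal.mul_mem_right _ _ m⟩,
    ⟨c.cpt.2.2.1, Ideal.mul_mem_right _ _ m⟩, c.cpt.2.2.2, Ideal.mul_mem_right _ _ m⟩
  pos x k := by
    have a := c.pos (ρ.pt x) (congrArg Prod.fst k)
    rwa [show F.n C ps = _ from (n_eq F (fun _ => ps) x.1).symm,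
      show F.m C ps = _ from (m_eq F (fun _ => ps) x.1).symm] at a

theorem tv_eq (n : ℕ) (l : ℝ) (f : A) (i : Fin 5) (x : ρ.ch.Pt) :
    ρ.ch.rr x * ρ.ch.at' (ρ.ch.Dt l i) x * ρ.ch.jet n (fun _ => f) x ^ 2 =
      C.rr (ρ.pt x) * C.at' (C.Dt l i) (ρ.pt x) * C.jet n f (ρ.pt x) ^ 2 := by
  have : ρ.ch.at' (ρ.ch.Dw 1 l i) x = C.at' (C.Dw 1 l i) (ρ.pt x) := by
    rw [← at_eq, ← Dw_eq]; rfl
  rw [jet_eq]
  exact congrArg (fun y => C.rr (ρ.pt x) * (C.at' (C.mon 0 0 (-3 / 10)) (ρ.pt x) * y) *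
    C.jet n f (ρ.pt x) ^ 2) this

end Rs

theorem Ss_le (h : C.Is) (x : C.Pt) : C.at' (Ss C) x ≤ C.at' C.Sg x := by
  have r := rr_pos h x
  have v := two_le_vv x.1 (C.uu x) (C.rr x)
  have a := Real.rpow_le_rpow_of_nonpos r (show C.rr x ≤ C.vv x.1 (C.uu x) (C.rr x) by linarith)
    (show (-37 / 40 : ℝ) ≤ 0 by norm_num)
  have b := Real.rpow_le_rpow_of_exponent_le (one_le_ut h x.1 (C.uu x))
    (show (-3 / 10 : ℝ) ≤ -1 / 4 by norm_num)
  have u := zero_le_one.trans (one_le_ut h x.1 (C.uu x))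
  simp only [Ch.at', Ss, Ch.Sg, Ch.mon, Real.rpow_zero, mul_one]
  rw [show (-1 : ℝ) = -3 / 40 + -37 / 40 by norm_num, Real.rpow_add r]
  exact mul_le_mul (mul_le_mul_of_nonneg_left a (by positivity)) (by norm_num at b ⊢; exact b)
    (by positivity) (by positivity)

theorem fa (H : Inp) : FA C F F0 t K Vw := fun sd o n s l ok hn r => by
  have h := sd.ga.ch
  let ρ : Rs C := ⟨ℝ, fun j => {x | Tb C F F0 Vw o |j.2| x}⟩
  have tb : ∀ x : ρ.ch.Pt, Tb C F F0 Vw o |x.1.2| (ρ.pt x) := Rs.pt_mem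
  have hG : ρ.ch.TabG o.m (fun j => |j.2|) ((ρ.nf F).df (ρ.nf F0) ρ.ch) univ := fun x _ => by
    simp only [Rs.df_eq, Rs.jet_eq]
    exact ⟨(tb x).b, fun i => ((tb x).g i).trans
      (mul_le_mul_of_nonneg_left (Ss_le h _) (abs_nonneg _)), (tb x).h⟩
  have hA : ∀ n ≤ o.ia, ρ.ch.TabA n (fun j => |j.2|) (ρ.nf F).al := fun n e x => by
    rw [Rs.jet_eq]; exact (jet_mono e _).trans (tb x).a
  obtain ⟨o1, o2, o3, o4⟩ := ok
  obtain ⟨c, c0, B, B0, a⟩ := fa0 (K := ρ.cut K fun j => |j.2|) (H.f1 _ _ _ _ _ _)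
    (H.f5 _ _ _ _ _ _) (H.f7 _ _ _ _ _ _ _ (Rs.bs sd.bs))
    ⟨Rs.ga sd.ga, Rs.cut_is sd.cut fun _ => abs_nonneg _, fun x k =>
      ⟨fun i => (jet_mono (by omega) _).trans ((hG x k).1 i),
        fun i => (jet_mono (by omega) _).trans ((hG x k).2.1 i),
        fun i => (jet_mono (by omega) _).trans ((hG x k).2.2 i)⟩, hA 1 (by omega)⟩
    (by rw [Rs.df_eq]; exact funext fun i => funext fun _ => congrFun sd.nil i) hG (hA n hn)
    (fun i w a b x _ k => (Rs.tv_eq i 0 _ k x).trans_le ((tb x).V i w k a b)) r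
  refine ⟨c, c0, B, B0, fun j e ps e0 hd cau hp => ?_⟩
  have := a (j, e) (by
      change |e| * _ + _ ≤ c
      rwa [abs_of_nonneg e0])
    _ (Rs.cau cau fun x k m => (hp x k).resolve_left fun b => m (by
      change Tb C F F0 Vw o |e| x
      rwa [abs_of_nonneg e0]))
  rwa [← Rs.Qb_eq (ρ := ρ) (fun j => |j.2|) l n s (j, e), ← Rs.Ql_eq (ρ := ρ) (fun j => |j.2|) l n s (j, e)]

end Vale.Agent.P354YL
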