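import Vale.Agent.P354YL.Sb
import Vale.Agent.P354YK.Tm

/-!
The time function of the far chart: topology, rays and boxes.
-/

open Set Filter Topology

noncomputable section

namespace Vale.Agent.P354YL

open Vale.Agent.P354XG Vale.Agent.P354XI Vale.Agent.P354XD Vale.Agent.P354XR Vale.Agent.P354Z
open Vale.Agent.P354XZ Vale.Agent.P354YK

section one
variable {O : Set E6} {x : E6} {M ρ : ℝ}

/-- The ray through x. -/
def ry (M : ℝ) (x : E6) (ρ : ℝ) : E6 := (uu M x - 4 * M ^ 2 / ρ, ρ, x.2.2)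

theorem ry_self : ry M x x.2.1 = x := by simp [ry, uu]
theorem ry_uu : uu M (ry M x ρ) = uu M x := by simp [ry, uu]

theorem ry_hd (h : 0 < ρ) : HasDerivAt (ry M x) (4 * M ^ 2 / ρ ^ 2, 1, 0) ρ := by
  refine HasDerivAt.prodMk ?_ ((hasDerivAt_id ρ).prodMk (hasDerivAt_const ρ _))
  refine (((hasDerivAt_const ρ (4 * M ^ 2)).div (hasDerivAt_id ρ) h.ne').const_sub _).congr_deriv ?_
  simp [neg_div]

theorem fv_ry (h : Cone O) (M' a : ℝ) (f : Sm (on O)) (m : ry M x ρ ∈ O) :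
    HasDerivAt (fun ρ => fv f (ry M x ρ)) (fv ((kO O M M' a).R f) (ry M x ρ)) ρ := by
  rw [fv_R h _ _ _ _ m]
  exact ((fv_sm h.op f m).differentiableAt (by simp)).hasFDerivAt.comp_hasDerivAt ρ
    (ry_hd (h.pos _ m).1)

variable {c : Cs} {E : Est}

theorem ry_mem (S : E.Shape c) (hx : x ∈ E.O2) (h : An x) (p : 0 < ρ) (h1 : c.R1 + 3 ≤ ρ)
    (h2 : 0 ≤ uu c.M x + ρ) (h3 : ρ ≤ x.2.1) :
    ry c.M x ρ ∈ E.O2 ∧ rv E.tau (ry c.M x ρ) ≤ rv E.tau x := by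
  have ct : ContinuousOn (ry c.M x) (Ioi 0) := fun s k =>
    (ry_hd k).continuousAt.continuousWithinAt
  have d : ∀ s, ry c.M x s ∈ E.O2 → HasDerivAt (fun s => rv E.tau (ry c.M x s))
      (rv ((E.K2 c).R E.tau) (ry c.M x s)) s := fun s m =>
    Complex.reCLM.hasFDerivAt.comp_hasDerivAt s (fv_ry S.co2 E.M E.a E.tau m)
  have fa : ∀ s, ρ ≤ s → Est.Fa c (ry c.M x s) := fun s k =>
    ⟨h1.trans k, by rw [ry_uu]; exact h2.trans (add_le_add_right k _)⟩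
  have le : ∀ s ∈ Icc (0 : ℝ) 1, ρ ≤ x.2.1 + s • (ρ - x.2.1) := fun s k => by
    rw [smul_eq_mul]; nlinarith [k.2]
  have k := P354CV.trap (σ := fun s => rv E.tau (ry c.M x s)) (p := x.2.1) (w := ρ - x.2.1)
    (ct.isOpen_inter_preimage isOpen_Ioi S.co2.op)
    ((ct.mono fun _ k => p.trans_le k).preimage_isClosed_of_isClosed (isClosed_Ici (a := ρ))
      (S.cp2 _ (S.lv2 _ hx)).isClosed) (fun _ k => ⟨p.trans_le k.1, k.2.1⟩)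
    (fun s k => (d s k.2).differentiableAt)
    ⟨h3, by rw [mem_preimage, ry_self]; exact ⟨hx, h, le_rfl, ry_self (x := x) ▸ fa _ h3⟩⟩
    (fun _ k => by rw [ry_self]; exact k.2.2.2.1)
    (fun s a k => by
      rw [(d _ k.2).hasFDerivAt.fderiv, ContinuousLinearMap.toSpanSingleton_apply, smul_eq_mul]
      exact mul_nonpos_of_nonpos_of_nonneg (sub_nonpos.2 h3)
        (zero_le_one.trans (S.taR _ k.2 (fa _ (le s a))).1))
    (fun s a k e => ⟨le s a, k.2, h, by rwa [ry_self] at e, fa _ (le s a)⟩)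
  rw [add_sub_cancel] at k
  exact ⟨k.2.1, k.2.2.2.1⟩

theorem tau_lt (S : E.Shape c) (ok : c.Ok) (hx : x ∈ E.O2) (f : Est.Fa c x) :
    ∀ᶠ t in 𝓝[<] x.1, rv E.tau (t, x.2) < rv E.tau x := by
  have d : HasDerivAt (fun t => rv E.tau (t, x.2)) (rv ((E.K2 c).T E.tau) x) x.1 := by
    refine ((reCLM_fd S.co2.op E.tau hx).comp_hasDerivAt (f := fun t => (t, x.2)) x.1
      ((hasDerivAt_id x.1).prodMk (hasDerivAt_const x.1 x.2))).congr_deriv ?_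
    rw [ContinuousLinearMap.comp_apply, fd_split S.co2 c.M E.M E.a _ hx]
    simp [Prod.mk_zero_zero]
    rfl
  have a := mul_nonneg (mul_nonneg ok.cw.1.le (S.co2.pos x hx).1.le) (Real.rpow_nonneg
    (add_nonneg (abs_nonneg (uu c.M x)) (show 0 ≤ c.R1 by
      linarith [ok.R1, ok.aM, abs_nonneg c.a])) (-1 - c.d0))
  have p : 0 < rv ((E.K2 c).T E.tau) x := by linarith [(S.taT x hx f).1]
  filter_upwards [((hasDerivAt_iff_tendsto_slope.1 d).mono_left (nhdsLT_le_nhdsNE _)).eventually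
    (lt_mem_nhds p), self_mem_nhdsWithin] with t a b
  rw [slope_def_field] at a
  exact sub_neg.1 (((div_pos_iff.1 a).resolve_left fun e => (sub_neg.2 b).not_gt e.2).1)

end one

variable {Φ : Fm} (h : Φ.Ok) {θ : ℝ} {pm : Φ.J → ℝ} {B : h.ch.Pt → Set h.ch.Pt}

theorem hy_of (g : Φ.Gd θ pm) : Hy Φ θ :=
  ⟨g.sh, fun j => ⟨(g.ok j).cw.1.le, by
    linarith [(g.ok j).R1, (g.ok j).aM, abs_nonneg (Φ.c j).a]⟩, g.R1, g.M, g.th, g.thR⟩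

theorem tm_cont (j : Φ.J) (f : Φ.A) :
    @Continuous _ _ ((h.tm θ B).top j) _ fun x => (h.ch.B j).ev x f :=
  letI := (h.tm θ B).top j
  ContinuousOn.comp_continuous (f := fun x => h.pt ⟨j, x⟩) (g := fv (f j))
    (fun _ m => (fv_sm (h.co j).op _ m).continuousAt.continuousWithinAt) continuous_induced_dom
    fun x => (h.pt_mem ⟨j, x⟩).1

theorem tm_cp (g : Φ.Gd θ pm) (j : Φ.J) (s : ℝ) (hs : s ∈ (h.tm θ B).Lv j) :
    @IsCompact _ ((h.tm θ B).top j) {x | (h.tm θ B).tv ⟨j, x⟩ ≤ s} := by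
  let _ := (h.tm θ B).top j
  have i : IsInducing fun x => h.pt ⟨j, x⟩ := ⟨rfl⟩
  rw [i.isCompact_iff]
  refine (congrArg IsCompact ?_).mp (((g.sh j).cp2 s hs).inter_right
    (isClosed_le (f := fun _ => Φ.R0 j) continuous_const continuous_snd.fst))
  ext y
  constructor
  · rintro ⟨⟨a, b, c, d⟩, e⟩
    exact ⟨(h.pk j y ⟨a, b, e, h.M j ▸ d.2⟩).2, c, rfl⟩
  · rintro ⟨x, a, rfl⟩
    exact ⟨⟨(h.pt_mem ⟨j, x⟩).1, (h.pt_mem ⟨j, x⟩).2.1, a, h.fa ⟨j, x⟩ (g.R1 j)⟩,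
      (h.pt_mem ⟨j, x⟩).2.2.1⟩

theorem tm_edge (g : Φ.Gd θ pm) (j : Φ.J) (x : (h.ch.B j).Pt) :
    (⟨j, x⟩ : h.ch.Pt) ∈ (h.tm θ B).Z ∨ x ∈ @closure _ ((h.tm θ B).top j)
      {y | (h.tm θ B).tv ⟨j, y⟩ < (h.tm θ B).tv ⟨j, x⟩} := by
  refine or_iff_not_imp_left.2 fun z => closure_induced.2 ?_
  have u := not_le.1 (not_or.1 z).2
  have m := h.pt_mem ⟨j, x⟩
  have p := mul_pos g.th.1 (h.rr_pos ⟨j, x⟩)
  rw [h.rr_eq ⟨j, x⟩] at u p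
  rw [h.uu_eq ⟨j, x⟩] at u
  generalize e : h.pt ⟨j, x⟩ = y at u p m
  have t : Tendsto (fun t : ℝ => ((t, y.2) : E6)) (𝓝[<] y.1) (𝓝 y) :=
    ((continuous_id.prodMk continuous_const).tendsto y.1).mono_left nhdsWithin_le_nhds
  refine mem_closure_of_tendsto t ?_
  filter_upwards [t.eventually ((h.co j).op.mem_nhds m.1), mem_nhdsWithin_of_mem_nhds
    (lt_mem_nhds (show y.1 - θ * y.2.1 < y.1 by linarith)),
    tau_lt (g.sh j) (g.ok j) m.1 (e ▸ h.fa ⟨j, x⟩ (g.R1 j))] with t a b c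
  refine ⟨(h.pk j (t, y.2) ⟨a, m.2.1, m.2.2.1, ?_⟩).2,
    c.trans_eq (congrArg (rv (Φ.E j).tau) e.symm), rfl⟩
  simp only [uu] at u ⊢
  linarith

theorem tm_lin (g : Φ.Gd θ pm) (j : Φ.J) (s : ℝ) : LinY h.ch (h.tm θ B).Z ((h.tm θ B).Y j s) := by
  rintro f φ sm h0 h1 x ⟨rfl, hx⟩
  by_cases z : x ∈ (h.tm θ B).Z
  · exact h0 x ⟨rfl, hx⟩ z
  have r := not_le.1 (not_or.1 z).1
  have m := h.pt_mem x
  have o := (h.one x.1).1
  rw [h.rr_eq] at r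
  obtain ⟨a, a1, a2, a3, a4⟩ : ∃ a, 8 * Φ.R0 x.1 ≤ a ∧ 0 ≤ uu Φ.M0 (h.pt x) + a ∧
      a ≤ (h.pt x).2.1 ∧ (a ≤ 8 * Φ.R0 x.1 ∨ uu Φ.M0 (h.pt x) + a ≤ θ * a) := by
    rcases le_total 0 (uu Φ.M0 (h.pt x) + 8 * Φ.R0 x.1) with c | c
    · exact ⟨_, le_rfl, c, r.le, .inl le_rfl⟩
    · exact ⟨-uu Φ.M0 (h.pt x), by linarith, by linarith, by linarith [m.2.2.2], .inr (by
        rw [add_neg_cancel]; exact mul_nonneg g.th.1.le (by linarith))⟩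
  have k : ∀ ρ ∈ Icc a (h.pt x).2.1, ∃ y ∈ (h.tm θ B).Y x.1 s, ry Φ.M0 (h.pt x) ρ ∈ (Φ.E x.1).O2 ∧
      h.ch.rr y = ρ ∧ h.ch.uu y = uu Φ.M0 (h.pt x) ∧
      ∀ f, h.ch.md y f = ‖fv (f x.1) (ry Φ.M0 (h.pt x) ρ)‖ := fun ρ k => by
    have := ry_mem (g.sh x.1) m.1 m.2.1 (ρ := ρ) (by linarith [k.1]) (by linarith [k.1, g.R1 x.1])
      (by rw [h.M x.1]; linarith [k.1]) k.2
    rw [h.M x.1] at this
    exact ⟨h.pk x.1 _ ⟨this.1, m.2.1, show _ ≤ ρ by linarith [k.1], by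
      rw [ry_uu]; exact a2.trans (add_le_add_right k.1 _)⟩, ⟨rfl, this.2.trans_lt hx⟩, this.1,
      h.rr_eq _, (h.uu_eq _).trans ry_uu, fun _ => rfl⟩
  have d := fun ρ (e : ρ ∈ Icc a (h.pt x).2.1) =>
    fv_ry (h.co x.1) (Φ.E x.1).M (Φ.E x.1).a (f x.1) (k ρ e).choose_spec.2.1
  have d' := fun ρ (e : ρ ∈ Icc a (h.pt x).2.1) => (Sm2.hr (φ := φ x.1) (sm x.1)
    (uu Φ.M0 (h.pt x)) (r := ρ) (by linarith [e.1])).differentiableAt.hasDerivAt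
  have := image_norm_le_of_norm_deriv_right_le_deriv_boundary'
    (fun ρ e => (d ρ e).continuousAt.continuousWithinAt)
    (fun ρ e => (d ρ (Ico_subset_Icc_self e)).hasDerivWithinAt) (B := φ x.1 (uu Φ.M0 (h.pt x)))
    (by
      obtain ⟨y, b, -, c, d, e⟩ := k a ⟨le_rfl, a3⟩
      have := h0 y b (show _ ≤ 8 * Φ.R0 y.1 ∨ _ by rw [c, d, b.1]; exact a4)
      rwa [e, Ch.at', c, d, b.1] at this)
    (fun ρ e => (d' ρ e).continuousAt.continuousWithinAt)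
    (fun ρ e => (d' ρ (Ico_subset_Icc_self e)).hasDerivWithinAt)
    (fun ρ e => by
      obtain ⟨y, b, -, c, d, e⟩ := k ρ (Ico_subset_Icc_self e)
      have := h1 y b
      rw [e, c, d, b.1] at this
      refine le_of_eq_of_le ?_ this
      rw [← h.M x.1]
      exact congrArg (‖fv · _‖) (Fm.Ok.R_ap f x.1).symm)
    (right_mem_Icc.2 a3)
  rw [ry_self] at this
  exact this.trans_eq (h.at_eq φ x).symm

variable {p : Φ.J → ℝ → ℝ} {ep : Φ.J → ℝ}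

theorem tm_bx (g : Φ.Gd θ pm) : ∀ x ∉ (h.tm θ (Bx h θ)).Z, ∀ y ∈ (h.tm θ (Bx h θ)).Bx x,
    y.1 = x.1 ∧ (h.tm θ (Bx h θ)).tv y ≤ (h.tm θ (Bx h θ)).tv x ∧
    h.ch.at' (h.cut θ p pm ep).chi y = 1 ∧ h.ch.rr x ≤ 2 * h.ch.rr y ∧ h.ch.rr y ≤ h.ch.rr x ∧
    |h.ch.uu y - h.ch.uu x| ≤ 1 := fun x z y hy =>
  let ⟨a, b, c, d, e⟩ := bx_geo h (hy_of g) le_rfl x (not_le.1 (not_or.1 z).1)
    (not_le.1 (not_or.1 z).2) y hy
  ⟨a, b, chi_one g.th.1 (one_pos.trans_le (h.one _).1) c d, e⟩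

theorem tm_sob (g : Φ.Gd θ pm) (n : ℕ) : ∃ C, ∀ x ∉ (h.tm θ (Bx h θ)).Z, ∀ w μ,
    (h.ch.B x.1).Wt w → 0 ≤ μ → (∀ y ∈ (h.tm θ (Bx h θ)).Bx x, μ ≤ h.ch.val y w) →
    ∀ f, h.ch.S f = 0 →
      μ * h.ch.rr x * h.ch.jet n f x ^ 2 ≤ C * (h.ch.B x.1).J (w * h.ch.sl (n + 7) f) :=
  (sob_ok h (hy_of g) n).imp fun _ e x z =>
    e x (not_le.1 (not_or.1 z).1) (not_le.1 (not_or.1 z).2)

end Vale.Agent.P354YL
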