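import Vale.Agent.P354YL.Cau
import Vale.Agent.P354YP.Wt

/-!
Tools for the tables: continuity, comparison of weights, transport of al, the weight in t.
-/

open scoped ContDiff
open Set Filter Topology

noncomputable section

namespace Vale.Agent.P354YL

open Vale.Agent.P354XG (Der D_mul)
open Vale.Agent.P354XI Vale.Agent.P354XZ Vale.Agent.P354YF
open Vale.Agent.P354YS (Ps ps_mon cw cw_pos)

/-- The continuity argument. -/
theorem first2 {X : Type} [TopologicalSpace X] {τ : X → ℝ} (hτ : Continuous τ) {V : ℝ}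
    {G S Z : Set X} (hS : IsClosed S) (hG : ∀ x ∈ S, ∀ᶠ y in 𝓝 x, y ∈ G)
    (hc : ∀ s < V, IsCompact {x | τ x ≤ s})
    (step : ∀ s < V, (∀ x, τ x < s → x ∈ G) → ∀ x, τ x < s ∨ x ∈ Z ∧ τ x ≤ s → x ∈ S)
    (edge : ∀ x, x ∈ Z ∨ x ∈ closure {y | τ y < τ x}) : ∀ x, τ x < V → x ∈ S := by
  have key : ∀ z, τ z < V → (∀ w, τ w < τ z → w ∈ interior G) → z ∈ S := fun z hz e => by
    have := step _ hz fun w hw => interior_subset (e w hw)
    rcases edge z with k | k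
    · exact this z (Or.inr ⟨k, le_rfl⟩)
    · exact closure_minimal (fun y hy => this y (Or.inl hy)) hS k
  intro x hx
  by_contra c
  have : ∃ y, τ y ≤ τ x ∧ y ∉ interior G := by
    by_contra d
    exact c (key x hx fun w hw => by_contra fun k => d ⟨w, hw.le, k⟩)
  obtain ⟨y, hy, hy'⟩ := this
  obtain ⟨z, ⟨hz, hz'⟩, hm⟩ := ((hc _ hx).inter_right isOpen_interior.isClosed_compl).exists_isMinOn
    ⟨y, hy, hy'⟩ hτ.continuousOn
  exact hz' (mem_interior_iff_mem_nhds.2 (hG z (key z (lt_of_le_of_lt hz hx) fun w hw =>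
    by_contra fun k => absurd (hm ⟨(hw.le.trans hz : τ w ≤ τ x), k⟩) (not_le.2 hw))))

variable {A : Type} [CommRing A] [Algebra ℂ A] {C : Ch A} {K : Cut C} {T : Tm C}

/-- A cut-off which is 1 up to a and 0 from s on. -/
theorem cf_ex {a s : ℝ} (h : a < s) : ∃ φ, Cf s φ ∧ ∀ y ≤ a, φ y = 1 := by
  have p := sub_pos.2 h
  refine ⟨fun y => Real.smoothTransition ((s - y) / (s - a)), ⟨Real.smoothTransition.contDiff.comp
    ((contDiff_const.sub contDiff_id).div_const _), fun y => ⟨⟨Real.smoothTransition.nonneg _,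
      Real.smoothTransition.le_one _⟩, Antitone.deriv_nonpos fun y z e =>
        Real.smoothTransition.monotone (div_le_div_of_nonneg_right (by linarith) p.le)⟩,
    fun y e => Real.smoothTransition.zero_of_nonpos (div_nonpos_of_nonpos_of_nonneg (by linarith)
      p.le)⟩, fun y e => Real.smoothTransition.one_of_one_le ((one_le_div p).2 (by linarith))⟩

/-! ### Comparison of the weights at close points -/

def Nr (x y : C.Pt) : Prop :=
  y.1 = x.1 ∧ C.rr x ≤ 2 * C.rr y ∧ C.rr y ≤ C.rr x ∧ |C.uu y - C.uu x| ≤ 1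

def Cq (φ : Fam C.J) : Prop :=
  ∃ M, 0 ≤ M ∧ ∀ x y : C.Pt, Nr x y → 0 ≤ C.at' φ x ∧ C.at' φ x ≤ M * C.at' φ y

theorem Cq.mul {φ ψ : Fam C.J} (a : Cq φ) (b : Cq ψ) : Cq (φ * ψ) := by
  obtain ⟨M, M0, a⟩ := a
  obtain ⟨M', M0', b⟩ := b
  refine ⟨M * M', mul_nonneg M0 M0', fun x y e => ⟨mul_nonneg (a x y e).1 (b x y e).1, ?_⟩⟩
  rw [at_mul, at_mul, mul_mul_mul_comm]
  exact mul_le_mul (a x y e).2 (b x y e).2 (b x y e).1 ((a x y e).1.trans (a x y e).2)

theorem Cq.add (h : C.Is) {φ ψ : Fam C.J} (a : Cq φ) (b : Cq ψ) : Cq (φ + ψ) := by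
  obtain ⟨M, M0, a⟩ := a
  obtain ⟨M', M0', b⟩ := b
  refine ⟨M + M', add_nonneg M0 M0', fun x y e => ⟨add_nonneg (a x y e).1 (b x y e).1, ?_⟩⟩
  have n : Nr y y := ⟨rfl, by linarith [rr_pos h y], le_rfl, by simp⟩
  rw [at_add, at_add]
  linarith [(a x y e).2, (b x y e).2, mul_nonneg M0 (b y y n).1, mul_nonneg M0' (a y y n).1]

theorem cq_one : Cq (1 : Fam C.J) := ⟨1, zero_le_one, fun _ _ _ => ⟨zero_le_one, (one_mul _).ge⟩⟩
theorem cq_zero : Cq (0 : Fam C.J) := ⟨0, le_rfl, fun _ _ _ => ⟨le_rfl, (zero_mul _).ge⟩⟩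

theorem rp_le {a b : ℝ} (s : ℝ) (ha : 0 < a) (hb : 0 < b) (e : a ≤ 3 * b) (e' : b ≤ 3 * a) :
    a ^ s ≤ 3 ^ |s| * b ^ s := by
  rcases le_total 0 s with c | c
  · rw [abs_of_nonneg c, ← Real.mul_rpow (by norm_num) hb.le]
    exact Real.rpow_le_rpow ha.le e c
  · have := Real.rpow_le_rpow_of_nonpos hb e' c
    rw [Real.mul_rpow (by norm_num) ha.le] at this
    rw [abs_of_nonpos c, Real.rpow_neg (by norm_num), le_inv_mul_iff₀ (by positivity)]
    exact this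

theorem ut_lip (j : C.J) (u u' : ℝ) : C.ut j u ≤ C.ut j u' + |u - u'| := by
  have a := ut_ge j u'
  have b : C.ut j u' ^ 2 = u' ^ 2 + C.U0 j ^ 2 := Real.sq_sqrt (by positivity)
  have c := mul_le_mul_of_nonneg_right a (abs_nonneg (u - u'))
  rw [← abs_mul] at c
  refine Real.sqrt_le_iff.2 ⟨add_nonneg ((abs_nonneg _).trans a) (abs_nonneg _), ?_⟩
  nlinarith [le_abs_self (u' * (u - u')), sq_abs (u - u')]

theorem cq_mon (h : C.Is) (a b e : ℝ) : Cq (C.mon a b e) := by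
  refine ⟨3 ^ |a| * 3 ^ |b| * 3 ^ |e|, by positivity, fun x y ⟨j, r1, r2, u⟩ =>
    ⟨(at_pos h ..).le, ?_⟩⟩
  have px := one_le_rr h x
  have py := one_le_rr h y
  have tx := one_le_ut h x.1 (C.uu x)
  have ty := one_le_ut h x.1 (C.uu y)
  have vx := two_le_vv x.1 (C.uu x) (C.rr x)
  have vy := two_le_vv x.1 (C.uu y) (C.rr y)
  have l1 := ut_lip x.1 (C.uu y) (C.uu x)
  have l2 := ut_lip x.1 (C.uu x) (C.uu y)
  rw [abs_sub_comm] at l2
  obtain ⟨u1, u2⟩ := abs_le.1 u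
  have e1 := rp_le a (a := C.rr x) (b := C.rr y) (by linarith) (by linarith) (by linarith)
    (by linarith)
  have e2 := rp_le b (a := C.vv x.1 (C.uu x) (C.rr x)) (b := C.vv x.1 (C.uu y) (C.rr y))
    (by linarith) (by linarith) (by unfold Ch.vv at *; linarith) (by unfold Ch.vv at *; linarith)
  have e3 := rp_le e (a := C.ut x.1 (C.uu x)) (b := C.ut x.1 (C.uu y)) (by linarith) (by linarith)
    (by linarith) (by linarith)
  have q : 0 < C.vv x.1 (C.uu x) (C.rr x) := by linarith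
  have q' : 0 < C.vv x.1 (C.uu y) (C.rr y) := by linarith
  simp only [Ch.at', Ch.mon, j]
  refine (mul_le_mul (mul_le_mul e1 e2 (by positivity) (by positivity)) e3 (by positivity)
    (by positivity)).trans_eq (by ring)

theorem w_ex (i : Fin 4) : ∃ a b e, (∀ p l, C.w p l i = p * C.mon a (b - l) e) ∨
    ∀ p l, C.w p l i = C.mon a (b - l) e := by
  fin_cases i
  exacts [⟨_, _, _, .inl fun _ _ => rfl⟩, ⟨_, _, _, .inr fun _ _ => rfl⟩,
    ⟨_, _, _, .inr fun _ _ => rfl⟩, ⟨0, 0, 14 / 5, .inr fun _ _ => by rw [zero_sub]; rfl⟩]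

theorem Dw_ex (i : Fin 5) : ∃ a k, (∀ p l, C.Dw p l i = C.mon a 0 0 * C.w p l k + 0) ∨
    ∃ k', ∀ p l, C.Dw p l i = C.mon a 0 0 * C.w p l k + C.mon 2 0 (-21 / 20) * C.w p l k' := by
  fin_cases i
  exacts [⟨_, _, .inr ⟨_, fun _ _ => rfl⟩⟩, ⟨_, _, .inr ⟨_, fun _ _ => rfl⟩⟩,
    ⟨_, _, .inr ⟨_, fun _ _ => rfl⟩⟩, ⟨_, _, .inr ⟨_, fun _ _ => rfl⟩⟩,
    ⟨_, _, .inl fun _ _ => rfl⟩]

theorem cq_Dw (h : C.Is) (l : ℝ) (i : Fin 5) : Cq (C.Dw 1 l i) := by
  have w : ∀ i, Cq (C.w 1 l i) := fun i => by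
    obtain ⟨a, b, e, k | k⟩ := w_ex (C := C) i <;> rw [k]
    exacts [cq_one.mul (cq_mon h ..), cq_mon h ..]
  obtain ⟨a, k, e | ⟨k', e⟩⟩ := Dw_ex (C := C) i <;> rw [e]
  exacts [((cq_mon h ..).mul (w _)).add h cq_zero,
    ((cq_mon h ..).mul (w _)).add h ((cq_mon h ..).mul (w _))]

theorem Dw_le (h : C.Is) {p : Fam C.J} {l l' : ℝ} (hl : l' ≤ l) (x : C.Pt) (hp : 1 ≤ C.at' p x)
    (i : Fin 5) : C.at' (C.Dw 1 l i) x ≤ C.at' (C.Dw p l' i) x := by
  have v : 1 ≤ C.vv x.1 (C.uu x) (C.rr x) := by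
    linarith [two_le_vv x.1 (C.uu x) (C.rr x), one_le_rr h x]
  have m : ∀ a b e, C.at' (C.mon a (b - l) e) x ≤ C.at' (C.mon a (b - l') e) x := fun a b e =>
    mul_le_mul_of_nonneg_right (mul_le_mul_of_nonneg_left (Real.rpow_le_rpow_of_exponent_le v
      (by linarith)) (Real.rpow_nonneg (rr_pos h x).le _))
      (Real.rpow_nonneg ((abs_nonneg _).trans (ut_ge ..)) _)
  have w : ∀ i a e, C.at' (C.mon a 0 e * C.w 1 l i) x ≤ C.at' (C.mon a 0 e * C.w p l' i) x :=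
    fun i a e => by
    refine mul_le_mul_of_nonneg_left ?_ (at_pos h a 0 e x).le
    obtain ⟨a, b, e, k | k⟩ := w_ex (C := C) i <;> rw [k, k]
    exacts [mul_le_mul hp (m ..) (at_pos h a _ e x).le (zero_le_one.trans hp), m ..]
  obtain ⟨a, k, e | ⟨k', e⟩⟩ := Dw_ex (C := C) i <;> rw [e, e, at_add, at_add]
  exacts [add_le_add (w ..) le_rfl, add_le_add (w ..) (w ..)]

/-! ### The conserved part -/

theorem al_lin (h : C.Is) {Z Y : Set C.Pt} (L : LinY C Z Y) {g : A} (hg : C.X 1 g = -g)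
    {a b c e : ℝ} (e0 : 0 ≤ e) (b0 : b ≤ 0) (ab : 0 ≤ a + 1 + b) (n : ℕ)
    (z : ∀ x ∈ Y, x ∈ Z → C.jet n g x ≤ e * C.at' (C.mon a b c) x) :
    ∀ x ∈ Y, C.jet n g x ≤ cw n * (e * C.at' (C.mon a b c) x) := fun x hx => by
  refine P354YS.jet_le n g fun I hI => ?_
  have m : ∀ x, C.at' (C.mon (a + 1) b c) x = C.rr x * C.at' (C.mon a b c) x := fun x => by
    rw [← at_r1, at_mon_mul h, zero_add, zero_add, add_comm]
  have := L (C.r * C.wd I g) ((fun _ _ _ => e) * C.mon (a + 1) b c)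
    (smF_mul (smF_const fun _ => e) (smF_mon h _ _ _)) (fun y hy k => by
      rw [md_mul, md_r h, at_mul, m, mul_left_comm]
      exact mul_le_mul_of_nonneg_left ((P354YS.md_le_jet hI g).trans (z y hy k)) (rr_pos h y).le)
    (fun y _ => by
      have r := rr_pos h y
      have v := two_le_vv y.1 (C.uu y) (C.rr y)
      have d := (mon_deriv (a + 1) b c y.1 (C.uu y) r).const_mul e
      rw [D_mul, R_r h, mul_one, ← X1, wd_comm (X1_X h), hg, P354YS.wd_neg, neg_add_cancel, md_zero]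
      refine (mul_nonneg e0 (mul_nonneg ?_ (mn_pos h _ _ _ _ _ r).le)).trans_eq d.deriv.symm
      have : b / C.rr y ≤ 2 * b / C.vv y.1 (C.uu y) (C.rr y) := by
        rw [div_le_div_iff₀ r (by linarith)]
        linarith [mul_le_mul_of_nonpos_left v b0]
      have := div_nonneg ab r.le
      rw [add_div] at this
      linarith) x hx
  rw [md_mul, md_r h, at_mul, m, mul_left_comm] at this
  exact le_of_mul_le_mul_left this (rr_pos h x)

/-! ### Continuity -/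

section
variable (i : T.Is K) (j : C.J)
include i

theorem c_md (f : A) : @Continuous _ _ (T.top j) _ fun x => C.md ⟨j, x⟩ f :=
  letI := T.top j
  (i.cont j f).norm

theorem c_val (f : A) : @Continuous _ _ (T.top j) _ fun x => C.val ⟨j, x⟩ f :=
  letI := T.top j
  Complex.continuous_re.comp (i.cont j f)

theorem c_jet (n : ℕ) (f : A) : @Continuous _ _ (T.top j) _ fun x => C.jet n f ⟨j, x⟩ := by
  let _ := T.top j
  induction n generalizing f with
  | zero => exact (c_md i j f).congr fun x => (jet_zero f).symm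
  | succ n ih =>
    exact ((c_md i j f).add (continuous_finsetSum _ fun a _ => ih _)).congr fun x =>
      (jet_succ n f).symm

theorem c_at (h : C.Is) {φ : Fam C.J} (s : SmF φ) :
    @Continuous _ _ (T.top j) _ fun x => C.at' φ ⟨j, x⟩ :=
  letI := T.top j
  (c_val i j (C.fn φ)).congr fun _ => vl_fn h s

end

/-! ### Weights in t -/

theorem cw_one (κ : ℝ) (j : C.J) : Cw C κ j 1 :=
  ⟨smF_const fun _ => 1, fun q _ => by simp⟩

theorem Cw.mul (h : C.Is) {κ : ℝ} {j : C.J} {φ ψ : Fam C.J} (a : Cw C κ j φ) (b : Cw C κ j ψ) :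
    Cw C κ j (φ * ψ) := by
  refine ⟨smF_mul a.1 b.1, fun q hq => ?_⟩
  have r : 0 < q.2 := one_pos.trans_le ((h.one_le j).1.trans (h.rng j q hq).1)
  obtain ⟨a0, a1, a2⟩ := a.2 q hq
  obtain ⟨b0, b1, b2⟩ := b.2 q hq
  have u1 := (P354YP.SmF.du a.1 (j := j) (u := q.1) r).differentiableAt
  have u2 := (P354YP.SmF.du b.1 (j := j) (u := q.1) r).differentiableAt
  have r1 := (P354YP.SmF.dr a.1 (j := j) (u := q.1) r).differentiableAt
  have r2 := (P354YP.SmF.dr b.1 (j := j) (u := q.1) r).differentiableAt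
  rw [show deriv (fun u => (φ * ψ) j u q.2) q.1 = _ from deriv_mul u1 u2,
    show deriv ((φ * ψ) j q.1) q.2 = _ from deriv_mul r1 r2]
  exact ⟨mul_nonneg a0 b0,
    by linarith [mul_le_mul_of_nonneg_left a1 b0, mul_le_mul_of_nonneg_left b1 a0],
    by linarith [mul_le_mul_of_nonneg_left a2 b0, mul_le_mul_of_nonneg_left b2 a0]⟩

/-- A decreasing function of u - ka / r - mu (r). -/
theorem cw_of (h : C.Is) {κ : ℝ} {W μ : C.J → ℝ → ℝ} (sW : ∀ j, ContDiff ℝ ∞ (W j))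
    (sμ : ∀ j, ContDiffOn ℝ ∞ (μ j) (Ioi 0)) (j : C.J) (w : ∀ t, 0 ≤ W j t ∧ deriv (W j) t ≤ 0)
    (m : ∀ r, C.R0 j ≤ r → 0 ≤ deriv (μ j) r ∧ 4 * (r ^ 2 * deriv (μ j) r) ≤ κ) :
    Cw C κ j fun j u r => W j (u - κ / r - μ j r) := by
  refine ⟨fun j => (sW j).comp_contDiffOn ((contDiffOn_fst.sub (contDiffOn_const.div contDiffOn_snd
    fun p e => ne_of_gt e)).sub ((sμ j).comp contDiffOn_snd fun p e => e)), fun q hq => ?_⟩
  have r0 := (h.rng j q hq).1
  have r : 0 < q.2 := one_pos.trans_le ((h.one_le j).1.trans r0)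
  have d := ((sW j).differentiable (by simp) (q.1 - κ / q.2 - μ j q.2)).hasDerivAt
  have dμ := (((sμ j).contDiffAt (Ioi_mem_nhds r)).differentiableAt (by simp)).hasDerivAt
  have d1 := d.comp q.1 (((hasDerivAt_id q.1).sub_const (κ / q.2)).sub_const (μ j q.2))
  have d2 := d.comp q.2 ((((hasDerivAt_inv r.ne').const_mul κ).const_sub q.1).sub dμ)
  rw [show deriv (fun u => W j (u - κ / q.2 - μ j q.2)) q.1 = _ from d1.deriv,
    show deriv (fun r => W j (q.1 - κ / r - μ j r)) q.2 = _ from d2.deriv]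
  have e : q.2 ^ 2 * (q.2 ^ 2)⁻¹ = 1 := mul_inv_cancel₀ (by positivity)
  obtain ⟨w0, w1⟩ := w (q.1 - κ / q.2 - μ j q.2)
  obtain ⟨m0, m1⟩ := m _ r0
  generalize deriv (W j) (q.1 - κ / q.2 - μ j q.2) = z at *
  have e1 : q.2 ^ 2 * (z * (-(κ * -(q.2 ^ 2)⁻¹) - deriv (μ j) q.2)) =
      κ * z - z * (q.2 ^ 2 * deriv (μ j) q.2) := by linear_combination κ * z * e
  rw [e1]
  exact ⟨w0, by linarith [mul_nonpos_of_nonpos_of_nonneg w1 (mul_nonneg (sq_nonneg q.2) m0)],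
    by linarith [mul_le_mul_of_nonpos_left m1 w1]⟩

variable (C) in
/-- The weight 2 (U0 + t_+)^a, with a smooth positive part. -/
def W0 (κ a : ℝ) : Fam C.J := fun j u r => 2 * P354YP.up (C.U0 j) (u - κ / r - 0) ^ a

theorem cw_W0 (h : C.Is) {κ a : ℝ} (κ0 : 0 ≤ κ) (a0 : a ≤ 0) (j : C.J) : Cw C κ j (W0 C κ a) := by
  have U := fun j => (h.one_le j).1.trans (h.one_le j).2
  refine cw_of h (W := fun j t => 2 * P354YP.up (C.U0 j) t ^ a) (μ := fun _ _ => 0)
    (fun j => contDiff_const.mul ((P354YP.c_up (U j)).rpow_const_of_ne fun t =>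
      (P354YP.up_pos (U j)).ne')) (fun _ => contDiffOn_const) j (fun t => ?_) fun r _ => by simpa
  have p := P354YP.up_pos (u := t) (U j)
  have := P354YP.yy_pos (u := t) (U j)
  have := P354YP.ut_pos (u := t) (U j)
  rw [(((P354YP.d_up (U j)).rpow_const (p := a) (Or.inl p.ne')).const_mul 2).deriv]
  exact ⟨by positivity, mul_nonpos_of_nonneg_of_nonpos zero_le_two (mul_nonpos_of_nonpos_of_nonneg
    (mul_nonpos_of_nonneg_of_nonpos (by positivity) a0) (by positivity))⟩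

theorem W0_ge (h : C.Is) {κ a : ℝ} (κ0 : 0 ≤ κ) (a0 : a ≤ 0) (a1 : -1 / 2 ≤ a) (x : C.Pt)
    (k : κ ≤ C.rr x) : C.at' (C.mon 0 0 a) x ≤ C.at' (W0 C κ a) x := by
  have U := (h.one_le x.1).1.trans (h.one_le x.1).2
  have r := rr_pos h x
  have t := one_le_ut h x.1 (C.uu x)
  have e1 := ut_lip x.1 (C.uu x - κ / C.rr x - 0) (C.uu x)
  rw [show C.uu x - κ / C.rr x - 0 - C.uu x = -(κ / C.rr x) by ring, abs_neg,
    abs_of_nonneg (div_nonneg κ0 r.le)] at e1
  have e2 := Real.rpow_le_rpow_of_nonpos (P354YP.up_pos U) ((P354YP.up_le U).trans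
    (show 2 * C.ut x.1 (C.uu x - κ / C.rr x - 0) ≤ 4 * C.ut x.1 (C.uu x) by
      linarith [(div_le_one r).2 k])) a0
  have e3 : (1 : ℝ) ≤ 2 * 4 ^ a := by
    have := Real.rpow_le_rpow_of_exponent_le (show (1 : ℝ) ≤ 4 by norm_num) a1
    rw [show (4 : ℝ) ^ (-1 / 2 : ℝ) = 1 / 2 by
      rw [show (4 : ℝ) = 2 ^ (2 : ℝ) by norm_num, ← Real.rpow_mul zero_le_two]; norm_num] at this
    linarith
  rw [Real.mul_rpow (by norm_num) (by linarith)] at e2
  simp only [Ch.at', Ch.mon, W0, Real.rpow_zero, one_mul]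
  linarith [mul_le_mul_of_nonneg_right e3 (Real.rpow_nonneg (zero_le_one.trans t) a)]

theorem W0_le (h : C.Is) {κ a : ℝ} (a0 : a ≤ 0) (j : C.J) (u r : ℝ) :
    W0 C κ a j u r ≤ 2 * (C.U0 j + max (u - κ / r) 0) ^ a := by
  have U := (h.one_le j).1.trans (h.one_le j).2
  have := abs_le.1 (P354YP.abs_le_ut (R := C.U0 j) (u := u - κ / r))
  refine mul_le_mul_of_nonneg_left (Real.rpow_le_rpow_of_nonpos (by positivity) ?_ a0) zero_le_two
  rw [sub_zero, P354YP.up, P354YP.yy]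
  rcases le_total (u - κ / r) 0 with c | c
  · rw [max_eq_right c]; linarith
  · rw [max_eq_left c]; linarith

end Vale.Agent.P354YL
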